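import Mathlib

/-!
Normalised exponential sums over finite index types, their moments, and elementary tools.
-/

namespace Vale.Agent.P012
open Finset Real
open scoped BigOperators ComplexConjugate

/-- `e(x) = exp(2 π i x)`. -/
noncomputable def ee (x : ℝ) : ℂ := Complex.exp (((2 * π * x : ℝ) : ℂ) * Complex.I)

theorem ee_add (x y : ℝ) : ee (x + y) = ee x * ee y := by
  rw [ee, ee, ee, ← Complex.exp_add]
  push_cast; ring_nf

@[simp] theorem ee_zero : ee 0 = 1 := by simp [ee]

@[simp] theorem norm_ee (x : ℝ) : ‖ee x‖ = 1 := Complex.norm_exp_ofReal_mul_I _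

theorem conj_ee (x : ℝ) : conj (ee x) = ee (-x) := by
  rw [ee, ee, ← Complex.exp_conj, map_mul, Complex.conj_ofReal, Complex.conj_I]
  push_cast; ring_nf

theorem ee_int (n : ℤ) : ee n = 1 := by
  rw [ee]
  have : (((2 * π * (n : ℝ) : ℝ) : ℂ) * Complex.I) = (n : ℂ) * (2 * π * Complex.I) := by
    push_cast; ring
  rw [this, Complex.exp_int_mul_two_pi_mul_I]

theorem ee_sum {κ : Type*} (s : Finset κ) (f : κ → ℝ) : ee (∑ k ∈ s, f k) = ∏ k ∈ s, ee (f k) := by
  classical
  induction s using Finset.induction_on with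
  | empty => simp
  | insert a t ha ih => rw [sum_insert ha, prod_insert ha, ee_add, ih]

theorem ee_nat_mul (x : ℝ) (n : ℕ) : ee (x * n) = ee x ^ n := by
  induction n with
  | zero => simp
  | succ n ih => rw [Nat.cast_succ, mul_add, mul_one, ee_add, ih, pow_succ]

/-- Distance to the nearest integer. -/
noncomputable def dI (x : ℝ) : ℝ := |x - round x|

theorem dI_nonneg (x : ℝ) : 0 ≤ dI x := abs_nonneg _
theorem dI_le_half (x : ℝ) : dI x ≤ 1 / 2 := abs_sub_round x
theorem dI_le (x : ℝ) (n : ℤ) : dI x ≤ |x - n| := round_le x n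

theorem dI_add_int (x : ℝ) (n : ℤ) : dI (x + n) = dI x := by
  rw [dI, dI, round_add_intCast]; push_cast; ring_nf

theorem dI_triangle (x y : ℝ) : dI x ≤ dI (x + y) + |y| := by
  refine (dI_le x (round (x + y))).trans ?_
  have : x - (round (x + y) : ℝ) = (x + y - round (x + y)) + (-y) := by ring
  rw [this]
  exact (abs_add_le _ _).trans (by rw [abs_neg]; rfl)

theorem dI_eq_abs {x : ℝ} (h : |x| ≤ 1 / 2) : dI x = |x| := by
  refine le_antisymm (by simpa using dI_le x 0) ?_
  by_cases h0 : round x = 0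
  · simp [dI, h0]
  · have h1 : (1 : ℝ) ≤ |(round x : ℝ)| := by
      rw [← Int.cast_abs]; exact_mod_cast Int.one_le_abs h0
    have h2 : |(round x : ℝ)| - |x| ≤ |(round x : ℝ) - x| := abs_sub_abs_le_abs_sub _ _
    rw [dI, abs_sub_comm]
    linarith

/-- A geometric progression of exponentials. -/
theorem geom_ee (x : ℝ) (a : ℤ) (n : ℕ) :
    ‖∑ j ∈ range n, ee (x * ((a : ℝ) + j))‖ * dI x ≤ 1 / 2 := by
  have h1 : ∑ j ∈ range n, ee (x * ((a : ℝ) + j)) = ee (x * a) * ∑ j ∈ range n, ee x ^ j := by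
    rw [mul_sum]
    exact sum_congr rfl fun j _ => by rw [mul_add, ee_add, ee_nat_mul]
  rw [h1, norm_mul, norm_ee, one_mul]
  have h2 : 4 * dI x ≤ ‖ee x - 1‖ := by
    have e : ee x = ee (x - round x) := by
      conv_lhs => rw [show x = (x - round x) + ((round x : ℤ) : ℝ) by ring]
      rw [ee_add, ee_int, mul_one]
    rw [e, ee]
    rw [show (((2 * π * (x - round x) : ℝ) : ℂ) * Complex.I)
      = Complex.I * ((2 * π * (x - round x) : ℝ) : ℂ) by ring, Complex.norm_exp_I_mul_ofReal_sub_one]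
    rw [show 2 * π * (x - round x) / 2 = π * (x - round x) by ring, Real.norm_eq_abs, abs_mul,
      abs_two]
    set t := x - round x with ht
    have htt : |t| ≤ 1 / 2 := abs_sub_round x
    have hs : 2 / π * (π * |t|) ≤ sin (π * |t|) :=
      Real.mul_le_sin (by positivity) (by nlinarith [pi_pos])
    have hs2 : 2 / π * (π * |t|) = 2 * |t| := by field_simp
    have hs3 : sin (π * |t|) ≤ |sin (π * t)| := by
      rcases abs_cases t with ⟨h, -⟩ | ⟨h, -⟩
      · rw [h]; exact le_abs_self _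
      · rw [h, mul_neg, sin_neg]; exact neg_le_abs _
    show 4 * |x - round x| ≤ _
    rw [← ht]
    linarith
  have h3 : ‖∑ j ∈ range n, ee x ^ j‖ * ‖ee x - 1‖ ≤ 2 := by
    rw [← norm_mul, geom_sum_mul]
    refine (norm_sub_le _ _).trans ?_
    simp
    norm_num
  have h4 := mul_le_mul_of_nonneg_left h2 (norm_nonneg (∑ j ∈ range n, ee x ^ j))
  linarith

/-- Normalised exponential sum `𝔼_i e(α f i)`. -/
noncomputable def S {ι : Type*} [Fintype ι] (f : ι → ℤ) (α : ℝ) : ℂ := 𝔼 i, ee (α * f i)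

/-- The difference of two `r`-fold sums. -/
def dif {ι : Type*} (f : ι → ℤ) (r : ℕ) (c : (Fin r → ι) × (Fin r → ι)) : ℤ :=
  (∑ l, f (c.1 l)) - ∑ l, f (c.2 l)

/-- Probability that `f i = 0`. -/
noncomputable def P0 {ι : Type*} [Fintype ι] (f : ι → ℤ) : ℝ := 𝔼 i, if f i = 0 then 1 else 0

variable {ι : Type*} [Fintype ι]

theorem norm_S_le_one (f : ι → ℤ) (α : ℝ) : ‖S f α‖ ≤ 1 := by
  refine (RCLike.norm_expect_le (K := ℂ) (s := univ) (f := fun i => ee (α * f i))).trans ?_
  rcases isEmpty_or_nonempty ι with h | h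
  · simp
  · exact le_of_eq (by simp)

theorem continuous_S (f : ι → ℤ) : Continuous (S f) := by
  unfold S ee
  simp only [Fintype.expect_eq_sum_div_card]
  fun_prop

theorem S_smul (f : ι → ℤ) (q : ℤ) (α : ℝ) : S (fun i => q * f i) α = S f ((q : ℝ) * α) := by
  unfold S
  refine Finset.expect_congr rfl fun i _ => ?_
  push_cast; ring_nf

theorem S_pow (f : ι → ℤ) (r : ℕ) (α : ℝ) :
    S f α ^ r = S (fun c : Fin r → ι => ∑ l, f (c l)) α := by
  unfold S
  rw [Finset.expect_pow, Fintype.piFinset_univ]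
  refine Finset.expect_congr rfl fun c _ => ?_
  rw [← ee_sum]
  push_cast
  rw [mul_sum]

theorem conj_S (f : ι → ℤ) (α : ℝ) : conj (S f α) = S (fun i => - f i) α := by
  unfold S
  rw [Fintype.expect_eq_sum_div_card, Fintype.expect_eq_sum_div_card, map_div₀, map_sum]
  simp [conj_ee]

theorem S_mul {κ : Type*} [Fintype κ] (f : ι → ℤ) (g : κ → ℤ) (α : ℝ) :
    S f α * S g α = S (fun x : ι × κ => f x.1 + g x.2) α := by
  unfold S
  rw [Fintype.expect_mul_expect, ← Finset.univ_product_univ, Finset.expect_product]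
  refine Finset.expect_congr rfl fun i _ => Finset.expect_congr rfl fun j _ => ?_
  rw [← ee_add]
  push_cast; ring_nf

theorem norm_pow_eq (f : ι → ℤ) (r : ℕ) (α : ℝ) :
    ((‖S f α‖ ^ (2 * r) : ℝ) : ℂ) = S (dif f r) α := by
  have : ((‖S f α‖ ^ (2 * r) : ℝ) : ℂ) = S f α ^ r * conj (S f α) ^ r := by
    rw [← mul_pow, Complex.mul_conj', ← pow_mul]
    push_cast; rfl
  rw [this, conj_S, S_pow, S_pow, S_mul]
  congr 1
  funext c
  simp [dif, sub_eq_add_neg]

theorem norm_S_dif (f : ι → ℤ) (r : ℕ) (α : ℝ) : ‖S (dif f r) α‖ = ‖S f α‖ ^ (2 * r) := by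
  rw [← norm_pow_eq, Complex.norm_real, Real.norm_eq_abs, abs_of_nonneg (by positivity)]

theorem integral_ee (n : ℤ) : ∫ α in (0 : ℝ)..1, ee (α * n) = if n = 0 then 1 else 0 := by
  split_ifs with h
  · simp [h]
  · have hc : ((2 * π * n : ℝ) : ℂ) * Complex.I ≠ 0 := by
      refine mul_ne_zero ?_ Complex.I_ne_zero
      rw [Complex.ofReal_ne_zero]
      exact mul_ne_zero (by positivity) (by exact_mod_cast h)
    have : ∀ α : ℝ, ee (α * n) = Complex.exp ((((2 * π * n : ℝ) : ℂ) * Complex.I) * α) := by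
      intro α; rw [ee]; push_cast; ring_nf
    simp only [this]
    rw [integral_exp_mul_complex hc]
    have h1 : Complex.exp ((((2 * π * n : ℝ) : ℂ) * Complex.I) * ((1 : ℝ) : ℂ)) = 1 := by
      have := ee_int n
      rw [ee] at this
      simpa using this
    rw [h1]
    simp

theorem integral_S (f : ι → ℤ) :
    ∫ α in (0 : ℝ)..1, S f α = ((P0 f : ℝ) : ℂ) := by
  unfold S P0
  simp only [Fintype.expect_eq_sum_div_card]
  rw [intervalIntegral.integral_div, intervalIntegral.integral_finsetSum]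
  · simp only [integral_ee]
    push_cast
    congr 1
    exact Finset.sum_congr rfl fun i _ => by split_ifs <;> simp
  · intro i _
    apply Continuous.intervalIntegrable
    unfold ee; fun_prop

theorem integral_norm_pow (f : ι → ℤ) (r : ℕ) :
    ∫ α in (0 : ℝ)..1, ‖S f α‖ ^ (2 * r) = P0 (dif f r) := by
  have h := integral_S (dif f r)
  simp only [← norm_pow_eq] at h
  rw [intervalIntegral.integral_ofReal] at h
  exact_mod_cast h

/-! Expectations over product types. -/

section resample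
variable {κ : Type*} [Fintype κ] [DecidableEq κ] {β : κ → Type*} [∀ k, Fintype (β k)]
  [∀ k, Nonempty (β k)] {M : Type*} [AddCommMonoid M] [Module ℚ≥0 M]

/-- Replace the coordinates in `T` by fresh ones. -/
def override (T : Finset κ) (f : ∀ k, β k) (g : ∀ k : {x // x ∈ T}, β k.1) : ∀ k, β k :=
  fun k => if h : k ∈ T then g ⟨k, h⟩ else f k

theorem expect_resample (T : Finset κ) (F : (∀ k, β k) → M) :
    𝔼 f, F f = 𝔼 f, 𝔼 g : (∀ k : {x // x ∈ T}, β k.1), F (override T f g) := by
  let e := Equiv.piEquivPiSubtypeProd (fun k => k ∈ T) β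
  have hsplit : ∀ (G : (∀ k, β k) → M), 𝔼 f, G f
      = 𝔼 g : (∀ k : {x // x ∈ T}, β k.1), 𝔼 h : (∀ k : {x // ¬x ∈ T}, β k.1), G (e.symm (g, h)) := by
    intro G
    rw [Fintype.expect_equiv e G (fun p => G (e.symm p)) (fun f => by simp), ← univ_product_univ,
      expect_product]
  rw [hsplit F, hsplit (fun f => 𝔼 g, F (override T f g))]
  have hov : ∀ g' h g, override T (e.symm (g', h)) g = e.symm (g, h) := by
    intro g' h g
    funext k
    by_cases hk : k ∈ T <;> simp [override, e, Equiv.piEquivPiSubtypeProd, hk]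
  simp only [hov]
  rw [Fintype.expect_const, Finset.expect_comm]

theorem expect_update (k : κ) (F : (∀ k, β k) → M) :
    𝔼 f, F f = 𝔼 f, 𝔼 x : β k, F (Function.update f k x) := by
  let e := Equiv.piSplitAt k β
  have hsplit : ∀ (G : (∀ k, β k) → M), 𝔼 f, G f = 𝔼 x, 𝔼 h, G (e.symm (x, h)) := by
    intro G
    rw [Fintype.expect_equiv e G (fun p => G (e.symm p)) (fun f => by simp), ← univ_product_univ,
      expect_product]
  rw [hsplit F, hsplit (fun f => 𝔼 x, F (Function.update f k x))]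
  have hov : ∀ x' h x, Function.update (e.symm (x', h)) k x = e.symm (x, h) := by
    intro x' h x
    funext j
    by_cases hj : j = k
    · subst hj; simp [e, Equiv.piSplitAt]
    · simp [e, Equiv.piSplitAt, hj]
  simp only [hov]
  rw [Fintype.expect_const, Finset.expect_comm]

end resample

theorem avg_pow_le {w : ℕ} (hw : 3 ≤ w) (a : Fin w → ℝ) (ha : ∀ k, 0 ≤ a k) (r : ℕ) :
    (𝔼 k, a k) ^ (2 * r) ≤ (2 / (w : ℝ)) ^ (2 * r) * ∑ k, a k ^ (2 * r)
      + ∑ k, ∑ k' ∈ univ.erase k, (a k * a k') ^ r := by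
  have : Nonempty (Fin w) := ⟨⟨0, by omega⟩⟩
  obtain ⟨m, -, hm⟩ := Finset.exists_max_image (univ : Finset (Fin w)) a univ_nonempty
  obtain ⟨m', hm'e, hm'⟩ := Finset.exists_max_image (univ.erase m) a (by
    rw [← Finset.card_pos, Finset.card_erase_of_mem (mem_univ m)]; simp; omega)
  have hw' : (0 : ℝ) < w := by exact_mod_cast (by omega : 0 < w)
  have hsum : ∑ k, a k ≤ a m + ((w : ℝ) - 1) * a m' := by
    rw [← Finset.add_sum_erase _ _ (mem_univ m)]
    have h := Finset.sum_le_card_nsmul (univ.erase m) a (a m') hm'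
    rw [Finset.card_erase_of_mem (mem_univ m), nsmul_eq_mul] at h
    simp only [card_univ, Fintype.card_fin] at h
    rw [Nat.cast_sub (by omega)] at h
    push_cast at h
    linarith
  have hS : 0 ≤ ∑ k, a k := sum_nonneg fun k _ => ha k
  have hnn1 : 0 ≤ (2 / (w : ℝ)) ^ (2 * r) * ∑ k, a k ^ (2 * r) :=
    mul_nonneg (by positivity) (sum_nonneg fun k _ => pow_nonneg (ha k) _)
  have hnn2 : 0 ≤ ∑ k, ∑ k' ∈ univ.erase k, (a k * a k') ^ r :=
    sum_nonneg fun k _ => sum_nonneg fun k' _ => pow_nonneg (mul_nonneg (ha k) (ha k')) _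
  rw [Fintype.expect_eq_sum_div_card, Fintype.card_fin]
  by_cases h1 : ((w : ℝ) - 1) * a m' ≤ a m
  · have h2 : (∑ k, a k) / w ≤ 2 / w * a m := by
      rw [div_mul_eq_mul_div]; gcongr; linarith
    have h3 := pow_le_pow_left₀ (by positivity) h2 (2 * r)
    rw [mul_pow] at h3
    have h4 : a m ^ (2 * r) ≤ ∑ k, a k ^ (2 * r) :=
      Finset.single_le_sum (f := fun k => a k ^ (2 * r)) (fun k _ => pow_nonneg (ha k) _) (mem_univ m)
    have h5 := mul_le_mul_of_nonneg_left h4 (by positivity : (0 : ℝ) ≤ (2 / (w : ℝ)) ^ (2 * r))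
    linarith
  · push Not at h1
    have hmm' : a m' ≤ a m := hm m' (mem_univ _)
    have hw3 : (3 : ℝ) ≤ w := by exact_mod_cast hw
    have h2 : ((∑ k, a k) / w) ^ 2 ≤ a m * a m' := by
      rw [div_pow, div_le_iff₀ (by positivity)]
      refine le_trans (pow_le_pow_left₀ hS hsum 2) ?_
      have h6 : a m ≤ ((w : ℝ) - 1) ^ 2 * a m' := by
        have := ha m'
        nlinarith [mul_nonneg (by linarith : (0:ℝ) ≤ w - 1) (mul_nonneg (by linarith : (0:ℝ) ≤ w - 2) this)]
      nlinarith [mul_nonneg (sub_nonneg.2 hmm') (sub_nonneg.2 h6)]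
    have h3 := pow_le_pow_left₀ (by positivity) h2 r
    rw [← pow_mul] at h3
    have h4 : (a m * a m') ^ r ≤ ∑ k, ∑ k' ∈ univ.erase k, (a k * a k') ^ r :=
      le_trans
        (Finset.single_le_sum (f := fun k' => (a m * a k') ^ r)
          (fun k' _ => pow_nonneg (mul_nonneg (ha m) (ha k')) _) hm'e)
        (Finset.single_le_sum (f := fun k => ∑ k' ∈ univ.erase k, (a k * a k') ^ r)
          (fun k _ => sum_nonneg fun k' _ => pow_nonneg (mul_nonneg (ha k) (ha k')) _) (mem_univ m))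
    linarith

end Vale.Agent.P012
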