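import Mathlib
import Vale.Agent.P012.Basic

/-!
The random pool of primes: steps, options, and the products `dT`.
-/

namespace Vale.Agent.P012
open Finset
open scoped BigOperators

/-- Number of steps with many options. -/
def bigCount : ℕ := 182

/-- Fixed data: `2 z` steps; step `i` has `z` options for `i < bigCount` and `16` options
otherwise; each option draws a prime from its own block inside `(U, U (1 + 1/z^3)]`. -/
structure Pool where
  z : ℕ
  hz : 10 ^ 8 ≤ z
  U : ℕ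
  hUlo : z ^ 99 ≤ U
  hUhi : U ≤ z ^ 100
  B : (Σ i : Fin (2 * z), Fin (if (i : ℕ) < bigCount then z else 16)) → Finset ℕ
  hcard : ∀ σ, (B σ).card = z ^ 92
  hB : ∀ σ, ∀ p ∈ B σ, p.Prime ∧ U < p ∧ z ^ 3 * p ≤ (z ^ 3 + 1) * U
  hdisj : ∀ σ σ', σ ≠ σ' → Disjoint (B σ) (B σ')

namespace Pool
variable (P : Pool)

/-- Number of options at a step. -/
def w (i : Fin (2 * P.z)) : ℕ := if (i : ℕ) < bigCount then P.z else 16

/-- The block of primes of an option. -/
def Blk (σ : Σ i : Fin (2 * P.z), Fin (P.w i)) : Finset ℕ := P.B σ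

theorem blk_card (σ : Σ i : Fin (2 * P.z), Fin (P.w i)) : (P.Blk σ).card = P.z ^ 92 := P.hcard σ

theorem blk_spec (σ : Σ i : Fin (2 * P.z), Fin (P.w i)) :
    ∀ p ∈ P.Blk σ, p.Prime ∧ P.U < p ∧ P.z ^ 3 * p ≤ (P.z ^ 3 + 1) * P.U := P.hB σ

theorem blk_disj (σ σ' : Σ i : Fin (2 * P.z), Fin (P.w i)) (h : σ ≠ σ') :
    Disjoint (P.Blk σ) (P.Blk σ') := P.hdisj σ σ' h

/-- The pools: one prime for each option of each step. -/
abbrev Om : Type := (σ : Σ i : Fin (2 * P.z), Fin (P.w i)) → {p // p ∈ P.Blk σ}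

/-- The choices: one option in each step. -/
abbrev J : Type := (i : Fin (2 * P.z)) → Fin (P.w i)

theorem zpos : 0 < P.z := lt_of_lt_of_le (by norm_num) P.hz

theorem Upos : 0 < P.U := lt_of_lt_of_le (Nat.pow_pos P.zpos) P.hUlo

theorem two_le_U : 2 ≤ P.U := by
  refine le_trans ?_ P.hUlo
  calc 2 ≤ P.z := le_trans (by norm_num) P.hz
    _ ≤ _ := Nat.le_self_pow (by norm_num) _

theorem w_pos (i : Fin (2 * P.z)) : 0 < P.w i := by
  unfold w; split_ifs
  · exact P.zpos
  · norm_num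

instance (i : Fin (2 * P.z)) : Nonempty (Fin (P.w i)) := ⟨⟨0, P.w_pos i⟩⟩

instance (σ : Σ i : Fin (2 * P.z), Fin (P.w i)) : Nonempty {p // p ∈ P.Blk σ} := by
  have : (P.Blk σ).Nonempty := by
    rw [← Finset.card_pos, P.blk_card]; exact Nat.pow_pos P.zpos
  exact this.to_subtype

/-- The prime chosen at step `i` by the choice `j`. -/
def pr (p : P.Om) (i : Fin (2 * P.z)) (j : P.J) : ℕ := (p ⟨i, j i⟩).1

/-- The product of the chosen primes over the steps in `T`. -/
def dT (T : Finset (Fin (2 * P.z))) (p : P.Om) (j : P.J) : ℤ := ((∏ i ∈ T, P.pr p i j : ℕ) : ℤ)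

theorem pr_congr (p : P.Om) (i : Fin (2 * P.z)) {j j' : P.J} (h : j i = j' i) :
    P.pr p i j = P.pr p i j' :=
  congrArg (fun k => (p ⟨i, k⟩).1) h

theorem pr_prime (p : P.Om) (i : Fin (2 * P.z)) (j : P.J) : (P.pr p i j).Prime :=
  (P.blk_spec _ _ (p ⟨i, j i⟩).2).1

theorem dT_inj (T : Finset (Fin (2 * P.z))) (p : P.Om) (j j' : P.J)
    (h : P.dT T p j = P.dT T p j') : ∀ i ∈ T, j i = j' i := by
  intro i hi
  have h' : (∏ i ∈ T, P.pr p i j) = ∏ i ∈ T, P.pr p i j' := by unfold dT at h; exact_mod_cast h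
  have hd : P.pr p i j ∣ ∏ i ∈ T, P.pr p i j' := h' ▸ Finset.dvd_prod_of_mem _ hi
  obtain ⟨i', -, hi'⟩ := ((P.pr_prime p i j).prime.dvd_finsetProd_iff _).1 hd
  have he : P.pr p i j = P.pr p i' j' := (Nat.prime_dvd_prime_iff_eq (P.pr_prime p i j) (P.pr_prime p i' j')).1 hi'
  have hσ : (⟨i, j i⟩ : Σ i : Fin (2 * P.z), Fin (P.w i)) = ⟨i', j' i'⟩ := by
    by_contra hne
    have h1 := (p ⟨i, j i⟩).2
    have h2 := (p ⟨i', j' i'⟩).2
    unfold pr at he
    exact Finset.disjoint_left.1 (P.blk_disj _ _ hne) h1 (he ▸ h2)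
  obtain rfl : i = i' := congrArg Sigma.fst hσ
  exact eq_of_heq (Sigma.mk.inj_iff.1 hσ).2

theorem dT_le (T : Finset (Fin (2 * P.z))) (p : P.Om) (j : P.J) :
    (P.U : ℝ) ^ T.card ≤ P.dT T p j ∧
    (P.dT T p j : ℝ) ≤ (P.U : ℝ) ^ T.card * (1 + 4 / (P.z : ℝ) ^ 2) := by
  have hz : (10 : ℝ) ^ 8 ≤ P.z := by exact_mod_cast P.hz
  have hz0 : (0 : ℝ) < P.z := by linarith
  have e : (P.dT T p j : ℝ) = ∏ i ∈ T, (P.pr p i j : ℝ) := by
    unfold dT; push_cast; rfl
  have hU : (0 : ℝ) ≤ P.U := by positivity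
  have hle : ∀ i, (P.pr p i j : ℝ) ≤ P.U * (1 + 1 / (P.z : ℝ) ^ 3) := by
    intro i
    have := (P.blk_spec _ _ (p ⟨i, j i⟩).2).2.2
    have h' : (P.z : ℝ) ^ 3 * (P.pr p i j) ≤ ((P.z : ℝ) ^ 3 + 1) * P.U := by
      unfold pr; exact_mod_cast this
    rw [show (P.U : ℝ) * (1 + 1 / (P.z : ℝ) ^ 3) = (((P.z : ℝ) ^ 3 + 1) * P.U) / (P.z : ℝ) ^ 3 by
      field_simp]
    rw [le_div_iff₀ (by positivity)]
    linarith
  refine ⟨?_, ?_⟩
  · rw [e, ← Finset.prod_const]
    refine Finset.prod_le_prod (fun i _ => hU) fun i _ => ?_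
    exact_mod_cast (P.blk_spec _ _ (p ⟨i, j i⟩).2).2.1.le
  · rw [e]
    refine le_trans (Finset.prod_le_prod (fun i _ => by positivity) fun i _ => hle i) ?_
    rw [Finset.prod_const, mul_pow]
    refine mul_le_mul_of_nonneg_left ?_ (pow_nonneg hU _)
    have hT : (T.card : ℝ) ≤ 2 * P.z := by
      have := T.card_le_univ
      simp only [Fintype.card_fin] at this
      exact_mod_cast this
    set x := (1 : ℝ) / (P.z : ℝ) ^ 3
    have hx : (T.card : ℝ) * x ≤ 2 / (P.z : ℝ) ^ 2 := by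
      calc (T.card : ℝ) * x ≤ 2 * P.z * x := mul_le_mul_of_nonneg_right hT (by positivity)
        _ = _ := by simp only [x]; field_simp
    have h2 : 2 / (P.z : ℝ) ^ 2 ≤ 1 := by
      rw [div_le_one (by positivity)]; nlinarith
    have h0 : 0 ≤ (T.card : ℝ) * x := by positivity
    calc (1 + x) ^ T.card ≤ Real.exp x ^ T.card :=
          pow_le_pow_left₀ (by positivity) (by linarith [Real.add_one_le_exp x]) _
      _ = Real.exp (T.card * x) := (Real.exp_nat_mul x _).symm
      _ ≤ 1 + 2 * ((T.card : ℝ) * x) := by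
          have := Real.abs_exp_sub_one_le (x := (T.card : ℝ) * x) (by rw [abs_of_nonneg h0]; linarith)
          rw [abs_of_nonneg h0] at this
          linarith [(abs_le.1 this).2]
      _ ≤ _ := by
          have : 4 / (P.z : ℝ) ^ 2 = 2 * (2 / (P.z : ℝ) ^ 2) := by ring
          linarith

theorem dif_dT_bound (T : Finset (Fin (2 * P.z))) (p : P.Om) (r : ℕ)
    (c : (Fin r → P.J) × (Fin r → P.J)) :
    |(dif (P.dT T p) r c : ℝ)| ≤ (P.U : ℝ) ^ T.card * ((r : ℝ) * (4 / (P.z : ℝ) ^ 2)) := by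
  have h : ∀ l, |(P.dT T p (c.1 l) : ℝ) - P.dT T p (c.2 l)| ≤ (P.U : ℝ) ^ T.card * (4 / (P.z : ℝ) ^ 2) := by
    intro l
    obtain ⟨a1, b1⟩ := P.dT_le T p (c.1 l)
    obtain ⟨a2, b2⟩ := P.dT_le T p (c.2 l)
    rw [abs_le]
    constructor <;> linarith
  unfold dif
  push_cast
  rw [← Finset.sum_sub_distrib]
  refine (Finset.abs_sum_le_sum_abs _ _).trans ((Finset.sum_le_sum fun l _ => h l).trans ?_)
  simp; ring_nf; exact le_refl _

theorem dT_congr (T : Finset (Fin (2 * P.z))) (p p' : P.Om)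
    (h : ∀ σ : Σ i : Fin (2 * P.z), Fin (P.w i), σ.1 ∈ T → p σ = p' σ) : P.dT T p = P.dT T p' := by
  funext j
  unfold dT pr
  congr 1
  exact Finset.prod_congr rfl fun i hi => by rw [h ⟨i, j i⟩ hi]

/-- The steps with many options. -/
def bigSteps : Finset (Fin (2 * P.z)) := univ.filter fun i => (i : ℕ) < bigCount

theorem bigSteps_card : P.bigSteps.card = bigCount := by
  have h : bigCount ≤ 2 * P.z := by
    have := P.hz; unfold bigCount; omega
  unfold bigSteps
  rw [show (univ.filter fun i : Fin (2 * P.z) => (i : ℕ) < bigCount)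
      = (univ : Finset (Fin bigCount)).map ⟨Fin.castLE h, Fin.castLE_injective h⟩ from ?_]
  · simp
  · ext i
    simp only [mem_filter, mem_univ, true_and, mem_map, Function.Embedding.coeFn_mk]
    exact ⟨fun hi => ⟨⟨i, hi⟩, by ext; simp⟩, by rintro ⟨k, rfl⟩; simp⟩

theorem prod_w (T : Finset (Fin (2 * P.z))) (hT : P.bigSteps ⊆ T) :
    ∏ i ∈ T, P.w i = P.z ^ bigCount * 16 ^ (T.card - bigCount) := by
  rw [← Finset.prod_sdiff hT]
  have h1 : ∏ i ∈ P.bigSteps, P.w i = P.z ^ bigCount := by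
    rw [← P.bigSteps_card, ← Finset.prod_const]
    exact Finset.prod_congr rfl fun i hi => by
      simp only [bigSteps, mem_filter, mem_univ, true_and] at hi
      simp [w, hi]
  have h2 : ∏ i ∈ T \ P.bigSteps, P.w i = 16 ^ (T.card - bigCount) := by
    rw [← P.bigSteps_card, ← Finset.card_sdiff_of_subset hT, ← Finset.prod_const]
    exact Finset.prod_congr rfl fun i hi => by
      simp only [bigSteps, mem_sdiff, mem_filter, mem_univ, true_and] at hi
      simp [w, hi.2]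
  rw [h1, h2, mul_comm]

theorem sum_eq_pow (T : Finset (Fin (2 * P.z))) (j : P.J) :
    ((univ.filter fun j' : P.J => ∀ i ∈ T, j i = j' i).card : ℝ) * (∏ i ∈ T, (P.w i : ℝ))
      = (Fintype.card P.J : ℝ) := by
  classical
  have he : (univ.filter fun j' : P.J => ∀ i ∈ T, j i = j' i)
      = Fintype.piFinset fun i => if i ∈ T then {j i} else univ := by
    ext j'
    simp only [mem_filter, mem_univ, true_and, Fintype.mem_piFinset]
    constructor
    · intro h i; split_ifs with hi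
      · simp [h i hi]
      · simp
    · intro h i hi
      have := h i
      simp only [hi, if_true, mem_singleton] at this
      exact this.symm
  rw [he, Fintype.card_piFinset, Fintype.card_pi]
  push_cast
  rw [← Finset.prod_mul_prod_compl T (fun i => ((if i ∈ T then {j i} else (univ : Finset (Fin (P.w i)))).card : ℝ)),
    ← Finset.prod_mul_prod_compl T (fun i => (Fintype.card (Fin (P.w i)) : ℝ))]
  have h1 : ∏ i ∈ T, (((if i ∈ T then {j i} else (univ : Finset (Fin (P.w i)))).card : ℕ) : ℝ) = 1 :=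
    Finset.prod_eq_one fun i hi => by simp [hi]
  have h2 : ∏ i ∈ Tᶜ, (((if i ∈ T then {j i} else (univ : Finset (Fin (P.w i)))).card : ℕ) : ℝ)
      = ∏ i ∈ Tᶜ, (Fintype.card (Fin (P.w i)) : ℝ) :=
    Finset.prod_congr rfl fun i hi => by simp [Finset.mem_compl.1 hi]
  rw [h1, h2, one_mul, mul_comm]
  simp

/-- The second moment of `S (dT T p)`: distinct choices give distinct products. -/
theorem P0_one (T : Finset (Fin (2 * P.z))) (p : P.Om) :
    P0 (dif (P.dT T p) 1) ≤ 1 / ∏ i ∈ T, (P.w i : ℝ) := by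
  classical
  have hW : (0 : ℝ) < ∏ i ∈ T, (P.w i : ℝ) :=
    Finset.prod_pos fun i _ => by exact_mod_cast P.w_pos i
  let e : P.J × P.J ≃ (Fin 1 → P.J) × (Fin 1 → P.J) :=
    (Equiv.funUnique (Fin 1) P.J).symm.prodCongr (Equiv.funUnique (Fin 1) P.J).symm
  have heq : P0 (dif (P.dT T p) 1) = 𝔼 x : P.J × P.J, if P.dT T p x.1 - P.dT T p x.2 = 0 then (1 : ℝ) else 0 := by
    unfold P0
    refine (Fintype.expect_equiv e _ _ fun x => ?_).symm
    simp [dif, e]
  rw [heq, ← univ_product_univ, Finset.expect_product]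
  refine Finset.expect_le univ_nonempty fun j _ => ?_
  rw [Fintype.expect_eq_sum_div_card, Finset.sum_boole, div_le_div_iff₀ (by positivity) hW, one_mul,
    ← P.sum_eq_pow T j]
  refine mul_le_mul_of_nonneg_right ?_ hW.le
  exact_mod_cast Finset.card_le_card fun j' hj' => by
    simp only [mem_filter, mem_univ, true_and] at hj' ⊢
    exact P.dT_inj T p j j' (sub_eq_zero.1 hj')

end Pool

end Vale.Agent.P012
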