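import Mathlib
import Vale.Agent.P012.Basic
import Vale.Agent.P012.Pool

/-!
The energy recursion: appending a step with 16 random prime options contracts the `2r`-th moment.
-/

namespace Vale.Agent.P012
open Finset MeasureTheory
open scoped BigOperators

section generic
variable {ι : Type*} [Fintype ι]

/-- Probability that two independent values of `Y` coincide. -/
noncomputable def coll (Y : ι → ℤ) : ℝ := P0 fun x : ι × ι => Y x.1 - Y x.2

theorem P0_nonneg (f : ι → ℤ) : 0 ≤ P0 f := Finset.expect_nonneg fun i _ => by split_ifs <;> norm_num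

theorem P0_le_one (f : ι → ℤ) : P0 f ≤ 1 := by
  rcases isEmpty_or_nonempty ι with h | h
  · simp [P0]
  · exact Finset.expect_le univ_nonempty fun i _ => by split_ifs <;> norm_num

theorem integral_norm_sq (Y : ι → ℤ) : ∫ α in (0 : ℝ)..1, ‖S Y α‖ ^ 2 = coll Y := by
  have h1 : ∀ α : ℝ, ((‖S Y α‖ ^ 2 : ℝ) : ℂ) = S (fun x : ι × ι => Y x.1 - Y x.2) α := by
    intro α
    rw [show ((‖S Y α‖ ^ 2 : ℝ) : ℂ) = S Y α * (starRingEnd ℂ) (S Y α) by
      rw [Complex.mul_conj']; push_cast; rfl, conj_S, S_mul]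
    congr 1
  have h := integral_S (fun x : ι × ι => Y x.1 - Y x.2)
  simp only [← h1] at h
  rw [intervalIntegral.integral_ofReal] at h
  unfold coll
  exact_mod_cast h

/-- Probability that `Y = y`. -/
noncomputable def nu (Y : ι → ℤ) (y : ℤ) : ℝ := 𝔼 a, if Y a = y then 1 else 0

theorem nu_nonneg (Y : ι → ℤ) (y : ℤ) : 0 ≤ nu Y y :=
  Finset.expect_nonneg fun i _ => by split_ifs <;> norm_num

theorem nu_eq_zero (Y : ι → ℤ) {y : ℤ} (h : y ∉ univ.image Y) : nu Y y = 0 := by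
  unfold nu
  refine Finset.expect_eq_zero fun i _ => ?_
  rw [if_neg]
  rintro rfl
  exact h (mem_image_of_mem _ (mem_univ _))

theorem expect_comp_eq (Y : ι → ℤ) (h : ℤ → ℝ) :
    𝔼 a, h (Y a) = ∑ y ∈ univ.image Y, nu Y y * h y := by
  unfold nu
  simp only [Fintype.expect_eq_sum_div_card, div_mul_eq_mul_div, ← Finset.sum_div, Finset.sum_mul]
  rw [Finset.sum_comm]
  congr 1
  refine Finset.sum_congr rfl fun a _ => ?_
  rw [Finset.sum_eq_single (Y a)]
  · simp
  · intro b _ hb; simp [Ne.symm hb]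
  · intro hb; exact absurd (mem_image_of_mem _ (mem_univ a)) hb

theorem coll_eq (Y : ι → ℤ) : coll Y = ∑ y ∈ univ.image Y, nu Y y ^ 2 := by
  unfold coll P0
  rw [← univ_product_univ, Finset.expect_product]
  have : ∀ a, (𝔼 b, if Y (a, b).1 - Y (a, b).2 = 0 then (1 : ℝ) else 0) = nu Y (Y a) := by
    intro a
    exact Finset.expect_congr rfl fun b _ => by
      by_cases h : Y b = Y a
      · simp [h]
      · simp [h, sub_eq_zero, Ne.symm h]
  simp only [this]
  rw [expect_comp_eq Y (fun y => nu Y y)]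
  exact Finset.sum_congr rfl fun y _ => (sq _).symm

open Classical in
/-- `P (q Y + q' Y' = 0)` for independent copies `Y, Y'`. -/
theorem pair_le (Y : ι → ℤ) {q q' : ℕ} (hq : q.Prime) (hq' : q'.Prime) (hne : q ≠ q') :
    P0 (fun x : ι × ι => (q : ℤ) * Y x.1 + (q' : ℤ) * Y x.2) ≤ nu Y 0 ^ 2
      + (1 / 2) * ∑ y ∈ univ.image Y, nu Y y ^ 2 *
          ((if y ≠ 0 ∧ (q' : ℤ) ∣ y then 1 else 0) + (if y ≠ 0 ∧ (q : ℤ) ∣ y then 1 else 0)) := by
  set V := univ.image Y with hV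
  let R : ℤ → ℤ → ℝ := fun y y' => if (q : ℤ) * y + (q' : ℤ) * y' = 0 then 1 else 0
  have hq0 : (q : ℤ) ≠ 0 := by exact_mod_cast hq.ne_zero
  have hq0' : (q' : ℤ) ≠ 0 := by exact_mod_cast hq'.ne_zero
  have hP : P0 (fun x : ι × ι => (q : ℤ) * Y x.1 + (q' : ℤ) * Y x.2)
      = ∑ y ∈ V, ∑ y' ∈ V, nu Y y * nu Y y' * R y y' := by
    unfold P0
    rw [← univ_product_univ, Finset.expect_product]
    rw [expect_comp_eq Y (fun y => 𝔼 b, if (q : ℤ) * y + (q' : ℤ) * Y b = 0 then (1 : ℝ) else 0)]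
    refine Finset.sum_congr rfl fun y _ => ?_
    rw [expect_comp_eq Y (fun y' => R y y'), Finset.mul_sum]
    exact Finset.sum_congr rfl fun y' _ => by ring
  have hcop : IsCoprime (q : ℤ) (q' : ℤ) := Int.isCoprime_iff_nat_coprime.2 (by
    simpa using (Nat.coprime_primes hq hq').2 hne)
  have hrow : ∀ y, ∑ y' ∈ V, R y y' ≤ if (q' : ℤ) ∣ y then 1 else 0 := by
    intro y
    simp only [R]
    rw [Finset.sum_boole]
    split_ifs with h
    · norm_cast
      refine Finset.card_le_one.2 fun a ha b hb => ?_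
      simp only [mem_filter] at ha hb
      exact mul_left_cancel₀ hq0' (by linarith [ha.2, hb.2])
    · simp only [Nat.cast_nonpos, Finset.card_eq_zero, Finset.filter_eq_empty_iff]
      intro y' _ he
      exact h (hcop.symm.dvd_of_dvd_mul_left ⟨-y', by linarith⟩)
  have hcol : ∀ y', ∑ y ∈ V, R y y' ≤ if (q : ℤ) ∣ y' then 1 else 0 := by
    intro y'
    simp only [R]
    rw [Finset.sum_boole]
    split_ifs with h
    · norm_cast
      refine Finset.card_le_one.2 fun a ha b hb => ?_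
      simp only [mem_filter] at ha hb
      exact mul_left_cancel₀ hq0 (by linarith [ha.2, hb.2])
    · simp only [Nat.cast_nonpos, Finset.card_eq_zero, Finset.filter_eq_empty_iff]
      intro y _ he
      exact h (hcop.dvd_of_dvd_mul_left ⟨-y, by linarith⟩)
  rw [hP]
  have hterm : ∀ y ∈ V, ∀ y' ∈ V, nu Y y * nu Y y' * R y y' ≤
      (if y = 0 ∧ y' = 0 then nu Y 0 ^ 2 else 0)
      + (1 / 2) * (nu Y y ^ 2 * (if y ≠ 0 then R y y' else 0))
      + (1 / 2) * (nu Y y' ^ 2 * (if y' ≠ 0 then R y y' else 0)) := by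
    intro y _ y' _
    have hR : 0 ≤ R y y' := by simp only [R]; split_ifs <;> norm_num
    by_cases hy : y = 0
    · by_cases hy' : y' = 0
      · subst hy; subst hy'; simp [R, sq]
      · subst hy
        have : R 0 y' = 0 := by simp [R, hq'.ne_zero, hy']
        simp [this, hy']
    · by_cases hy' : y' = 0
      · subst hy'
        have : R y 0 = 0 := by simp [R, hq.ne_zero, hy]
        simp [this, hy]
      · simp only [ne_eq, hy, hy', not_false_eq_true, if_true, false_and, if_false, zero_add]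
        nlinarith [two_mul_le_add_sq (nu Y y) (nu Y y')]
  refine (Finset.sum_le_sum fun y hy => Finset.sum_le_sum fun y' hy' => hterm y hy y' hy').trans ?_
  simp only [Finset.sum_add_distrib]
  have h1 : ∑ y ∈ V, ∑ y' ∈ V, (if y = 0 ∧ y' = 0 then nu Y 0 ^ 2 else 0) ≤ nu Y 0 ^ 2 := by
    simp only [ite_and, Finset.sum_ite_irrel, Finset.sum_const_zero, Finset.sum_ite_eq']
    split_ifs <;> nlinarith [sq_nonneg (nu Y 0)]
  have h2 : ∑ y ∈ V, ∑ y' ∈ V, (1 / 2 : ℝ) * (nu Y y ^ 2 * (if y ≠ 0 then R y y' else 0))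
      ≤ (1 / 2) * ∑ y ∈ V, nu Y y ^ 2 * (if y ≠ 0 ∧ (q' : ℤ) ∣ y then 1 else 0) := by
    rw [Finset.mul_sum]
    refine Finset.sum_le_sum fun y _ => ?_
    rw [← Finset.mul_sum, ← Finset.mul_sum]
    refine mul_le_mul_of_nonneg_left (mul_le_mul_of_nonneg_left ?_ (sq_nonneg _)) (by norm_num)
    by_cases hy : y = 0
    · simp [hy]
    · simpa [hy] using hrow y
  have h3 : ∑ y ∈ V, ∑ y' ∈ V, (1 / 2 : ℝ) * (nu Y y' ^ 2 * (if y' ≠ 0 then R y y' else 0))
      ≤ (1 / 2) * ∑ y ∈ V, nu Y y ^ 2 * (if y ≠ 0 ∧ (q : ℤ) ∣ y then 1 else 0) := by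
    rw [Finset.sum_comm, Finset.mul_sum]
    refine Finset.sum_le_sum fun y _ => ?_
    rw [← Finset.mul_sum, ← Finset.mul_sum]
    refine mul_le_mul_of_nonneg_left (mul_le_mul_of_nonneg_left ?_ (sq_nonneg _)) (by norm_num)
    by_cases hy : y = 0
    · simp [hy]
    · simpa [hy] using hcol y
  simp only [mul_add, Finset.sum_add_distrib]
  linarith

open Classical in
theorem avg_dvd_le {Q : Finset ℕ} (hQ : Q.Nonempty) {U K : ℕ} (hU : 2 ≤ U)
    (hp : ∀ p ∈ Q, p.Prime ∧ U < p) (y : ℤ) (hy : |(y : ℝ)| < (U : ℝ) ^ K) :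
    (𝔼 x : {p // p ∈ Q}, if y ≠ 0 ∧ ((x.1 : ℕ) : ℤ) ∣ y then (1 : ℝ) else 0) ≤ (K : ℝ) / Q.card := by
  rw [Fintype.expect_eq_sum_div_card, Fintype.card_coe]
  gcongr
  rw [Finset.sum_coe_sort Q (fun p : ℕ => if y ≠ 0 ∧ (p : ℤ) ∣ y then (1 : ℝ) else 0), Finset.sum_boole]
  norm_cast
  by_cases hy0 : y = 0
  · simp [hy0]
  set F := Q.filter fun p : ℕ => y ≠ 0 ∧ (p : ℤ) ∣ y
  have hdvd : (∏ p ∈ F, p) ∣ y.natAbs := Finset.prod_primes_dvd _
    (fun p hp' => (hp p (mem_filter.1 hp').1).1.prime)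
    (fun p hp' => Int.natCast_dvd.1 (mem_filter.1 hp').2.2)
  have hle : U ^ F.card ≤ y.natAbs := by
    refine le_trans ?_ (Nat.le_of_dvd (Int.natAbs_pos.2 hy0) hdvd)
    rw [← Finset.prod_const]
    exact Finset.prod_le_prod' fun p hp' => (hp p (mem_filter.1 hp').1).2.le
  have hlt : U ^ F.card < U ^ K := by
    refine lt_of_le_of_lt hle ?_
    have : ((y.natAbs : ℕ) : ℝ) < ((U ^ K : ℕ) : ℝ) := by
      rw [Nat.cast_natAbs, Int.cast_abs]; push_cast; exact hy
    exact_mod_cast this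
  exact ((Nat.pow_lt_pow_iff_right hU).1 hlt).le

theorem nu_zero_sq_le (f : ι → ℤ) {r' : ℕ} (hr : 1 ≤ r') {γ a : ℝ} (hγ : 0 < γ)
    (ha : P0 (dif f 1) ≤ a) :
    P0 (dif f r') ^ 2 ≤ a * (γ * P0 (dif f (2 * r')) + (1 / γ) ^ (2 * r' - 2) * a) := by
  set A := P0 (dif f 1)
  set I := P0 (dif f r')
  set Bm := ∫ α in (0 : ℝ)..1, ‖S f α‖ ^ (2 * (2 * r' - 1))
  have hc : Continuous fun α => ‖S f α‖ := (continuous_S f).norm
  have hint : ∀ n, IntervalIntegrable (fun α => ‖S f α‖ ^ n) volume 0 1 :=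
    fun n => (hc.pow n).intervalIntegrable 0 1
  have hA : ∫ α in (0 : ℝ)..1, ‖S f α‖ ^ 2 = A := integral_norm_pow f 1
  have hI : ∫ α in (0 : ℝ)..1, ‖S f α‖ ^ (2 * r') = I := integral_norm_pow f r'
  have hB : Bm ≤ γ * P0 (dif f (2 * r')) + (1 / γ) ^ (2 * r' - 2) * a := by
    have hpt : ∀ α, ‖S f α‖ ^ (2 * (2 * r' - 1))
        ≤ γ * ‖S f α‖ ^ (2 * (2 * r')) + (1 / γ) ^ (2 * r' - 2) * ‖S f α‖ ^ 2 := by
      intro α
      set s := ‖S f α‖
      have hs : 0 ≤ s ^ 2 := by positivity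
      have e1 : s ^ (2 * (2 * r' - 1)) = (s ^ 2) ^ (2 * r' - 2) * s ^ 2 := by
        rw [← pow_mul, ← pow_add]; congr 1; omega
      have e2 : s ^ (2 * (2 * r')) = (s ^ 2) * (s ^ (2 * (2 * r' - 1))) := by
        rw [← pow_add]; congr 1; omega
      rcases le_total (s ^ 2) (1 / γ) with h | h
      · have h2 : (s ^ 2) ^ (2 * r' - 2) * s ^ 2 ≤ (1 / γ) ^ (2 * r' - 2) * s ^ 2 :=
          mul_le_mul_of_nonneg_right (pow_le_pow_left₀ hs h _) hs
        have : 0 ≤ γ * s ^ (2 * (2 * r')) := by positivity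
        linarith
      · have h1 : 1 ≤ γ * s ^ 2 := by
          rw [div_le_iff₀ hγ] at h; linarith
        have h2 : s ^ (2 * (2 * r' - 1)) * 1 ≤ s ^ (2 * (2 * r' - 1)) * (γ * s ^ 2) :=
          mul_le_mul_of_nonneg_left h1 (by positivity)
        have : 0 ≤ (1 / γ) ^ (2 * r' - 2) * s ^ 2 := by positivity
        rw [e2]
        linarith
    refine le_trans (intervalIntegral.integral_mono_on zero_le_one (hint _)
      (((hint _).const_mul γ).add ((hint _).const_mul _)) fun α _ => hpt α) ?_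
    rw [intervalIntegral.integral_add ((hint _).const_mul γ) ((hint _).const_mul _),
      intervalIntegral.integral_const_mul, intervalIntegral.integral_const_mul, hA, integral_norm_pow]
    gcongr
  have hA0 : 0 ≤ A := P0_nonneg _
  have hBm0 : 0 ≤ Bm := intervalIntegral.integral_nonneg zero_le_one fun α _ => by positivity
  have hquad : ∀ t : ℝ, 0 ≤ t ^ 2 * A - 2 * t * I + Bm := by
    intro t
    have e : ∀ α, (t * ‖S f α‖ - ‖S f α‖ ^ (2 * r' - 1)) ^ 2
        = t ^ 2 * ‖S f α‖ ^ 2 - 2 * t * ‖S f α‖ ^ (2 * r') + ‖S f α‖ ^ (2 * (2 * r' - 1)) := by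
      intro α
      rw [sub_sq, mul_pow, ← pow_mul, mul_comm (2 * r' - 1) 2]
      congr 1
      congr 1
      rw [mul_assoc 2, mul_assoc t, ← pow_succ', show 2 * r' - 1 + 1 = 2 * r' by omega]
      ring
    have h : 0 ≤ ∫ α in (0 : ℝ)..1, (t * ‖S f α‖ - ‖S f α‖ ^ (2 * r' - 1)) ^ 2 :=
      intervalIntegral.integral_nonneg zero_le_one fun α _ => by positivity
    simp only [e] at h
    rw [intervalIntegral.integral_add (((hint _).const_mul _).sub ((hint _).const_mul _)) (hint _),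
      intervalIntegral.integral_sub ((hint _).const_mul _) ((hint _).const_mul _),
      intervalIntegral.integral_const_mul, intervalIntegral.integral_const_mul, hA, hI] at h
    exact h
  have hdisc : I ^ 2 ≤ A * Bm := by
    have hd := discrim_le_zero (a := A) (b := -2 * I) (c := Bm) fun x => by
      have := hquad x; nlinarith
    rw [discrim] at hd
    nlinarith
  calc I ^ 2 ≤ A * Bm := hdisc
    _ ≤ a * (γ * P0 (dif f (2 * r')) + (1 / γ) ^ (2 * r' - 2) * a) :=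
        mul_le_mul ha hB hBm0 (hA0.trans ha)

open Classical in
/-- `pair_le` averaged over two disjoint blocks of primes exceeding `U`. -/
theorem pair_avg (Y : ι → ℤ) {Q1 Q2 : Finset ℕ} (hdisj : Disjoint Q1 Q2) {U K m : ℕ}
    (hU : 2 ≤ U) (hm : 1 ≤ m) (hc1 : Q1.card = m) (hc2 : Q2.card = m)
    (h1 : ∀ p ∈ Q1, p.Prime ∧ U < p) (h2 : ∀ p ∈ Q2, p.Prime ∧ U < p)
    (hY : ∀ a, |(Y a : ℝ)| < (U : ℝ) ^ K) :
    (𝔼 x : {p // p ∈ Q1}, 𝔼 x' : {p // p ∈ Q2},
        P0 (fun a : ι × ι => ((x.1 : ℕ) : ℤ) * Y a.1 + ((x'.1 : ℕ) : ℤ) * Y a.2))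
      ≤ P0 Y ^ 2 + (K : ℝ) / m * coll Y := by
  have hn1 : Q1.Nonempty := by rw [← Finset.card_pos, hc1]; omega
  have hn2 : Q2.Nonempty := by rw [← Finset.card_pos, hc2]; omega
  have : Nonempty {p // p ∈ Q1} := hn1.to_subtype
  have : Nonempty {p // p ∈ Q2} := hn2.to_subtype
  have havg : ∀ Q : Finset ℕ, Q.card = m → (∀ p ∈ Q, p.Prime ∧ U < p) → ∀ y ∈ univ.image Y,
      (𝔼 x : {p // p ∈ Q}, if y ≠ 0 ∧ ((x.1 : ℕ) : ℤ) ∣ y then (1 : ℝ) else 0) ≤ (K : ℝ) / m := by
    intro Q hQc hQ y hy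
    obtain ⟨a, -, rfl⟩ := mem_image.1 hy
    have := avg_dvd_le (Q := Q) (K := K) (by rw [← Finset.card_pos, hQc]; omega) hU hQ (Y a) (hY a)
    rwa [hQc] at this
  calc (𝔼 x : {p // p ∈ Q1}, 𝔼 x' : {p // p ∈ Q2},
        P0 (fun a : ι × ι => ((x.1 : ℕ) : ℤ) * Y a.1 + ((x'.1 : ℕ) : ℤ) * Y a.2))
      ≤ 𝔼 x : {p // p ∈ Q1}, 𝔼 x' : {p // p ∈ Q2}, (nu Y 0 ^ 2
          + (1 / 2) * ∑ y ∈ univ.image Y, nu Y y ^ 2 *
            ((if y ≠ 0 ∧ ((x'.1 : ℕ) : ℤ) ∣ y then 1 else 0)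
              + (if y ≠ 0 ∧ ((x.1 : ℕ) : ℤ) ∣ y then 1 else 0))) := by
        refine Finset.expect_le_expect fun x _ => Finset.expect_le_expect fun x' _ => ?_
        refine pair_le Y (h1 _ x.2).1 (h2 _ x'.2).1 ?_
        intro h
        exact Finset.disjoint_left.1 hdisj x.2 (h ▸ x'.2)
    _ = nu Y 0 ^ 2 + (1 / 2) * ∑ y ∈ univ.image Y, nu Y y ^ 2 *
          ((𝔼 x' : {p // p ∈ Q2}, if y ≠ 0 ∧ ((x'.1 : ℕ) : ℤ) ∣ y then (1 : ℝ) else 0)
            + 𝔼 x : {p // p ∈ Q1}, if y ≠ 0 ∧ ((x.1 : ℕ) : ℤ) ∣ y then (1 : ℝ) else 0) := by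
        simp only [Finset.expect_add_distrib, Fintype.expect_const, mul_add, Finset.sum_add_distrib,
          ← Finset.mul_expect, Finset.expect_sum_comm]
    _ ≤ nu Y 0 ^ 2 + (1 / 2) * ∑ y ∈ univ.image Y, nu Y y ^ 2 * ((K : ℝ) / m + (K : ℝ) / m) := by
        gcongr with y hy
        · exact havg Q2 hc2 h2 y hy
        · exact havg Q1 hc1 h1 y hy
    _ = P0 Y ^ 2 + (K : ℝ) / m * coll Y := by
        rw [coll_eq, Finset.mul_sum, Finset.mul_sum]
        congr 1
        exact Finset.sum_congr rfl fun y _ => by ring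

end generic

namespace Pool
variable (P : Pool)

/-- Half of the number of copies in a class. -/
def rh : ℕ := 50 * (Nat.log 2 P.z + 1)

/-- The number of copies in a class. -/
def rc : ℕ := 2 * P.rh

theorem rh_pos : 1 ≤ P.rh := by unfold rh; omega

theorem pow_rh : (P.z : ℝ) ^ 50 ≤ 2 ^ P.rh := by
  have h := Nat.lt_pow_succ_log_self (by norm_num : 1 < 2) P.z
  have h' : (P.z : ℝ) ≤ 2 ^ (Nat.log 2 P.z + 1) := by exact_mod_cast h.le
  calc (P.z : ℝ) ^ 50 ≤ ((2 : ℝ) ^ (Nat.log 2 P.z + 1)) ^ 50 := pow_le_pow_left₀ (by positivity) h' _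
    _ = _ := by rw [← pow_mul]; congr 1; unfold rh; ring

theorem rh_le : (P.rh : ℝ) ≤ (P.z : ℝ) ^ 2 / 16 := by
  have h1 : Nat.log 2 P.z ≤ P.z := Nat.log_le_self 2 P.z
  have h2 : (P.rh : ℝ) ≤ 100 * P.z := by
    have : P.rh ≤ 100 * P.z := by
      unfold rh; have := P.zpos; omega
    exact_mod_cast this
  have hz : (10 : ℝ) ^ 8 ≤ P.z := by exact_mod_cast P.hz
  nlinarith

/-- A pair of `rh`-tuples of choices. -/
abbrev CC : Type := (Fin P.rh → P.J) × (Fin P.rh → P.J)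

/-- The expected `2r`-th moment. -/
noncomputable def EZ (T : Finset (Fin (2 * P.z))) : ℝ := 𝔼 p : P.Om, P0 (dif (P.dT T p) P.rc)

theorem EZ_nonneg (T : Finset (Fin (2 * P.z))) : 0 ≤ P.EZ T :=
  Finset.expect_nonneg fun p _ => P0_nonneg _

theorem EZ_le_one (T : Finset (Fin (2 * P.z))) : P.EZ T ≤ 1 :=
  Finset.expect_le univ_nonempty fun p _ => P0_le_one _

theorem dif_mul {ι : Type*} (f : ι → ℤ) (q : ℤ) (r : ℕ) :
    dif (fun i => q * f i) r = fun c => q * dif f r c := by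
  funext c; simp [dif, mul_sub, Finset.mul_sum]

theorem P0_mul {ι : Type*} [Fintype ι] (f : ι → ℤ) {q : ℤ} (hq : q ≠ 0) :
    P0 (fun i => q * f i) = P0 f := by simp [P0, hq]

/-- One step of the recursion, before averaging over the pool. -/
theorem step_pointwise {i : Fin (2 * P.z)} (T : Finset (Fin (2 * P.z))) (hi : i ∉ T)
    (hw : P.w i = 16) (p : P.Om) :
    P0 (dif (P.dT (insert i T) p) P.rc) ≤
      16 * (1 / 8 : ℝ) ^ (2 * P.rc) * P0 (dif (P.dT T p) P.rc)
      + ∑ k, ∑ k' ∈ univ.erase k,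
          P0 (fun x : P.CC × P.CC => ((p ⟨i, k⟩).1 : ℤ) * dif (P.dT T p) P.rh x.1
            + ((p ⟨i, k'⟩).1 : ℤ) * dif (P.dT T p) P.rh x.2) := by
  classical
  set f := P.dT T p with hf
  set q : Fin (P.w i) → ℝ := fun k => (((p ⟨i, k⟩).1 : ℕ) : ℝ) with hq
  have hS : ∀ α, S (P.dT (insert i T) p) α = 𝔼 k, S f (q k * α) := by
    intro α
    unfold S
    rw [expect_update i, Finset.expect_comm]
    refine Finset.expect_congr rfl fun k _ => Finset.expect_congr rfl fun j _ => ?_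
    have e1 : P.pr p i (Function.update j i k) = (p ⟨i, k⟩).1 :=
      congrArg (fun k => (p ⟨i, k⟩).1) (Function.update_self i k j)
    have e2 : ∀ i' ∈ T, P.pr p i' (Function.update j i k) = P.pr p i' j := by
      intro i' hi'
      have : i' ≠ i := fun h => hi (h ▸ hi')
      exact P.pr_congr p i' (Function.update_of_ne this k j)
    congr 1
    simp only [hf, hq, dT, Finset.prod_insert hi, e1, Finset.prod_congr rfl e2]
    push_cast; ring
  have hpt : ∀ α, ‖S (P.dT (insert i T) p) α‖ ^ (2 * P.rc)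
      ≤ (1 / 8 : ℝ) ^ (2 * P.rc) * ∑ k, ‖S f (q k * α)‖ ^ (2 * P.rc)
        + ∑ k, ∑ k' ∈ univ.erase k, (‖S f (q k * α)‖ * ‖S f (q k' * α)‖) ^ P.rc := by
    intro α
    rw [hS]
    refine le_trans (pow_le_pow_left₀ (norm_nonneg _) (RCLike.norm_expect_le (K := ℂ)) _) ?_
    refine le_trans (avg_pow_le (by rw [hw]; norm_num) _ (fun k => norm_nonneg _) P.rc) (le_of_eq ?_)
    have hw' : ((P.w i : ℕ) : ℝ) = 16 := by rw [hw]; norm_num
    rw [hw']; norm_num
  rw [← integral_norm_pow]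
  have hcont : ∀ (k : Fin (P.w i)) n, Continuous fun α => ‖S f (q k * α)‖ ^ n := fun k n =>
    (((continuous_S f).comp (continuous_const.mul continuous_id)).norm).pow n
  have hcont2 : ∀ (k k' : Fin (P.w i)) n, Continuous fun α => (‖S f (q k * α)‖ * ‖S f (q k' * α)‖) ^ n :=
    fun k k' n => ((((continuous_S f).comp (continuous_const.mul continuous_id)).norm).mul
      (((continuous_S f).comp (continuous_const.mul continuous_id)).norm)).pow n
  have hc1 : Continuous fun α => (1 / 8 : ℝ) ^ (2 * P.rc) * ∑ k, ‖S f (q k * α)‖ ^ (2 * P.rc) :=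
    continuous_const.mul (continuous_finsetSum _ fun k _ => hcont k _)
  have hc2 : Continuous fun α => ∑ k, ∑ k' ∈ univ.erase k, (‖S f (q k * α)‖ * ‖S f (q k' * α)‖) ^ P.rc :=
    continuous_finsetSum _ fun k _ => continuous_finsetSum _ fun k' _ => hcont2 k k' _
  refine le_trans (intervalIntegral.integral_mono_on zero_le_one
    (((continuous_S _).norm.pow _).intervalIntegrable _ _)
    ((hc1.add hc2).intervalIntegrable _ _) fun α _ => hpt α) ?_
  simp only [Pi.add_apply]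
  rw [intervalIntegral.integral_add (hc1.intervalIntegrable _ _) (hc2.intervalIntegrable _ _),
    intervalIntegral.integral_const_mul,
    intervalIntegral.integral_finsetSum (fun k _ => (hcont k _).intervalIntegrable _ _),
    intervalIntegral.integral_finsetSum
      (fun k _ => (continuous_finsetSum _ fun k' _ => hcont2 k k' _).intervalIntegrable _ _)]
  refine add_le_add ?_ (le_of_eq ?_)
  · refine le_of_eq ?_
    have : ∀ k : Fin (P.w i), ∫ α in (0 : ℝ)..1, ‖S f (q k * α)‖ ^ (2 * P.rc) = P0 (dif f P.rc) := by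
      intro k
      have h0 : ((p ⟨i, k⟩).1 : ℤ) ≠ 0 := by
        exact_mod_cast (P.blk_spec _ _ (p ⟨i, k⟩).2).1.ne_zero
      rw [← P0_mul (dif f P.rc) h0, ← dif_mul, ← integral_norm_pow]
      refine intervalIntegral.integral_congr fun α _ => ?_
      simp only [S_smul, hq]; norm_cast
    simp only [this, Finset.sum_const, card_univ, Fintype.card_fin, nsmul_eq_mul, hw]
    push_cast; ring
  · refine Finset.sum_congr rfl fun k _ => ?_
    rw [intervalIntegral.integral_finsetSum (fun k' _ => (hcont2 k k' _).intervalIntegrable _ _)]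
    refine Finset.sum_congr rfl fun k' _ => ?_
    set Y := dif f P.rh with hY
    set g : ((Fin P.rh → P.J) × (Fin P.rh → P.J)) × ((Fin P.rh → P.J) × (Fin P.rh → P.J)) → ℤ :=
      fun x => ((p ⟨i, k⟩).1 : ℤ) * Y x.1 + ((p ⟨i, k'⟩).1 : ℤ) * Y x.2
    have e : ∀ α : ℝ, (((‖S f (q k * α)‖ * ‖S f (q k' * α)‖) ^ P.rc : ℝ) : ℂ) = S g α := by
      intro α
      rw [mul_pow, Complex.ofReal_mul]
      show (((‖S f (q k * α)‖ ^ (2 * P.rh) : ℝ)) : ℂ) * ((‖S f (q k' * α)‖ ^ (2 * P.rh) : ℝ) : ℂ) = _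
      rw [norm_pow_eq, norm_pow_eq, ← hY]
      have h1 : ∀ kk : Fin (P.w i), S Y (q kk * α) = S (fun a => ((p ⟨i, kk⟩).1 : ℤ) * Y a) α := by
        intro kk; rw [S_smul]; simp only [hq]; norm_cast
      rw [h1, h1, S_mul]
    have h := integral_S g
    simp only [← e] at h
    rw [intervalIntegral.integral_ofReal] at h
    exact_mod_cast h

theorem coll_dif (T : Finset (Fin (2 * P.z))) (p : P.Om) :
    coll (dif (P.dT T p) P.rh) ≤ P0 (dif (P.dT T p) P.rc) := by
  rw [← integral_norm_sq, ← integral_norm_pow]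
  refine intervalIntegral.integral_mono_on zero_le_one
    (((continuous_S _).norm.pow _).intervalIntegrable _ _)
    (((continuous_S _).norm.pow _).intervalIntegrable _ _) fun α _ => le_of_eq ?_
  rw [norm_S_dif, ← pow_mul, show 2 * P.rh * 2 = 2 * P.rc by unfold rc; ring]

theorem half_bound (T : Finset (Fin (2 * P.z))) (p : P.Om) (a : P.CC) :
    |(dif (P.dT T p) P.rh a : ℝ)| < (P.U : ℝ) ^ (T.card + 1) := by
  refine lt_of_le_of_lt (P.dif_dT_bound T p P.rh a) ?_
  rw [pow_succ]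
  refine mul_lt_mul_of_pos_left ?_ (pow_pos (by exact_mod_cast P.Upos) _)
  have hU : (2 : ℝ) ≤ P.U := by exact_mod_cast P.two_le_U
  have := P.rh_le
  have hz : (0 : ℝ) < (P.z : ℝ) ^ 2 := by have := P.zpos; positivity
  calc (P.rh : ℝ) * (4 / (P.z : ℝ) ^ 2) ≤ (P.z : ℝ) ^ 2 / 16 * (4 / (P.z : ℝ) ^ 2) := by gcongr
    _ = 1 / 4 := by
      have hz' : (P.z : ℝ) ≠ 0 := by exact_mod_cast P.zpos.ne'
      field_simp; ring
    _ < _ := by linarith

/-- The averaged pair term. -/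
theorem pair_expect {i : Fin (2 * P.z)} (T : Finset (Fin (2 * P.z))) (hi : i ∉ T)
    (k k' : Fin (P.w i)) (hne : k ≠ k') :
    (𝔼 p : P.Om, P0 (fun x : P.CC × P.CC => ((p ⟨i, k⟩).1 : ℤ) * dif (P.dT T p) P.rh x.1
            + ((p ⟨i, k'⟩).1 : ℤ) * dif (P.dT T p) P.rh x.2))
      ≤ (𝔼 p : P.Om, P0 (dif (P.dT T p) P.rh) ^ 2)
        + ((T.card : ℝ) + 1) / (P.z : ℝ) ^ 92 * P.EZ T := by
  classical
  rw [expect_update (⟨i, k'⟩ : Σ i : Fin (2 * P.z), Fin (P.w i))]
  rw [expect_update (⟨i, k⟩ : Σ i : Fin (2 * P.z), Fin (P.w i))]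
  unfold EZ
  rw [Finset.mul_expect, ← Finset.expect_add_distrib]
  refine Finset.expect_le_expect fun p _ => ?_
  set σ : Σ i : Fin (2 * P.z), Fin (P.w i) := ⟨i, k⟩
  set σ' : Σ i : Fin (2 * P.z), Fin (P.w i) := ⟨i, k'⟩
  have hσ : σ ≠ σ' := fun h => hne (eq_of_heq (Sigma.mk.inj_iff.1 h).2)
  have hd : ∀ (x : {q // q ∈ P.Blk σ}) (x' : {q // q ∈ P.Blk σ'}),
      P.dT T (Function.update (Function.update p σ x) σ' x') = P.dT T p := by
    intro x x'
    refine P.dT_congr T _ _ fun τ hτ => ?_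
    have h1 : τ ≠ σ := by rintro rfl; exact hi hτ
    have h2 : τ ≠ σ' := by rintro rfl; exact hi hτ
    rw [Function.update_of_ne h2, Function.update_of_ne h1]
  simp only [hd, Function.update_self, Function.update_of_ne hσ]
  refine (pair_avg (dif (P.dT T p) P.rh) (P.blk_disj _ _ hσ) (K := T.card + 1) (m := P.z ^ 92)
    P.two_le_U (Nat.one_le_pow _ _ P.zpos) (P.blk_card σ) (P.blk_card σ')
    (fun q hq => ⟨(P.blk_spec σ q hq).1, (P.blk_spec σ q hq).2.1⟩)
    (fun q hq => ⟨(P.blk_spec σ' q hq).1, (P.blk_spec σ' q hq).2.1⟩) (P.half_bound T p)).trans ?_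
  push_cast
  exact add_le_add le_rfl (mul_le_mul_of_nonneg_left (P.coll_dif T p) (by positivity))

theorem energy_step {i : Fin (2 * P.z)} {T : Finset (Fin (2 * P.z))} {n : ℕ}
    (hb : P.bigSteps ⊆ T) (hi : i ∉ T) (hn : T.card = bigCount + n)
    (ih : P.EZ T ≤ (1 / (P.z : ℝ) ^ 90) ^ n) :
    P.EZ (insert i T) ≤ (1 / (P.z : ℝ) ^ 90) ^ (n + 1) := by
  classical
  have hw : P.w i = 16 := by
    have : ¬ (i : ℕ) < bigCount := fun h => hi (hb (by simp [bigSteps, h]))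
    simp [w, this]
  set z : ℝ := (P.z : ℝ) with hzdef
  have hz : (10 : ℝ) ^ 8 ≤ z := by rw [hzdef]; exact_mod_cast P.hz
  have hz0 : 0 < z := by linarith
  have hz1 : 1 ≤ z := by linarith
  set W' : ℝ := 4 ^ n * z ^ 91 with hW'
  have hW'0 : 0 < W' := by positivity
  have hW : (∏ j ∈ T, (P.w j : ℝ)) = W' ^ 2 := by
    rw [← Nat.cast_prod, P.prod_w T hb, hn, Nat.add_sub_cancel_left]
    push_cast
    rw [hW', mul_pow, ← pow_mul, ← pow_mul, mul_comm n 2, pow_mul]
    rw [← hzdef, show bigCount = 91 * 2 from rfl]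
    norm_num
    ring
  -- the square of the probability of a vanishing half-difference
  have hnu : ∀ p : P.Om, P0 (dif (P.dT T p) P.rh) ^ 2
      ≤ 1 / W' * P0 (dif (P.dT T p) P.rc) + 1 / W' ^ (2 * P.rh) := by
    intro p
    have h := nu_zero_sq_le (P.dT T p) P.rh_pos (γ := W') (a := 1 / W' ^ 2) hW'0
      (by have := P.P0_one T p; rw [hW] at this; exact this)
    refine h.trans ?_
    rw [mul_add]
    refine add_le_add (le_of_eq (by unfold rc; field_simp)) ?_
    rw [one_div_pow, div_mul_div_comm, mul_one, div_mul_div_comm, mul_one]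
    apply div_le_div_of_nonneg_left zero_le_one (by positivity)
    rw [← pow_add, ← pow_add]
    refine pow_le_pow_right₀ ?_ ?_
    · rw [hW']; exact one_le_mul_of_one_le_of_one_le (one_le_pow₀ (by norm_num)) (one_le_pow₀ hz1)
    · have := P.rh_pos; omega
  have hpair : ∀ k k' : Fin (P.w i), k ≠ k' →
      (𝔼 p : P.Om, P0 (fun x : P.CC × P.CC => ((p ⟨i, k⟩).1 : ℤ) * dif (P.dT T p) P.rh x.1
            + ((p ⟨i, k'⟩).1 : ℤ) * dif (P.dT T p) P.rh x.2))
      ≤ (1 / W' + ((T.card : ℝ) + 1) / z ^ 92) * P.EZ T + 1 / W' ^ (2 * P.rh) := by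
    intro k k' hne
    refine (P.pair_expect T hi k k' hne).trans ?_
    have : (𝔼 p : P.Om, P0 (dif (P.dT T p) P.rh) ^ 2) ≤ 1 / W' * P.EZ T + 1 / W' ^ (2 * P.rh) := by
      refine (Finset.expect_le_expect fun p _ => hnu p).trans (le_of_eq ?_)
      rw [Finset.expect_add_distrib, Fintype.expect_const, ← Finset.mul_expect]; rfl
    rw [← hzdef]
    linarith
  set pairB := (1 / W' + ((T.card : ℝ) + 1) / z ^ 92) * P.EZ T + 1 / W' ^ (2 * P.rh) with hpairB
  have hpairB0 : 0 ≤ pairB := by have := P.EZ_nonneg T; positivity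
  have hmain : P.EZ (insert i T) ≤ 16 * (1 / 8 : ℝ) ^ (2 * P.rc) * P.EZ T + 256 * pairB := by
    refine (Finset.expect_le_expect fun p _ => P.step_pointwise T hi hw p).trans ?_
    rw [Finset.expect_add_distrib, ← Finset.mul_expect, Finset.expect_sum_comm]
    refine add_le_add le_rfl ?_
    refine (Finset.sum_le_sum (g := fun _ => 16 * pairB) fun k _ => ?_).trans
      (le_of_eq (by simp [hw]; ring))
    rw [Finset.expect_sum_comm]
    refine (Finset.sum_le_sum (g := fun _ => pairB) fun k' hk' => hpair k k' (Ne.symm (ne_of_mem_erase hk'))).trans ?_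
    simp only [Finset.sum_const, nsmul_eq_mul]
    refine mul_le_mul_of_nonneg_right ?_ hpairB0
    rw [Finset.card_erase_of_mem (mem_univ _)]
    simp [hw]; norm_num
  have hT3 : (T.card : ℝ) + 1 ≤ 3 * z := by
    have := T.card_le_univ
    simp only [Fintype.card_fin] at this
    have h2 : T.card + 1 ≤ 3 * P.z := by have := P.zpos; omega
    rw [hzdef]; exact_mod_cast h2
  have h2r : z ^ 100 ≤ (2 : ℝ) ^ P.rc := by
    calc z ^ 100 = (z ^ 50) ^ 2 := by rw [← pow_mul]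
      _ ≤ ((2 : ℝ) ^ P.rh) ^ 2 := pow_le_pow_left₀ (by positivity) P.pow_rh _
      _ = _ := by rw [← pow_mul]; congr 1; unfold rc; ring
  have hE : 256 * ((1 : ℝ) / W' ^ (2 * P.rh)) ≤ (1 / z ^ 90) ^ (n + 1) / 2 := by
    have h1 : (2 : ℝ) ^ (2 * P.rh * n) * z ^ (91 * (2 * P.rh)) ≤ W' ^ (2 * P.rh) := by
      rw [hW', mul_pow, ← pow_mul, ← pow_mul, mul_comm (2 * P.rh) n]
      gcongr
      norm_num
    have h2 : z ^ (100 * n) ≤ (2 : ℝ) ^ (2 * P.rh * n) := by
      rw [pow_mul, pow_mul]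
      exact pow_le_pow_left₀ (by positivity) (by simpa [rc] using h2r) n
    have h3 : z ^ 91 ≤ z ^ (91 * (2 * P.rh)) :=
      pow_le_pow_right₀ hz1 (Nat.le_mul_of_pos_right _ (by have := P.rh_pos; omega))
    have h4 : z ^ (100 * n) * z ^ 91 ≤ W' ^ (2 * P.rh) :=
      le_trans (mul_le_mul h2 h3 (by positivity) (by positivity)) h1
    have h5 : 512 * (z ^ 90) ^ (n + 1) ≤ z ^ (100 * n) * z ^ 91 := by
      calc 512 * (z ^ 90) ^ (n + 1) = z ^ (90 * n) * (512 * z ^ 90) := by ring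
        _ ≤ z ^ (100 * n) * z ^ 91 := by
            refine mul_le_mul (pow_le_pow_right₀ hz1 (by omega)) ?_ (by positivity) (by positivity)
            rw [pow_succ _ 90, mul_comm 512]
            gcongr
            linarith
    rw [one_div_pow, div_div, mul_one_div, div_le_div_iff₀ (by positivity) (by positivity)]
    linarith
  have hF : 16 * (1 / 8 : ℝ) ^ (2 * P.rc) + 256 * (1 / W' + ((T.card : ℝ) + 1) / z ^ 92) ≤ 1 / z ^ 90 / 2 := by
    have h1 : (1 / 8 : ℝ) ^ (2 * P.rc) ≤ 1 / z ^ 91 := by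
      rw [one_div_pow]
      apply div_le_div_of_nonneg_left zero_le_one (by positivity)
      calc z ^ 91 ≤ z ^ 100 := pow_le_pow_right₀ hz1 (by norm_num)
        _ ≤ (2 : ℝ) ^ P.rc := h2r
        _ ≤ (2 : ℝ) ^ (2 * P.rc) := pow_le_pow_right₀ (by norm_num) (by omega)
        _ ≤ _ := pow_le_pow_left₀ (by norm_num) (by norm_num) _
    have h2 : 1 / W' ≤ 1 / z ^ 91 := by
      apply div_le_div_of_nonneg_left zero_le_one (by positivity)
      rw [hW']
      exact le_mul_of_one_le_left (by positivity) (one_le_pow₀ (by norm_num))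
    have h3 : ((T.card : ℝ) + 1) / z ^ 92 ≤ 3 * (1 / z ^ 91) := by
      calc ((T.card : ℝ) + 1) / z ^ 92 ≤ 3 * z / z ^ 92 := by gcongr
        _ = _ := by field_simp
    have h4 : 2080 * (1 / z ^ 91) ≤ 1 / z ^ 90 := by
      rw [mul_one_div, div_le_div_iff₀ (by positivity) (by positivity), pow_succ z 90]
      nlinarith [pow_pos hz0 90]
    linarith
  calc P.EZ (insert i T) ≤ 16 * (1 / 8 : ℝ) ^ (2 * P.rc) * P.EZ T + 256 * pairB := hmain
    _ = (16 * (1 / 8 : ℝ) ^ (2 * P.rc) + 256 * (1 / W' + ((T.card : ℝ) + 1) / z ^ 92)) * P.EZ T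
        + 256 * (1 / W' ^ (2 * P.rh)) := by rw [hpairB]; ring
    _ ≤ 1 / z ^ 90 / 2 * (1 / z ^ 90) ^ n + (1 / z ^ 90) ^ (n + 1) / 2 :=
        add_le_add (mul_le_mul hF ih (P.EZ_nonneg T) (by positivity)) hE
    _ = _ := by rw [pow_succ]; ring

/-- The energy bound. -/
theorem energy : ∀ (n : ℕ) (T : Finset (Fin (2 * P.z))), P.bigSteps ⊆ T → T.card = bigCount + n →
    P.EZ T ≤ (1 / (P.z : ℝ) ^ 90) ^ n := by
  classical
  intro n
  induction n with
  | zero => intro T _ _; simpa using P.EZ_le_one T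
  | succ n ih =>
    intro T hb hc
    obtain ⟨i, hi⟩ : (T \ P.bigSteps).Nonempty := by
      rw [← Finset.card_pos, Finset.card_sdiff_of_subset hb, P.bigSteps_card, hc]; omega
    rw [mem_sdiff] at hi
    have hb' : P.bigSteps ⊆ T.erase i := fun x hx =>
      mem_erase.2 ⟨fun h => hi.2 (h ▸ hx), hb hx⟩
    have hc' : (T.erase i).card = bigCount + n := by rw [card_erase_of_mem hi.1, hc]; omega
    have h := P.energy_step hb' (notMem_erase i T) hc' (ih _ hb' hc')
    rwa [insert_erase hi.1] at h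

end Pool

end Vale.Agent.P012
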