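import Mathlib
import Vale.Agent.P012.Basic

/-!
The Vinogradov sum of `min(R, 1/‖γ m‖)` over `|m| ≤ N`, near a rational `a/g`.
-/

namespace Vale.Agent.P012
open Finset Real

theorem sum_Icc_symm (f : ℤ → ℝ) (L : ℕ) :
    ∑ l ∈ Icc (-(L : ℤ)) L, f l = f 0 + ∑ j ∈ Icc 1 L, (f j + f (-(j : ℤ))) := by
  induction L with
  | zero => simp
  | succ L ih =>
    have e : Icc (-((L + 1 : ℕ) : ℤ)) (L + 1 : ℕ)
        = insert ((L + 1 : ℕ) : ℤ) (insert (-((L + 1 : ℕ) : ℤ)) (Icc (-(L : ℤ)) L)) := by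
      ext x; simp; omega
    rw [e, sum_insert (by simp; omega), sum_insert (by simp), ih, sum_Icc_succ_top (by omega)]
    ring

theorem sum_inv_le (n : ℕ) : ∑ j ∈ Icc 1 n, (1 : ℝ) / j ≤ 1 + Real.log n := by
  have := harmonic_le_one_add_log n
  rw [harmonic_eq_sum_Icc] at this
  push_cast at this
  simpa [one_div] using this

variable {γ θ : ℝ} {a : ℤ} {g N : ℕ} {R H : ℝ} {k : ℤ → ℝ}

private theorem nondvd_part (hg : 1 ≤ g) (hcop : IsCoprime a (g : ℤ)) (hγ : γ = a / g + θ)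
    (hθ : |θ| * N ≤ 1 / (2 * g)) (hk0 : ∀ m, 0 ≤ k m) (hkd : ∀ m, k m * dI (γ * m) ≤ 1 / 2)
    (hH : 1 + Real.log g ≤ H) :
    ∑ m ∈ (Icc (-(N : ℤ)) N).filter (fun m => ¬ (g : ℤ) ∣ m), k m ≤ (4 * N + 2 * g) * H := by
  have hg' : (0 : ℝ) < g := by exact_mod_cast hg
  let φ : ℕ → ℝ := fun ρ => (g : ℝ) / ρ + g / ((g - ρ : ℕ) : ℝ)
  let res : ℤ → ℕ := fun m => ((a * m) % (g : ℤ)).toNat
  have hres : ∀ m ∈ (Icc (-(N : ℤ)) N).filter (fun m => ¬ (g : ℤ) ∣ m),
      res m ∈ Ioo 0 g ∧ k m ≤ φ (res m) := by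
    intro m hmF
    simp only [mem_filter, mem_Icc] at hmF
    obtain ⟨⟨hmA, hmB⟩, hm⟩ := hmF
    have hmN : |(m : ℝ)| ≤ N := by
      rw [abs_le]; exact ⟨by exact_mod_cast hmA, by exact_mod_cast hmB⟩
    set ρ := (a * m) % (g : ℤ) with hρ
    have h0 : 0 ≤ ρ := Int.emod_nonneg _ (by exact_mod_cast (by omega : g ≠ 0))
    have h1 : ρ < g := Int.emod_lt_of_pos _ (by exact_mod_cast hg)
    have h2 : ρ ≠ 0 := fun h => hm (hcop.symm.dvd_of_dvd_mul_left (Int.dvd_of_emod_eq_zero h))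
    have hin : res m ∈ Ioo 0 g := by simp only [res, mem_Ioo, ← hρ]; omega
    refine ⟨hin, ?_⟩
    have hcast : ((res m : ℕ) : ℝ) = (ρ : ℝ) := by
      have : ((res m : ℕ) : ℤ) = ρ := by simp only [res, ← hρ]; omega
      exact_mod_cast this
    have hin' := mem_Ioo.1 hin
    have hsub : (((g - res m : ℕ)) : ℝ) = g - (ρ : ℝ) := by rw [Nat.cast_sub hin'.2.le, hcast]
    have hρ0 : (1 : ℝ) ≤ (ρ : ℝ) := by exact_mod_cast (by omega : (1 : ℤ) ≤ ρ)
    have hρ1 : (ρ : ℝ) ≤ g - 1 := by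
      have : ρ ≤ (g : ℤ) - 1 := by omega
      exact_mod_cast this
    have hd : min (ρ : ℝ) (g - ρ) / g ≤ dI ((a : ℝ) * m / g) := by
      have he : (a : ℝ) * m / g = (ρ : ℝ) / g + (((a * m) / (g : ℤ) : ℤ) : ℝ) := by
        have := Int.emod_add_mul_ediv (a * m) (g : ℤ)
        have h' : (a : ℝ) * m = (ρ : ℝ) + g * (((a * m) / (g : ℤ) : ℤ) : ℝ) := by exact_mod_cast this.symm
        rw [h']; field_simp
      rw [he, dI_add_int, dI]
      set n := round ((ρ : ℝ) / g) with hn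
      rw [div_le_iff₀ hg', ← abs_of_pos hg', ← abs_mul, abs_of_pos hg', sub_mul, div_mul_cancel₀ _ hg'.ne']
      rcases le_or_gt n 0 with h | h
      · have : (n : ℝ) * g ≤ 0 := by
          have : (n : ℝ) ≤ 0 := by exact_mod_cast h
          nlinarith
        refine le_trans (min_le_left _ _) (le_trans ?_ (le_abs_self _))
        linarith
      · have : (g : ℝ) ≤ (n : ℝ) * g := by
          have : (1 : ℝ) ≤ n := by exact_mod_cast h
          nlinarith
        refine le_trans (min_le_right _ _) (le_trans ?_ (neg_le_abs _))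
        linarith
    set D := min (ρ : ℝ) (g - ρ) with hD
    have hD1 : 1 ≤ D := le_min hρ0 (by linarith)
    have hθm : |θ * m| ≤ 1 / (2 * g) := by
      rw [abs_mul]; exact (mul_le_mul_of_nonneg_left hmN (abs_nonneg _)).trans hθ
    have htri := dI_triangle ((a : ℝ) * m / g) (θ * m)
    rw [show (a : ℝ) * m / g + θ * m = γ * m by rw [hγ]; ring] at htri
    have h5 : D / (2 * g) ≤ dI (γ * m) := by
      have e : D / g = 2 * (D / (2 * g)) := by field_simp
      have : 1 / (2 * (g : ℝ)) ≤ D / (2 * g) := by gcongr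
      linarith
    have h6 : k m * (D / (2 * g)) ≤ 1 / 2 := le_trans (mul_le_mul_of_nonneg_left h5 (hk0 m)) (hkd m)
    have h7 : k m ≤ g / D := by
      rw [le_div_iff₀ (by linarith)]
      rw [mul_div_assoc', div_le_iff₀ (by positivity)] at h6
      linarith
    refine h7.trans ?_
    simp only [φ, hcast, hsub]
    rcases min_cases (ρ : ℝ) (g - ρ) with ⟨e, -⟩ | ⟨e, -⟩
    · rw [hD, e]; exact le_add_of_nonneg_right (div_nonneg hg'.le (by linarith))
    · rw [hD, e]; exact le_add_of_nonneg_left (div_nonneg hg'.le (by linarith))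
  have hfib : ∀ ρ ∈ Ioo 0 g,
      ((((Icc (-(N : ℤ)) N).filter (fun m => ¬ (g : ℤ) ∣ m)).filter (fun m => res m = ρ)).card : ℝ)
        ≤ 2 * N / g + 1 := by
    intro ρ _
    set F := ((Icc (-(N : ℤ)) N).filter (fun m => ¬ (g : ℤ) ∣ m)).filter (fun m => res m = ρ)
    have hc : F.card ≤ (range (2 * N / g + 1)).card := by
      refine Finset.card_le_card_of_injOn (fun m => (m + N).toNat / g) ?_ ?_
      · intro m hm
        simp only [F, coe_filter, mem_filter, mem_Icc, Set.mem_ofPred_eq] at hm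
        simp only [coe_range, Set.mem_Iio]
        have : (m + N).toNat ≤ 2 * N := by omega
        have := Nat.div_le_div_right (c := g) this
        omega
      · intro m hm m' hm' he
        simp only [F, coe_filter, mem_filter, mem_Icc, Set.mem_ofPred_eq] at hm hm'
        simp only at he
        have hg0 : (g : ℤ) ≠ 0 := by exact_mod_cast (by omega : g ≠ 0)
        have hr : (a * m) % (g : ℤ) = (a * m') % (g : ℤ) := by
          have h1 := Int.emod_nonneg (a * m) hg0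
          have h2 := Int.emod_nonneg (a * m') hg0
          have := hm.2.trans hm'.2.symm
          simp only [res] at this
          omega
        have hd : (g : ℤ) ∣ (m - m') := by
          refine hcop.symm.dvd_of_dvd_mul_left (y := a) ?_
          rw [mul_sub]
          exact Int.dvd_of_emod_eq_zero (Int.emod_eq_emod_iff_emod_sub_eq_zero.1 hr)
        have hmod : (m + N) % (g : ℤ) = (m' + N) % (g : ℤ) := by
          rw [Int.emod_eq_emod_iff_emod_sub_eq_zero]
          exact Int.emod_eq_zero_of_dvd (by simpa using hd)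
        have e1 : ((m + N).toNat : ℤ) = m + N := by omega
        have e2 : ((m' + N).toNat : ℤ) = m' + N := by omega
        have hdiv : (m + N) / (g : ℤ) = (m' + N) / (g : ℤ) := by
          rw [← e1, ← e2]; exact_mod_cast congrArg (Nat.cast : ℕ → ℤ) he
        have := Int.emod_add_mul_ediv (m + N) (g : ℤ)
        have := Int.emod_add_mul_ediv (m' + N) (g : ℤ)
        rw [hdiv, hmod] at *
        linarith
    rw [card_range] at hc
    calc (F.card : ℝ) ≤ ((2 * N / g + 1 : ℕ) : ℝ) := by exact_mod_cast hc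
      _ ≤ 2 * N / g + 1 := by
        push_cast
        have := Nat.cast_div_le (α := ℝ) (m := 2 * N) (n := g)
        push_cast at this
        linarith
  have hφ : ∀ ρ ∈ Ioo 0 g, 0 ≤ φ ρ := fun ρ _ => by simp only [φ]; positivity
  have hφsum : ∑ ρ ∈ Ioo 0 g, φ ρ ≤ 2 * g * H := by
    have e1 : ∑ ρ ∈ Ioo 0 g, (1 : ℝ) / ρ ≤ H := by
      refine le_trans ?_ ((sum_inv_le g).trans hH)
      exact sum_le_sum_of_subset_of_nonneg (fun x hx => by simp at hx ⊢; omega) (fun x _ _ => by positivity)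
    have e2 : ∑ ρ ∈ Ioo 0 g, (g : ℝ) / ((g - ρ : ℕ) : ℝ) = ∑ ρ ∈ Ioo 0 g, (g : ℝ) / ρ := by
      refine Finset.sum_nbij' (fun ρ => g - ρ) (fun ρ => g - ρ) ?_ ?_ ?_ ?_ ?_
      all_goals intro x hx
      all_goals simp only [coe_Ioo, Set.mem_Ioo, mem_Ioo] at *
      all_goals first | omega | rfl
    have e3 : ∑ ρ ∈ Ioo 0 g, (g : ℝ) / ρ = g * ∑ ρ ∈ Ioo 0 g, (1 : ℝ) / ρ := by
      rw [mul_sum]; exact sum_congr rfl fun ρ _ => by ring
    simp only [φ]
    rw [sum_add_distrib, e2, e3]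
    nlinarith
  calc ∑ m ∈ (Icc (-(N : ℤ)) N).filter (fun m => ¬ (g : ℤ) ∣ m), k m
      ≤ ∑ m ∈ (Icc (-(N : ℤ)) N).filter (fun m => ¬ (g : ℤ) ∣ m), φ (res m) :=
        sum_le_sum fun m hm => (hres m hm).2
    _ = ∑ ρ ∈ Ioo 0 g, ((((Icc (-(N : ℤ)) N).filter (fun m => ¬ (g : ℤ) ∣ m)).filter
          (fun m => res m = ρ)).card : ℝ) * φ ρ := by
        rw [← sum_fiberwise_of_maps_to (fun m hm => (hres m hm).1)]
        refine sum_congr rfl fun ρ _ => ?_
        rw [sum_congr rfl (fun m hm => by rw [(mem_filter.1 hm).2]), sum_const, nsmul_eq_mul]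
    _ ≤ ∑ ρ ∈ Ioo 0 g, (2 * N / g + 1) * φ ρ :=
        sum_le_sum fun ρ hρ => mul_le_mul_of_nonneg_right (hfib ρ hρ) (hφ ρ hρ)
    _ ≤ (2 * N / g + 1) * (2 * g * H) := by rw [← mul_sum]; gcongr
    _ = (4 * N + 2 * g) * H := by field_simp; ring

/-- Both bounds for the lattice sum. -/
theorem lattice_sum (hg : 1 ≤ g) (hcop : IsCoprime a (g : ℤ)) (hγ : γ = a / g + θ)
    (hθ : |θ| * N ≤ 1 / (2 * g)) (hk0 : ∀ m, 0 ≤ k m) (hkR : ∀ m, k m ≤ R)
    (hkd : ∀ m, k m * dI (γ * m) ≤ 1 / 2) (hHg : 1 + Real.log g ≤ H) (hHN : 1 + Real.log N ≤ H) :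
    ∑ m ∈ Icc (-(N : ℤ)) N, k m ≤ (4 * N + 2 * g) * H + R + 2 * R * N / g ∧
    (θ ≠ 0 → ∑ m ∈ Icc (-(N : ℤ)) N, k m ≤ (4 * N + 2 * g) * H + R + H / (|θ| * g)) := by
  have hg' : (0 : ℝ) < g := by exact_mod_cast hg
  have hR : 0 ≤ R := (hk0 0).trans (hkR 0)
  have hg0 : (g : ℤ) ≠ 0 := by exact_mod_cast (by omega : g ≠ 0)
  have hA := nondvd_part hg hcop hγ hθ hk0 hkd hHg
  rw [← sum_filter_add_sum_filter_not (Icc (-(N : ℤ)) N) (fun m => (g : ℤ) ∣ m)]
  set L := N / g with hL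
  have himg : (Icc (-(N : ℤ)) N).filter (fun m => (g : ℤ) ∣ m)
      = (Icc (-(L : ℤ)) L).image ((g : ℤ) * ·) := by
    ext m
    simp only [mem_filter, mem_Icc, mem_image]
    have hLe : g * L ≤ N := Nat.mul_div_le N g
    have hLZ : (g : ℤ) * L ≤ N := by exact_mod_cast hLe
    have hLt : (N : ℤ) < g * (L + 1) := by exact_mod_cast Nat.lt_mul_div_succ N (by omega : 0 < g)
    constructor
    · rintro ⟨⟨h1, h2⟩, ⟨l, rfl⟩⟩
      refine ⟨l, ⟨?_, ?_⟩, rfl⟩
      · by_contra h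
        push Not at h
        have : (g : ℤ) * l ≤ g * (-(L + 1)) := by gcongr; omega
        linarith
      · by_contra h
        push Not at h
        have : (g : ℤ) * (L + 1) ≤ g * l := by gcongr; omega
        linarith
    · rintro ⟨l, ⟨h1, h2⟩, rfl⟩
      refine ⟨⟨?_, ?_⟩, dvd_mul_right _ _⟩
      · have : (g : ℤ) * (-L) ≤ g * l := by gcongr
        linarith
      · have : (g : ℤ) * l ≤ g * L := by gcongr
        linarith
  rw [himg, sum_image (fun x _ y _ h => mul_left_cancel₀ hg0 h), sum_Icc_symm]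
  have hLg : (L : ℝ) ≤ N / g := Nat.cast_div_le
  refine ⟨?_, fun hθ0 => ?_⟩
  · have h1 : ∑ j ∈ Icc 1 L, (k ((g : ℤ) * j) + k ((g : ℤ) * -(j : ℤ))) ≤ (L : ℝ) * (2 * R) := by
      refine (sum_le_sum (g := fun _ => 2 * R) fun j _ => ?_).trans (by simp)
      linarith [hkR ((g : ℤ) * j), hkR ((g : ℤ) * -(j : ℤ))]
    have h2 : (L : ℝ) * (2 * R) ≤ 2 * R * N / g := by
      calc (L : ℝ) * (2 * R) ≤ (N / g) * (2 * R) := by gcongr
        _ = _ := by ring
    linarith [hkR ((g : ℤ) * 0)]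
  · have hθp : 0 < |θ| := abs_pos.2 hθ0
    have h1 : ∀ j ∈ Icc 1 L, ∀ s : ℤ, (s = j ∨ s = -(j : ℤ)) → k ((g : ℤ) * s) ≤ 1 / (2 * (|θ| * g)) * (1 / (j : ℝ)) := by
      intro j hj s hs
      rw [mem_Icc] at hj
      have hj1 : (1 : ℝ) ≤ j := by exact_mod_cast hj.1
      have hsabs : |(s : ℝ)| = j := by
        rcases hs with rfl | rfl <;> simp
      have hgj : (g : ℝ) * j ≤ N := by
        have : g * j ≤ N := le_trans (Nat.mul_le_mul_left _ hj.2) (Nat.mul_div_le N g)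
        exact_mod_cast this
      have hsmall : |θ * ((g : ℝ) * s)| ≤ 1 / 2 := by
        rw [abs_mul, abs_mul, abs_of_pos hg', hsabs]
        refine le_trans (mul_le_mul_of_nonneg_left hgj (abs_nonneg _)) (hθ.trans ?_)
        exact div_le_div_of_nonneg_left zero_le_one two_pos (by
          have : (1 : ℝ) ≤ g := by exact_mod_cast hg
          linarith)
      have hd : dI (γ * (((g : ℤ) * s : ℤ) : ℝ)) = |θ| * g * j := by
        rw [hγ]
        push_cast
        rw [show ((a : ℝ) / g + θ) * ((g : ℝ) * s) = θ * ((g : ℝ) * s) + ((a * s : ℤ) : ℝ) by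
          push_cast; field_simp; ring, dI_add_int, dI_eq_abs hsmall, abs_mul, abs_mul, abs_of_pos hg', hsabs]
        ring
      have h2 := hkd ((g : ℤ) * s)
      rw [hd] at h2
      rw [div_mul_div_comm, mul_one, le_div_iff₀ (by positivity)]
      linarith
    have h3 : ∑ j ∈ Icc 1 L, (k ((g : ℤ) * j) + k ((g : ℤ) * -(j : ℤ))) ≤ H / (|θ| * g) := by
      refine (sum_le_sum (g := fun j : ℕ => 1 / (|θ| * g) * (1 / (j : ℝ))) fun j hj => ?_).trans ?_
      · refine (add_le_add (h1 j hj j (Or.inl rfl)) (h1 j hj (-(j : ℤ)) (Or.inr rfl))).trans (le_of_eq ?_)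
        field_simp; ring
      · rw [← mul_sum, div_mul_eq_mul_div, one_mul]
        gcongr
        refine le_trans ?_ hHN
        refine le_trans ?_ (sum_inv_le N)
        refine sum_le_sum_of_subset_of_nonneg (fun x hx => ?_) (fun x _ _ => by positivity)
        simp only [mem_Icc] at hx ⊢
        exact ⟨hx.1, hx.2.trans (Nat.div_le_self _ _)⟩
    linarith [hkR ((g : ℤ) * 0)]

end Vale.Agent.P012
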