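import Mathlib
import Vale.Agent.P012.Basic
import Vale.Agent.P012.Lattice
import Vale.Agent.P012.Pool
import Vale.Agent.P012.Energy

/-!
The bilinear bound for the averaged `2r`-th power of the class sum, away from the small conductors.
-/

namespace Vale.Agent.P012
open Finset
open scoped BigOperators

theorem pow_expect_le {ι : Type*} [Fintype ι] [Nonempty ι] (v : ι → ℝ) (hv : ∀ i, 0 ≤ v i) (n : ℕ) :
    (𝔼 i, v i) ^ n ≤ 𝔼 i, v i ^ n := by
  rcases n with _ | n
  · simp
  · have h := pow_sum_div_card_le_sum_pow (s := (univ : Finset ι)) (f := v) (fun i _ => hv i) n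
    rw [Fintype.expect_eq_sum_div_card, Fintype.expect_eq_sum_div_card, div_pow, pow_succ (Fintype.card ι : ℝ),
      ← div_div]
    exact div_le_div_of_nonneg_right (by rw [card_univ] at h; exact h) (by positivity)

/-- Duality: `X = 𝔼_q S Y (x n_q)` against the lattice sum. -/
theorem bilinear_abstract {ι κ : Type*} [Fintype ι] [Fintype κ] [Nonempty κ] (Y : ι → ℤ) (R0 : ℕ)
    (hY : ∀ a, |Y a| ≤ (R0 : ℤ)) (nn : κ → ℤ) (hinj : Function.Injective nn) (N : ℕ)
    (hN : ∀ q q', |nn q - nn q'| ≤ (N : ℤ)) (x : ℝ) :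
    ‖𝔼 q, S Y (x * nn q)‖ ^ 2 ≤ coll Y *
      ((∑ m ∈ Icc (-(N : ℤ)) N, ‖∑ j ∈ range (2 * R0 + 1), ee (x * m * (((-(R0 : ℤ)) : ℤ) + j : ℝ))‖)
        / Fintype.card κ) := by
  classical
  let h : ℤ → ℝ := fun y => ‖S nn (x * y)‖
  have h1 : ‖𝔼 q, S Y (x * nn q)‖ ≤ ∑ y ∈ univ.image Y, nu Y y * h y := by
    rw [← expect_comp_eq Y h]
    unfold S
    rw [Finset.expect_comm]
    refine (RCLike.norm_expect_le (K := ℂ)).trans (Finset.expect_le_expect fun a _ => le_of_eq ?_)
    simp only [h, S]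
    congr 1
    exact Finset.expect_congr rfl fun q _ => by ring_nf
  have hsub : univ.image Y ⊆ Icc (-(R0 : ℤ)) R0 := by
    intro y hy
    obtain ⟨a, -, rfl⟩ := mem_image.1 hy
    have := abs_le.1 (hY a)
    simpa using this
  have h2 : ‖𝔼 q, S Y (x * nn q)‖ ^ 2 ≤ coll Y * ∑ y ∈ Icc (-(R0 : ℤ)) R0, h y ^ 2 := by
    refine (pow_le_pow_left₀ (norm_nonneg _) h1 2).trans ?_
    refine (Finset.sum_mul_sq_le_sq_mul_sq _ _ _).trans ?_
    rw [← coll_eq]
    refine mul_le_mul_of_nonneg_left (sum_le_sum_of_subset_of_nonneg hsub fun y _ _ => sq_nonneg _) ?_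
    rw [coll_eq]; exact sum_nonneg fun y _ => sq_nonneg _
  refine h2.trans (mul_le_mul_of_nonneg_left ?_ (by rw [coll_eq]; exact sum_nonneg fun y _ => sq_nonneg _))
  let k : ℤ → ℝ := fun m => ‖∑ j ∈ range (2 * R0 + 1), ee (x * m * (((-(R0 : ℤ)) : ℤ) + j : ℝ))‖
  show ∑ y ∈ Icc (-(R0 : ℤ)) R0, h y ^ 2 ≤ (∑ m ∈ Icc (-(N : ℤ)) N, k m) / Fintype.card κ
  have e1 : Icc (-(R0 : ℤ)) R0 = (range (2 * R0 + 1)).image (fun j : ℕ => -(R0 : ℤ) + j) := by
    ext y
    simp only [mem_Icc, mem_image, mem_range]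
    constructor
    · intro hy; exact ⟨(y + R0).toNat, by omega, by omega⟩
    · rintro ⟨j, hj, rfl⟩; omega
  rw [e1, sum_image (fun a _ b _ hab => by simpa using hab)]
  have e2 : ∑ j ∈ range (2 * R0 + 1), h (-(R0 : ℤ) + (j : ℤ)) ^ 2
      = ‖𝔼 q, 𝔼 q', ∑ j ∈ range (2 * R0 + 1), ee (x * (nn q - nn q' : ℤ) * (((-(R0 : ℤ)) : ℤ) + j : ℝ))‖ := by
    have hj : ∀ j : ℕ, ((h (-(R0 : ℤ) + (j : ℤ)) ^ 2 : ℝ) : ℂ)
        = 𝔼 q, 𝔼 q', ee (x * (nn q - nn q' : ℤ) * (((-(R0 : ℤ)) : ℤ) + j : ℝ)) := by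
      intro j
      simp only [h]
      rw [Complex.ofReal_pow, ← Complex.mul_conj', conj_S, S_mul]
      unfold S
      rw [← univ_product_univ, Finset.expect_product]
      refine Finset.expect_congr rfl fun q _ => Finset.expect_congr rfl fun q' _ => ?_
      congr 1
      push_cast; ring
    simp only [Finset.expect_sum_comm, ← hj, ← Complex.ofReal_sum, Complex.norm_real, Real.norm_eq_abs]
    rw [abs_of_nonneg (sum_nonneg fun j _ => sq_nonneg _)]
  rw [e2]
  refine (RCLike.norm_expect_le (K := ℂ)).trans (Finset.expect_le univ_nonempty fun q _ => ?_)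
  refine (RCLike.norm_expect_le (K := ℂ)).trans ?_
  rw [Fintype.expect_eq_sum_div_card]
  refine div_le_div_of_nonneg_right ?_ (by positivity)
  show ∑ q', k (nn q - nn q') ≤ ∑ m ∈ Icc (-(N : ℤ)) N, k m
  rw [← sum_image (f := k) (g := fun q' => nn q - nn q') (fun a _ b _ hab => hinj (by simpa using hab))]
  refine sum_le_sum_of_subset_of_nonneg ?_ fun m _ _ => norm_nonneg _
  intro m hm
  obtain ⟨q', -, rfl⟩ := mem_image.1 hm
  have := abs_le.1 (hN q q')
  simpa using this

namespace Pool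
variable (P : Pool)

theorem one_add_log_le {n : ℕ} (hn : n ≤ P.U ^ (2 * P.z)) : 1 + Real.log n ≤ (P.z : ℝ) ^ 3 := by
  have hz : (10 : ℝ) ^ 8 ≤ P.z := by exact_mod_cast P.hz
  have hz0 : (0 : ℝ) < P.z := by linarith
  rcases Nat.eq_zero_or_pos n with rfl | hn0
  · simp; exact one_le_pow₀ (by linarith)
  have h1 : n ≤ P.z ^ (200 * P.z) := by
    refine hn.trans ?_
    calc P.U ^ (2 * P.z) ≤ (P.z ^ 100) ^ (2 * P.z) := Nat.pow_le_pow_left P.hUhi _
      _ = P.z ^ (200 * P.z) := by rw [← pow_mul]; congr 1; ring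
  have h2 : Real.log (n : ℝ) ≤ Real.log ((P.z : ℝ) ^ (200 * P.z)) :=
    Real.log_le_log (by exact_mod_cast hn0) (by exact_mod_cast h1)
  rw [Real.log_pow] at h2
  push_cast at h2
  have h3 : Real.log (P.z : ℝ) ≤ P.z := (Real.log_le_sub_one_of_pos hz0).trans (by linarith)
  have h4 : 200 * (P.z : ℝ) * Real.log P.z ≤ 200 * (P.z : ℝ) * P.z := by gcongr
  nlinarith [mul_le_mul_of_nonneg_left hz (sq_nonneg (P.z : ℝ))]

/-- For a fixed pool-independent rational approximation, the bound with explicit step sets. -/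
theorem bilinear_core (T1 Tn : Finset (Fin (2 * P.z))) (hdisj : Disjoint T1 Tn)
    (hTn : Tn.card + 1 ≤ T1.card)
    {α β : ℝ} {a : ℤ} {g : ℕ} (hg : 1 ≤ g) (hcop : IsCoprime a (g : ℤ)) (hα : α = a / g + β)
    (hgU : g ≤ P.U ^ T1.card)
    (hout : ∀ σ : Σ i : Fin (2 * P.z), Fin (P.w i), σ.1 ∉ T1 → σ.1 ∉ Tn → ∀ p ∈ P.Blk σ, ¬ p ∣ g)
    (hsmall : |β| * g * (P.U : ℝ) ^ (2 * P.z) * 4 ≤ (P.U : ℝ) ^ T1.card)
    (hbig : (P.U : ℝ) ^ Tn.card ≤ g ∨
      (P.U : ℝ) ^ Tn.card ≤ |β| * g * (P.U : ℝ) ^ (2 * P.z)) :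
    (𝔼 p : P.Om, ‖S (P.dT univ p) α‖ ^ (2 * P.rc)) ^ 2
      ≤ P.EZ T1 * (15 * (P.z : ℝ) ^ 3 * (P.U : ℝ) ^ T1.card / ((P.z : ℝ) ^ 92) ^ Tn.card) := by
  classical
  set U : ℝ := (P.U : ℝ) with hUdef
  set z : ℝ := (P.z : ℝ) with hzdef
  set D := U ^ (2 * P.z) with hD
  set t := T1.card with ht
  set m := Tn.card with hm
  have hU4 : 4 ≤ U := by
    have h1 : P.z ≤ P.z ^ 99 := Nat.le_self_pow (by norm_num) _
    have h2 : 4 ≤ P.U := by have := P.hUlo; have := P.hz; omega
    rw [hUdef]; exact_mod_cast h2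
  have hU0 : 0 < U := by linarith
  have hz : (10 : ℝ) ^ 8 ≤ z := by rw [hzdef]; exact_mod_cast P.hz
  set Tg := (T1 ∪ Tn)ᶜ with hTg
  set C : ℝ := 15 * z ^ 3 * U ^ t / (z ^ 92) ^ m with hC
  have hC0 : 0 ≤ C := by positivity
  -- the value of the product over the steps outside `T1`
  let rest : P.Om → P.J → ℤ := fun p j => P.dT Tg p j * P.dT Tn p j
  have hsplit : ∀ p j, P.dT univ p j = P.dT T1 p j * rest p j := by
    intro p j
    simp only [rest, dT, hTg]
    rw [← Finset.prod_mul_prod_compl (T1 ∪ Tn) (fun i => P.pr p i j), Finset.prod_union hdisj]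
    push_cast; ring
  -- separate the choices in `T1`
  have hJ : ∀ p, S (P.dT univ p) α = 𝔼 j, S (P.dT T1 p) (α * rest p j) := by
    intro p
    unfold S
    rw [expect_resample T1]
    refine Finset.expect_congr rfl fun j _ => ?_
    rw [expect_resample T1 (fun j' => ee (α * (rest p j : ℝ) * (P.dT T1 p j' : ℝ)))]
    have hin : ∀ (j' : P.J) g', P.dT T1 p (override T1 j' g') = P.dT T1 p (override T1 j g') := by
      intro j' g'
      unfold dT
      congr 1
      exact Finset.prod_congr rfl fun i hi => P.pr_congr p i (by simp [override, hi])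
    have hout' : ∀ g', rest p (override T1 j g') = rest p j := by
      intro g'
      simp only [rest, dT]
      congr 2 <;> refine Finset.prod_congr rfl fun i hi => P.pr_congr p i ?_
      · simp only [hTg, mem_compl, mem_union, not_or] at hi
        simp [override, hi.1]
      · simp [override, (Finset.disjoint_right.1 hdisj hi : i ∉ T1)]
    simp only [hin]
    rw [Fintype.expect_const]
    refine Finset.expect_congr rfl fun g' _ => ?_
    rw [hsplit, hout']
    push_cast; ring_nf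
  -- the bound for a fixed choice `j` outside `T1`
  have key : ∀ j : P.J, (𝔼 p : P.Om, ‖S (P.dT T1 p) (α * rest p j)‖ ^ (2 * P.rc)) ^ 2 ≤ P.EZ T1 * C := by
    intro j
    let T' : Finset (Σ i : Fin (2 * P.z), Fin (P.w i)) := Tn.image fun i => ⟨i, j i⟩
    have hT'c : T'.card = m := by
      rw [Finset.card_image_of_injective]
      intro i i' h; exact congrArg Sigma.fst h
    let Q := ∀ σ : {x // x ∈ T'}, {q // q ∈ P.Blk σ.1}
    let nn : Q → ℤ := fun q => ((∏ σ : {x // x ∈ T'}, ((q σ).1 : ℕ) : ℕ) : ℤ)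
    have hinj : Function.Injective nn := by
      intro q q' h
      funext σ
      have h' : (∏ σ : {x // x ∈ T'}, ((q σ).1 : ℕ)) = ∏ σ : {x // x ∈ T'}, ((q' σ).1 : ℕ) := by
        simpa [nn] using Int.ofNat_inj.1 h
      have hp := (P.blk_spec _ _ (q σ).2).1
      have hd : ((q σ).1 : ℕ) ∣ ∏ σ : {x // x ∈ T'}, ((q' σ).1 : ℕ) :=
        h' ▸ Finset.dvd_prod_of_mem _ (mem_univ σ)
      obtain ⟨τ, -, hτ⟩ := (hp.prime.dvd_finsetProd_iff _).1 hd
      have he := (Nat.prime_dvd_prime_iff_eq hp (P.blk_spec _ _ (q' τ).2).1).1 hτ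
      have hστ : σ = τ := by
        by_contra hne
        exact Finset.disjoint_left.1 (P.blk_disj σ.1 τ.1 (fun h => hne (Subtype.ext h))) (q σ).2 (he ▸ (q' τ).2)
      subst hστ
      exact Subtype.ext he
    rw [expect_resample T']
    have hcardQ : ((Fintype.card Q : ℕ) : ℝ) = (z ^ 92) ^ m := by
      simp only [Q, Fintype.card_pi, Fintype.card_coe, P.blk_card, Finset.prod_const, Finset.card_univ]
      rw [hT'c]; push_cast; rfl
    -- pointwise in the pool
    have hpt : ∀ p : P.Om, (𝔼 q : Q, ‖S (P.dT T1 (override T' p q)) (α * rest (override T' p q) j)‖ ^ (2 * P.rc)) ^ 2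
        ≤ P0 (dif (P.dT T1 p) P.rc) * C := by
      intro p
      have e1 : ∀ q : Q, P.dT T1 (override T' p q) = P.dT T1 p := by
        intro q
        refine P.dT_congr T1 _ _ fun σ hσ => ?_
        have : σ ∉ T' := by
          intro h
          obtain ⟨i, hi, rfl⟩ := mem_image.1 h
          exact Finset.disjoint_left.1 hdisj hσ hi
        simp [override, this]
      have e2 : ∀ q : Q, P.dT Tg (override T' p q) = P.dT Tg p := by
        intro q
        refine P.dT_congr Tg _ _ fun σ hσ => ?_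
        have : σ ∉ T' := by
          intro h
          obtain ⟨i, hi, rfl⟩ := mem_image.1 h
          simp only [hTg, mem_compl, mem_union, not_or] at hσ
          exact hσ.2 hi
        simp [override, this]
      have e3 : ∀ q : Q, P.dT Tn (override T' p q) j = nn q := by
        intro q
        simp only [nn, dT]
        congr 1
        rw [← Finset.prod_coe_sort Tn]
        refine Fintype.prod_bijective (fun i => ⟨⟨i.1, j i.1⟩, mem_image_of_mem _ i.2⟩) ⟨?_, ?_⟩ _ _ ?_
        · intro i i' h; exact Subtype.ext (congrArg (fun σ : {x // x ∈ T'} => σ.1.1) h)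
        · rintro ⟨σ, hσ⟩
          obtain ⟨i, hi, rfl⟩ := mem_image.1 hσ
          exact ⟨⟨i, hi⟩, rfl⟩
        · intro i
          have hmem : (⟨i.1, j i.1⟩ : Σ i : Fin (2 * P.z), Fin (P.w i)) ∈ T' := mem_image_of_mem _ i.2
          simp [pr, override, hmem]
      simp only [e1, rest, e2, e3]
      set f := P.dT T1 p
      set G := P.dT Tg p j with hG
      set Y := dif f P.rc with hY
      have hYb : ∀ c, |Y c| ≤ ((P.U ^ t : ℕ) : ℤ) := by
        intro c
        have h := P.dif_dT_bound T1 p P.rc c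
        have hr : (P.rc : ℝ) * (4 / (P.z : ℝ) ^ 2) ≤ 1 := by
          have := P.rh_le
          have hzp : (0 : ℝ) < (P.z : ℝ) ^ 2 := by have := P.zpos; positivity
          unfold rc; push_cast
          rw [← mul_div_assoc, div_le_one hzp]
          linarith
        have h' : |(Y c : ℝ)| ≤ ((P.U ^ t : ℕ) : ℝ) := by
          push_cast
          exact h.trans (mul_le_of_le_one_right (by positivity) hr)
        exact_mod_cast h'
      have hreal : ∀ q : Q, ((‖S f (α * ((G * nn q : ℤ) : ℝ))‖ ^ (2 * P.rc) : ℝ) : ℂ)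
          = S Y ((α * (G : ℝ)) * (nn q : ℝ)) := by
        intro q; rw [norm_pow_eq]; push_cast; ring_nf; rfl
      have heq : (𝔼 q : Q, ‖S f (α * ((G * nn q : ℤ) : ℝ))‖ ^ (2 * P.rc))
          = ‖𝔼 q : Q, S Y ((α * (G : ℝ)) * (nn q : ℝ))‖ := by
        simp only [← hreal]
        rw [← Complex.ofReal_expect, Complex.norm_real, Real.norm_eq_abs]
        rw [abs_of_nonneg (Finset.expect_nonneg fun q _ => by positivity)]
      rw [heq]
      have hlen : ∀ q, (U ^ m : ℝ) ≤ (nn q : ℝ) ∧ (nn q : ℝ) ≤ U ^ m * (1 + 4 / z ^ 2) := by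
        intro q
        rw [← e3 q, hUdef, hzdef, hm]
        exact P.dT_le Tn _ j
      have hN : ∀ q q', |nn q - nn q'| ≤ ((P.U ^ m : ℕ) : ℤ) := by
        intro q q'
        obtain ⟨a1, b1⟩ := hlen q
        obtain ⟨a2, b2⟩ := hlen q'
        have h4 : U ^ m * (4 / z ^ 2) ≤ U ^ m :=
          mul_le_of_le_one_right (by positivity) (by rw [div_le_one (by positivity)]; nlinarith)
        have : |((nn q : ℤ) : ℝ) - (nn q' : ℤ)| ≤ ((P.U ^ m : ℕ) : ℝ) := by
          push_cast
          rw [← hUdef, abs_le]; constructor <;> linarith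
        exact_mod_cast this
      refine (bilinear_abstract Y (P.U ^ t) hYb nn hinj (P.U ^ m) hN (α * (G : ℝ))).trans ?_
      refine mul_le_mul ?_ ?_ (div_nonneg (sum_nonneg fun _ _ => norm_nonneg _) (by positivity)) (P0_nonneg _)
      · rw [← integral_norm_sq, ← integral_norm_pow]
        refine intervalIntegral.integral_mono_on zero_le_one
          (((continuous_S _).norm.pow _).intervalIntegrable _ _)
          (((continuous_S _).norm.pow _).intervalIntegrable _ _) fun x _ => ?_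
        rw [hY, norm_S_dif, ← pow_mul]
        exact pow_le_pow_of_le_one (norm_nonneg _) (norm_S_le_one _ _) (Nat.le_mul_of_pos_right _ (by norm_num))
      · rw [hcardQ, hC]
        refine div_le_div_of_nonneg_right ?_ (by positivity)
        -- the lattice sum
        obtain ⟨G1, G2⟩ := P.dT_le Tg p j
        rw [← hG, ← hUdef] at G1 G2
        rw [← hzdef] at G2
        have hc : Tg.card + (t + m) = 2 * P.z := by
          rw [hTg, ht, hm, ← Finset.card_union_of_disjoint hdisj, Finset.card_compl_add_card]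
          simp
        have hG0 : (0 : ℝ) < (G : ℝ) := lt_of_lt_of_le (pow_pos hU0 _) G1
        have hG2' : (G : ℝ) ≤ 2 * U ^ Tg.card := by
          refine G2.trans ?_
          rw [mul_comm (2 : ℝ)]
          refine mul_le_mul_of_nonneg_left ?_ (by positivity)
          have : 4 / z ^ 2 ≤ 1 := by rw [div_le_one (by positivity)]; nlinarith
          linarith
        have hDsplit : U ^ Tg.card * U ^ t * U ^ m = D := by
          rw [← pow_add, ← pow_add, hD]; congr 1; omega
        have hcopG : IsCoprime (a * G) (g : ℤ) := by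
          refine IsCoprime.mul_left hcop ?_
          simp only [hG, dT]
          rw [Int.isCoprime_iff_nat_coprime]
          simp only [Int.natAbs_natCast]
          refine Nat.Coprime.prod_left fun i hi => (P.pr_prime p i j).coprime_iff_not_dvd.2 ?_
          simp only [hTg, mem_compl, mem_union, not_or] at hi
          exact hout ⟨i, j i⟩ hi.1 hi.2 _ (p ⟨i, j i⟩).2
        have hgpos : (0 : ℝ) < g := by exact_mod_cast hg
        have hUm : ((P.U ^ m : ℕ) : ℝ) = U ^ m := by push_cast; rfl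
        have hθ : |β * (G : ℝ)| * ((P.U ^ m : ℕ) : ℝ) ≤ 1 / (2 * g) := by
          rw [hUm, le_div_iff₀ (by positivity), abs_mul, abs_of_pos hG0]
          have : |β| * (G : ℝ) * U ^ m * (2 * g) * U ^ t ≤ |β| * g * D * 4 := by
            calc |β| * (G : ℝ) * U ^ m * (2 * g) * U ^ t ≤ |β| * (2 * U ^ Tg.card) * U ^ m * (2 * g) * U ^ t := by gcongr
              _ = |β| * g * (U ^ Tg.card * U ^ t * U ^ m) * 4 := by ring
              _ = _ := by rw [hDsplit]
          have h2 := this.trans hsmall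
          by_contra hc'
          push Not at hc'
          have : U ^ t < |β| * (G : ℝ) * U ^ m * (2 * g) * U ^ t := lt_mul_of_one_lt_left (by positivity) hc'
          linarith
        have hH1 : 1 + Real.log g ≤ z ^ 3 := P.one_add_log_le (hgU.trans
          (Nat.pow_le_pow_right P.Upos (by omega)))
        have hH2 : 1 + Real.log ((P.U ^ m : ℕ) : ℝ) ≤ z ^ 3 :=
          P.one_add_log_le (Nat.pow_le_pow_right P.Upos (by omega))
        set k : ℤ → ℝ := fun m' => ‖∑ l ∈ range (2 * P.U ^ t + 1),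
          ee (α * (G : ℝ) * m' * (((-((P.U ^ t : ℕ) : ℤ)) : ℤ) + l : ℝ))‖
        have hL := lattice_sum (γ := α * (G : ℝ)) (θ := β * (G : ℝ)) (a := a * G) (g := g) (N := P.U ^ m)
          (R := 2 * U ^ t + 1) (H := z ^ 3) (k := k) hg hcopG
          (by rw [hα]; push_cast; field_simp) hθ (fun _ => norm_nonneg _)
          (fun m' => (norm_sum_le _ _).trans (le_of_eq (by simp [hUdef])))
          (fun m' => geom_ee _ _ _) hH1 hH2
        rw [hUm] at hL
        show ∑ m' ∈ Icc (-((P.U ^ m : ℕ) : ℤ)) (P.U ^ m : ℕ), k m' ≤ 15 * z ^ 3 * U ^ t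
        have hUt1 : 1 ≤ U ^ t := one_le_pow₀ (by linarith)
        have hz3 : 1 ≤ z ^ 3 := one_le_pow₀ (by linarith)
        have hNt : U ^ m ≤ U ^ t := pow_le_pow_right₀ (by linarith) (by omega)
        have hgt : (g : ℝ) ≤ U ^ t := by
          rw [hUdef]; exact_mod_cast hgU
        have hA : (4 * U ^ m + 2 * (g : ℝ)) * z ^ 3 ≤ 6 * (z ^ 3 * U ^ t) := by
          calc (4 * U ^ m + 2 * (g : ℝ)) * z ^ 3 ≤ (6 * U ^ t) * z ^ 3 := by gcongr; linarith
            _ = _ := by ring
        have hR : 2 * U ^ t + 1 ≤ 3 * (z ^ 3 * U ^ t) := by nlinarith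
        rcases hbig with hb | hb
        · have hE : 2 * (2 * U ^ t + 1) * U ^ m / g ≤ 6 * (z ^ 3 * U ^ t) := by
            rw [div_le_iff₀ hgpos]
            calc 2 * (2 * U ^ t + 1) * U ^ m ≤ 2 * (3 * (z ^ 3 * U ^ t)) * g := by gcongr
              _ = _ := by ring
          linarith [hL.1]
        · have hpos : 0 < |β| * g * D := lt_of_lt_of_le (pow_pos hU0 _) hb
          have hβ0 : β ≠ 0 := by
            intro h; simp [h] at hpos
          have hθ0 : β * (G : ℝ) ≠ 0 := mul_ne_zero hβ0 hG0.ne'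
          have hE : z ^ 3 / (|β * (G : ℝ)| * g) ≤ z ^ 3 * U ^ t := by
            have hβp : 0 < |β| := abs_pos.2 hβ0
            rw [abs_mul, abs_of_pos hG0, div_le_iff₀ (by positivity)]
            have h1 : 1 ≤ U ^ t * (|β| * (G : ℝ) * g) := by
              have h2 : U ^ m ≤ U ^ m * (U ^ t * (|β| * (G : ℝ) * g)) := by
                calc U ^ m ≤ |β| * g * D := hb
                  _ = |β| * g * (U ^ Tg.card * U ^ t * U ^ m) := by rw [hDsplit]
                  _ ≤ |β| * g * ((G : ℝ) * U ^ t * U ^ m) := by gcongr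
                  _ = _ := by ring
              exact le_of_mul_le_mul_left (by rw [mul_one]; exact h2) (pow_pos hU0 m)
            calc z ^ 3 = z ^ 3 * 1 := (mul_one _).symm
              _ ≤ z ^ 3 * (U ^ t * (|β| * (G : ℝ) * g)) := by gcongr
              _ = _ := by ring
          linarith [hL.2 hθ0, mul_nonneg (by linarith : (0 : ℝ) ≤ z ^ 3) (by linarith : (0 : ℝ) ≤ U ^ t)]
    refine (pow_expect_le _ (fun p => Finset.expect_nonneg fun q _ => by positivity) 2).trans ?_
    refine (Finset.expect_le_expect fun p _ => hpt p).trans (le_of_eq ?_)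
    rw [← Finset.expect_mul]; rfl
  -- Jensen over the choices outside `T1`
  have hjen : ∀ p : P.Om, ‖S (P.dT univ p) α‖ ^ (2 * P.rc)
      ≤ 𝔼 j, ‖S (P.dT T1 p) (α * rest p j)‖ ^ (2 * P.rc) := by
    intro p
    rw [hJ]
    refine (pow_le_pow_left₀ (norm_nonneg _) (RCLike.norm_expect_le (K := ℂ)) _).trans ?_
    exact pow_expect_le _ (fun j => norm_nonneg _) _
  refine (pow_le_pow_left₀ (Finset.expect_nonneg fun p _ => by positivity)
    (Finset.expect_le_expect fun p _ => hjen p) 2).trans ?_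
  rw [Finset.expect_comm]
  refine (pow_expect_le _ (fun j => Finset.expect_nonneg fun p _ => by positivity) 2).trans ?_
  exact Finset.expect_le univ_nonempty fun j _ => key j

open Classical in
/-- The main class bound: `(E‖S‖^{2r})^2 ≤ z^(18249 - 36 i)` when `U^(i-1) < Q ≤ U^i`. -/
theorem main_class_bound {α β : ℝ} {a : ℤ} {g i : ℕ} (hg : 1 ≤ g) (hcop : IsCoprime a (g : ℤ))
    (hα : α = a / g + β) (hi : 2 ≤ i) (hiz : i + i / 2 + bigCount ≤ 2 * P.z)
    (hgi : g ≤ P.U ^ i) (hTi : |β| * g * (P.U : ℝ) ^ (2 * P.z) ≤ (P.U : ℝ) ^ i)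
    (hbig : (P.U : ℝ) ^ (i / 2) ≤ g ∨ (P.U : ℝ) ^ (i / 2) ≤ |β| * g * (P.U : ℝ) ^ (2 * P.z)) :
    (𝔼 p : P.Om, ‖S (P.dT univ p) α‖ ^ (2 * P.rc)) ^ 2 * (P.z : ℝ) ^ (36 * i)
      ≤ 15 * (P.z : ℝ) ^ 18249 := by
  set z : ℝ := (P.z : ℝ) with hzdef
  have hz : (10 : ℝ) ^ 8 ≤ z := by rw [hzdef]; exact_mod_cast P.hz
  have hz1 : 1 ≤ z := by linarith
  set bad := univ.filter fun s : Fin (2 * P.z) => ∃ k, ∃ q ∈ P.Blk ⟨s, k⟩, q ∣ g with hbad
  have hbadc : bad.card ≤ i := by
    have hch : ∀ s : {x // x ∈ bad}, ∃ k, ∃ q ∈ P.Blk ⟨s.1, k⟩, q ∣ g := fun s => (mem_filter.1 s.2).2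
    choose kf qf hqf hqd using hch
    have hinj : Function.Injective qf := by
      intro s s' h
      by_contra hne
      exact Finset.disjoint_left.1 (P.blk_disj ⟨s.1, kf s⟩ ⟨s'.1, kf s'⟩
        (fun h' => hne (Subtype.ext (congrArg Sigma.fst h')))) (hqf s) (h ▸ hqf s')
    have hd : (∏ q ∈ univ.image qf, q) ∣ g := Finset.prod_primes_dvd _
      (fun q hq => by
        obtain ⟨s, -, rfl⟩ := mem_image.1 hq
        exact (P.blk_spec _ _ (hqf s)).1.prime)
      (fun q hq => by
        obtain ⟨s, -, rfl⟩ := mem_image.1 hq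
        exact hqd s)
    have h1 : P.U ^ bad.card ≤ P.U ^ i := by
      refine le_trans ?_ (le_trans (Nat.le_of_dvd (by omega) hd) hgi)
      rw [Finset.prod_image (fun x _ y _ h => hinj h), ← Fintype.card_coe bad, ← Finset.card_univ, ← Finset.prod_const]
      exact Finset.prod_le_prod' fun s _ => (P.blk_spec _ _ (hqf s)).2.1.le
    exact (Nat.pow_le_pow_iff_right P.two_le_U).1 h1
  obtain ⟨T1, hT1s, -, hT1c⟩ := Finset.exists_subsuperset_card_eq (s := P.bigSteps ∪ bad) (t := univ)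
    (n := bigCount + i) (subset_univ _)
    (by refine (card_union_le _ _).trans ?_; rw [P.bigSteps_card]; omega)
    (by simp; omega)
  obtain ⟨Tn, hTns, hTnc⟩ := Finset.exists_subset_card_eq (s := T1ᶜ) (n := i / 2)
    (by rw [card_compl, hT1c]; simp; omega)
  have hdisj : Disjoint T1 Tn :=
    Finset.disjoint_left.2 fun x hx hx' => (mem_compl.1 (hTns hx')) hx
  have hcore := P.bilinear_core T1 Tn hdisj (by rw [hTnc, hT1c]; omega) hg hcop hα
    (hgi.trans (Nat.pow_le_pow_right P.Upos (by omega)))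
    (fun σ hσ1 _ q hq hqd => hσ1 (hT1s (mem_union_right _ (by
      rw [hbad]; exact mem_filter.2 ⟨mem_univ _, σ.2, q, hq, hqd⟩))))
    (by
      rw [hT1c, Nat.add_comm, pow_add]
      refine le_trans (mul_le_mul_of_nonneg_right hTi (by norm_num)) ?_
      refine mul_le_mul_of_nonneg_left ?_ (by positivity)
      have h1 : (4 : ℝ) ≤ (2 : ℝ) ^ bigCount := le_trans (by norm_num : (4 : ℝ) ≤ 2 ^ 2)
        (pow_le_pow_right₀ (by norm_num) (by unfold bigCount; norm_num))
      exact h1.trans (pow_le_pow_left₀ (by norm_num) (by exact_mod_cast P.two_le_U) _))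
    (by rw [hTnc]; exact hbig)
  rw [hT1c, hTnc, ← hzdef] at hcore
  have hEZ := P.energy i T1 (subset_union_left.trans hT1s) hT1c
  rw [← hzdef] at hEZ
  have hU : (P.U : ℝ) ^ (bigCount + i) ≤ z ^ (18200 + 100 * i) := by
    calc (P.U : ℝ) ^ (bigCount + i) ≤ (z ^ 100) ^ (bigCount + i) :=
          pow_le_pow_left₀ (by positivity) (by rw [hzdef]; exact_mod_cast P.hUhi) _
      _ = _ := by rw [← pow_mul]; congr 1; unfold bigCount; ring
  have hX : 0 ≤ 15 * z ^ 3 * (P.U : ℝ) ^ (bigCount + i) / (z ^ 92) ^ (i / 2) := by positivity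
  calc (𝔼 p : P.Om, ‖S (P.dT univ p) α‖ ^ (2 * P.rc)) ^ 2 * z ^ (36 * i)
      ≤ (1 / z ^ 90) ^ i * (15 * z ^ 3 * (P.U : ℝ) ^ (bigCount + i) / (z ^ 92) ^ (i / 2)) * z ^ (36 * i) := by
        refine mul_le_mul_of_nonneg_right (hcore.trans ?_) (by positivity)
        exact mul_le_mul_of_nonneg_right hEZ hX
    _ ≤ (1 / z ^ 90) ^ i * (15 * z ^ 3 * z ^ (18200 + 100 * i) / (z ^ 92) ^ (i / 2)) * z ^ (36 * i) := by gcongr
    _ = 15 * z ^ (3 + (18200 + 100 * i) + 36 * i) / z ^ (90 * i + 92 * (i / 2)) := by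
        rw [one_div_pow, ← pow_mul, ← pow_mul, pow_add z (3 + (18200 + 100 * i)) (36 * i),
          pow_add z 3, pow_add z (90 * i)]
        field_simp
    _ ≤ _ := by
        rw [div_le_iff₀ (by positivity), mul_assoc, ← pow_add]
        exact mul_le_mul_of_nonneg_left (pow_le_pow_right₀ hz1 (by omega)) (by norm_num)

end Pool

end Vale.Agent.P012
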