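import Mathlib

/-!
Disjoint blocks of primes inside a very short interval (Chebyshev + pigeonhole).
-/

namespace Vale.Agent.P012
open Finset Nat
open scoped Nat.Prime

theorem exists_prime_blocks : ∃ Z : ℕ, 16 ≤ Z ∧ ∀ z : ℕ, Z ≤ z →
    ∀ (κ : Type) [Fintype κ] [DecidableEq κ], Fintype.card κ ≤ z ^ 2 →
    ∃ (U : ℕ) (B : κ → Finset ℕ), z ^ 99 ≤ U ∧ U ≤ z ^ 100 ∧
      (∀ σ, (B σ).card = z ^ 92) ∧
      (∀ σ, ∀ p ∈ B σ, p.Prime ∧ U < p ∧ z ^ 3 * p ≤ (z ^ 3 + 1) * U) ∧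
      (∀ σ σ', σ ≠ σ' → Disjoint (B σ) (B σ')) := by
  refine ⟨10 ^ 8, by norm_num, fun z hz κ _ _ hκ => ?_⟩
  have hz2 : 2 ≤ z := le_trans (by norm_num) hz
  set N := z ^ 100 with hN
  have hzR : (10 : ℝ) ^ 8 ≤ (z : ℝ) := by exact_mod_cast hz
  -- Chebyshev
  have hpi : (5 : ℝ) * (z : ℝ) ^ 99 ≤ (π N : ℝ) := by
    have h := Chebyshev.pi_ge N
    refine le_trans ?_ h
    have hlogz : Real.log (z : ℝ) ≤ (z : ℝ) / 4000 := by
      have hlog := Real.log_le_rpow_div (x := (z : ℝ)) (ε := 1 / 2) (by positivity) (by norm_num)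
      rw [← Real.sqrt_eq_rpow] at hlog
      have hs : (10 : ℝ) ^ 4 ≤ Real.sqrt z := by
        rw [show (10 : ℝ) ^ 4 = Real.sqrt ((10 : ℝ) ^ 8) by
          rw [show (10 : ℝ) ^ 8 = ((10 : ℝ) ^ 4) ^ 2 by norm_num, Real.sqrt_sq (by norm_num)]]
        exact Real.sqrt_le_sqrt hzR
      have hsq := Real.mul_self_sqrt (show (0 : ℝ) ≤ z by positivity)
      nlinarith
    have hNR : ((N : ℕ) : ℝ) = (z : ℝ) ^ 100 := by rw [hN]; push_cast; rfl
    have hlogN : Real.log (N : ℝ) = 100 * Real.log z := by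
      rw [hNR, Real.log_pow]; norm_num
    have hlogN1 : Real.log ((N : ℝ) + 1) ≤ Real.log 2 + 100 * Real.log z := by
      rw [← hlogN, ← Real.log_mul (by norm_num) (by rw [hNR]; positivity)]
      apply Real.log_le_log (by rw [hNR]; positivity)
      have : (1 : ℝ) ≤ (N : ℝ) := by exact_mod_cast Nat.one_le_pow _ _ (by omega)
      linarith
    have hlz : 0 < Real.log (z : ℝ) := Real.log_pos (by linarith)
    rw [hlogN, le_div_iff₀ (by positivity), hNR]
    rw [hNR] at hlogN1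
    have hzz : (z : ℝ) ≤ (z : ℝ) ^ 100 := le_self_pow₀ (by linarith) (by norm_num)
    have h99 : (0 : ℝ) < (z : ℝ) ^ 99 := by positivity
    have e : (z : ℝ) ^ 100 = (z : ℝ) ^ 99 * z := pow_succ _ _
    have hl2 := Real.log_two_gt_d9
    have hl2' := Real.log_two_lt_d9
    nlinarith
  let P := (Ioc (z ^ 99) N).filter Nat.Prime
  have hPcard : 4 * z ^ 99 ≤ P.card + 1 := by
    have h1 : π N ≤ z ^ 99 + P.card + 1 := by
      rw [Nat.primeCounting, Nat.primeCounting', Nat.count_eq_card_filter_range]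
      calc ((range (N + 1)).filter Nat.Prime).card
          ≤ (range (z ^ 99 + 1) ∪ P).card := Finset.card_le_card fun x hx => by
            simp only [mem_filter, mem_range] at hx
            simp only [mem_union, mem_range, P, mem_filter, mem_Ioc]
            rcases lt_or_ge x (z ^ 99 + 1) with h | h
            · exact Or.inl h
            · exact Or.inr ⟨⟨h, by omega⟩, hx.2⟩
        _ ≤ _ := by
            refine (Finset.card_union_le _ _).trans ?_
            simp; omega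
    have h5 : 5 * z ^ 99 ≤ π N := by exact_mod_cast hpi
    have : 1 ≤ z ^ 99 := Nat.one_le_pow _ _ (by omega)
    omega
  -- pigeonhole
  have hmaps : ∀ p ∈ P, (p - 1) / z ^ 96 ∈ Ico (z ^ 3) (z ^ 4) := by
    intro p hp
    simp only [P, mem_filter, mem_Ioc] at hp
    simp only [mem_Ico]
    have hl : 0 < z ^ 96 := Nat.pow_pos (by omega)
    constructor
    · rw [Nat.le_div_iff_mul_le hl, ← pow_add]
      have : z ^ (3 + 96) = z ^ 99 := rfl
      omega
    · rw [Nat.div_lt_iff_lt_mul hl, ← pow_add]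
      have : z ^ (4 + 96) = N := rfl
      omega
  obtain ⟨k, hk, hkc⟩ : ∃ k ∈ Ico (z ^ 3) (z ^ 4), z ^ 94 ≤ (P.filter fun p => (p - 1) / z ^ 96 = k).card := by
    by_contra hcon
    push Not at hcon
    have h1 := Finset.card_eq_sum_card_fiberwise hmaps
    have h2 : P.card ≤ (Ico (z ^ 3) (z ^ 4)).card * z ^ 94 := by
      rw [h1]
      refine (Finset.sum_le_sum fun k hk => (hcon k hk).le).trans ?_
      simp
    rw [Nat.card_Ico] at h2
    have h3 : (z ^ 4 - z ^ 3) * z ^ 94 ≤ z ^ 4 * z ^ 94 := Nat.mul_le_mul_right _ (Nat.sub_le _ _)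
    have h4 : z ^ 4 * z ^ 94 ≤ z ^ 99 := by
      rw [← pow_add]; exact Nat.pow_le_pow_right (by omega) (by norm_num)
    have : 0 < z ^ 99 := Nat.pow_pos (by omega)
    omega
  set P0 := P.filter fun p => (p - 1) / z ^ 96 = k
  obtain ⟨e⟩ : Nonempty (κ × Fin (z ^ 92) ↪ P0) := by
    apply Function.Embedding.nonempty_of_card_le
    rw [Fintype.card_prod, Fintype.card_fin, Fintype.card_coe]
    calc Fintype.card κ * z ^ 92 ≤ z ^ 2 * z ^ 92 := Nat.mul_le_mul_right _ hκ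
      _ = z ^ 94 := by rw [← pow_add]
      _ ≤ _ := hkc
  simp only [mem_Ico] at hk
  refine ⟨k * z ^ 96, fun σ => (univ : Finset (Fin (z ^ 92))).image fun j => ((e (σ, j) : P0) : ℕ),
    ?_, ?_, ?_, ?_, ?_⟩
  · calc z ^ 99 = z ^ 3 * z ^ 96 := by rw [← pow_add]
      _ ≤ k * z ^ 96 := Nat.mul_le_mul_right _ hk.1
  · calc k * z ^ 96 ≤ z ^ 4 * z ^ 96 := Nat.mul_le_mul_right _ hk.2.le
      _ = z ^ 100 := by rw [← pow_add]
  · intro σ
    rw [Finset.card_image_of_injective]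
    · simp
    · intro a b hab
      exact (Prod.ext_iff.1 (e.injective (Subtype.ext hab))).2
  · intro σ p hp
    simp only [mem_image, mem_univ, true_and] at hp
    obtain ⟨j, rfl⟩ := hp
    have := (e (σ, j)).2
    simp only [P0, P, mem_filter, mem_Ioc] at this
    obtain ⟨⟨⟨h1, h2⟩, hpr⟩, hdiv⟩ := this
    set p := ((e (σ, j) : P0) : ℕ)
    have hl : 0 < z ^ 96 := Nat.pow_pos (by omega)
    have hlo := Nat.div_mul_le_self (p - 1) (z ^ 96)
    have hhi : p - 1 < (k + 1) * z ^ 96 := by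
      rw [← hdiv]
      exact (Nat.div_lt_iff_lt_mul hl).1 (Nat.lt_succ_self _)
    rw [hdiv] at hlo
    have hp1 := hpr.one_le
    refine ⟨hpr, by omega, ?_⟩
    have hp' : p ≤ (k + 1) * z ^ 96 := by omega
    calc z ^ 3 * p ≤ z ^ 3 * ((k + 1) * z ^ 96) := Nat.mul_le_mul_left _ hp'
      _ = z ^ 3 * (k * z ^ 96) + z ^ 3 * z ^ 96 := by ring
      _ ≤ z ^ 3 * (k * z ^ 96) + k * z ^ 96 := Nat.add_le_add_left (Nat.mul_le_mul_right _ hk.1) _
      _ = _ := by ring
  · intro σ σ' hne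
    rw [Finset.disjoint_left]
    intro p hp hp'
    simp only [mem_image, mem_univ, true_and] at hp hp'
    obtain ⟨j, rfl⟩ := hp
    obtain ⟨j', hj'⟩ := hp'
    exact hne (Prod.ext_iff.1 (e.injective (Subtype.ext hj'))).1.symm

end Vale.Agent.P012
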