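import Mathlib

/-!
Sums of unit fractions with repetitions can be made distinct without increasing the number of terms.
-/

namespace Vale.Agent.P012
open Finset

/-- `q` is a sum of at most `k` unit fractions, repetitions allowed. -/
def Rep (k : ℕ) (q : ℚ) : Prop :=
  ∃ l : Multiset ℕ, Multiset.card l ≤ k ∧ (∀ n ∈ l, 1 ≤ n) ∧ (l.map fun n : ℕ => (1 : ℚ) / n).sum = q

theorem Rep.zero (k : ℕ) : Rep k 0 := ⟨0, by simp, by simp, by simp⟩

theorem Rep.mono {k k' : ℕ} {q : ℚ} (h : Rep k q) (hk : k ≤ k') : Rep k' q := by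
  obtain ⟨l, h1, h2, h3⟩ := h
  exact ⟨l, h1.trans hk, h2, h3⟩

theorem Rep.add {k k' : ℕ} {q q' : ℚ} (h : Rep k q) (h' : Rep k' q') : Rep (k + k') (q + q') := by
  obtain ⟨l, h1, h2, h3⟩ := h
  obtain ⟨l', g1, g2, g3⟩ := h'
  refine ⟨l + l', by simpa using add_le_add h1 g1, ?_, by rw [Multiset.map_add, Multiset.sum_add, h3, g3]⟩
  intro n hn
  rcases Multiset.mem_add.1 hn with hn | hn
  · exact h2 n hn
  · exact g2 n hn

theorem Rep.single {n : ℕ} (hn : 1 ≤ n) : Rep 1 ((1 : ℚ) / n) :=
  ⟨{n}, by simp, by simpa using hn, by simp⟩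

private theorem entries_bounded (k : ℕ) :
    ∀ q : ℚ, ∃ B : ℕ, ∀ l : Multiset ℕ, Multiset.card l ≤ k → (∀ n ∈ l, 1 ≤ n) →
      (l.map fun n : ℕ => (1 : ℚ) / n).sum = q → ∀ n ∈ l, n ≤ B := by
  induction k with
  | zero =>
    intro q
    exact ⟨0, fun l hl _ _ n hn => by simp_all⟩
  | succ k ih =>
    intro q
    choose B hB using fun n : ℕ => ih (q - 1 / n)
    by_cases hq : q ≤ 0
    · refine ⟨0, fun l _ hl hs n hn => ?_⟩
      exfalso
      have h0 : (0 : ℚ) < (1 : ℚ) / n := by
        have : (1 : ℚ) ≤ n := by exact_mod_cast hl n hn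
        positivity
      have := Multiset.single_le_sum (s := l.map fun n : ℕ => (1 : ℚ) / n)
        (fun x hx => by
          obtain ⟨m, -, rfl⟩ := Multiset.mem_map.1 hx
          positivity) _ (Multiset.mem_map_of_mem (fun n : ℕ => (1 : ℚ) / n) hn)
      linarith
    · push Not at hq
      let N0 : ℕ := ⌈((k : ℚ) + 1) / q⌉₊
      refine ⟨N0 + ∑ n ∈ range (N0 + 1), B n, fun l hc hl hs n hn => ?_⟩
      have hne : l ≠ 0 := by rintro rfl; simp at hn
      obtain ⟨a, ha, hamin⟩ : ∃ a ∈ l, ∀ x ∈ l, a ≤ x := by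
        obtain ⟨a, ha, h⟩ := Finset.exists_min_image l.toFinset id
          ⟨n, Multiset.mem_toFinset.2 hn⟩
        exact ⟨a, Multiset.mem_toFinset.1 ha, fun x hx => h x (Multiset.mem_toFinset.2 hx)⟩
      have ha1 : (1 : ℚ) ≤ a := by exact_mod_cast hl a ha
      have hsum : q ≤ ((k : ℚ) + 1) * (1 / a) := by
        rw [← hs]
        refine (Multiset.sum_le_card_nsmul _ ((1 : ℚ) / a) ?_).trans ?_
        · intro x hx
          obtain ⟨m, hm, rfl⟩ := Multiset.mem_map.1 hx
          have : (a : ℚ) ≤ m := by exact_mod_cast hamin m hm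
          exact div_le_div_of_nonneg_left zero_le_one (by linarith) this
        · rw [nsmul_eq_mul]
          gcongr
          simpa using (by exact_mod_cast (Multiset.card_map (fun n : ℕ => (1:ℚ)/n) l).trans_le hc :
            (Multiset.card (l.map fun n : ℕ => (1:ℚ)/n) : ℚ) ≤ ((k + 1 : ℕ) : ℚ))
      have haN : a ≤ N0 := by
        have : (a : ℚ) ≤ ((k : ℚ) + 1) / q := by
          rw [le_div_iff₀ hq]
          rw [mul_one_div, le_div_iff₀ (by linarith)] at hsum
          linarith [hsum]
        have := this.trans (Nat.le_ceil _)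
        show a ≤ ⌈((k : ℚ) + 1) / q⌉₊
        exact_mod_cast (Nat.cast_le.1 this)
      by_cases hna : n = a
      · omega
      · have hrest := hB a (l.erase a) (by rw [Multiset.card_erase_of_mem ha]; simp only [Nat.pred_eq_sub_one]; omega)
          (fun x hx => hl x (Multiset.mem_of_mem_erase hx))
          (by
            rw [← hs]
            conv_rhs => rw [← Multiset.cons_erase ha]
            simp)
          n ((Multiset.mem_erase_of_ne hna).2 hn)
        have : B a ≤ ∑ n ∈ range (N0 + 1), B n :=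
          Finset.single_le_sum (fun i _ => Nat.zero_le (B i)) (by simp; omega)
        omega

/-- Repetitions can be removed (Takenouchi). -/
theorem Rep.distinct {k : ℕ} {q : ℚ} (h : Rep k q) (hq : q < 1) :
    ∃ s : Finset ℕ, s.card ≤ k ∧ (∀ n ∈ s, 2 ≤ n) ∧ ∑ n ∈ s, (1 : ℚ) / n = q := by
  obtain ⟨B, hB⟩ := entries_bounded k q
  let P : Multiset ℕ → Prop := fun l =>
    Multiset.card l ≤ k ∧ (∀ n ∈ l, 1 ≤ n) ∧ (l.map fun n : ℕ => (1 : ℚ) / n).sum = q
  have two : ∀ l, P l → ∀ n ∈ l, 2 ≤ n := by
    intro l hl n hn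
    by_contra hn2
    have : n = 1 := by have := hl.2.1 n hn; omega
    subst this
    have := Multiset.single_le_sum (s := l.map fun n : ℕ => (1 : ℚ) / n)
        (fun x hx => by
          obtain ⟨m, -, rfl⟩ := Multiset.mem_map.1 hx
          positivity) _ (Multiset.mem_map_of_mem (fun n : ℕ => (1 : ℚ) / n) hn)
    rw [hl.2.2] at this
    norm_num at this
    linarith
  have prod_le : ∀ l, P l → l.prod ≤ (B + 1) ^ k := by
    intro l hl
    refine (Multiset.prod_le_pow_card l (B + 1) fun n hn => ?_).trans (Nat.pow_le_pow_right (by omega) hl.1)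
    have := hB l hl.1 hl.2.1 hl.2.2 n hn
    omega
  suffices main : ∀ c : ℕ, ∀ d : ℕ, ∀ l, P l → Multiset.card l = c → (B + 1) ^ k - l.prod = d →
      ∃ l', P l' ∧ l'.Nodup by
    obtain ⟨l, hl⟩ := h
    obtain ⟨l', hl', hn⟩ := main _ _ l hl rfl rfl
    refine ⟨⟨l', hn⟩, hl'.1, two l' hl', hl'.2.2⟩
  intro c
  induction c using Nat.strong_induction_on with
  | _ c ihc =>
  intro d
  induction d using Nat.strong_induction_on with
  | _ d ihd =>
  intro l hl hc hd
  by_cases hn : l.Nodup
  · exact ⟨l, hl, hn⟩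
  · obtain ⟨n, hn⟩ : ∃ n, 2 ≤ l.count n := by
      rw [Multiset.nodup_iff_count_le_one] at hn
      push Not at hn
      exact hn
    have h1 : n ∈ l := Multiset.count_pos.1 (by omega)
    have h2 : n ∈ l.erase n := Multiset.count_pos.1 (by rw [Multiset.count_erase_self]; omega)
    set t := (l.erase n).erase n with ht
    have hlt : l = n ::ₘ n ::ₘ t := by rw [ht, Multiset.cons_erase h2, Multiset.cons_erase h1]
    have hn2 := two l hl n h1
    have hn0 : (n : ℚ) ≠ 0 := by exact_mod_cast (by omega : n ≠ 0)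
    obtain ⟨m, hm | hm⟩ : ∃ m, n = 2 * m ∨ n = 2 * m + 1 := ⟨n / 2, by omega⟩
    · have hm0 : (m : ℚ) ≠ 0 := by exact_mod_cast (by omega : m ≠ 0)
      refine ihc (c - 1) ?_ _ (m ::ₘ t) ⟨?_, ?_, ?_⟩ ?_ rfl
      · rw [hlt] at hc; simp at hc; omega
      · have := hl.1; rw [hlt] at this; simp at this ⊢; omega
      · intro x hx
        rcases Multiset.mem_cons.1 hx with rfl | hx
        · omega
        · exact hl.2.1 x (by rw [hlt]; simp [hx])
      · rw [← hl.2.2, hlt]
        simp only [Multiset.map_cons, Multiset.sum_cons]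
        rw [hm]; push_cast; field_simp; ring
      · rw [hlt] at hc; simp at hc ⊢; omega
    · let a := m + 1
      let b := n * (m + 1)
      have hP : P (a ::ₘ b ::ₘ t) := by
        refine ⟨?_, ?_, ?_⟩
        · have := hl.1; rw [hlt] at this; simpa using this
        · intro x hx
          simp only [Multiset.mem_cons] at hx
          rcases hx with rfl | rfl | hx
          · omega
          · exact Nat.one_le_iff_ne_zero.2 (Nat.mul_ne_zero (by omega) (by omega))
          · exact hl.2.1 x (by rw [hlt]; simp [hx])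
        · rw [← hl.2.2, hlt]
          simp only [Multiset.map_cons, Multiset.sum_cons, a, b]
          rw [hm]; push_cast; field_simp; ring
      refine ihd _ ?_ _ hP ?_ rfl
      · have e1 : l.prod = n * (n * t.prod) := by rw [hlt]; simp
        have e2 : (a ::ₘ b ::ₘ t).prod = a * (b * t.prod) := by simp
        have tpos : 0 < t.prod := by
          refine Nat.pos_of_ne_zero (Multiset.prod_ne_zero ?_)
          intro h0
          have := hl.2.1 0 (by rw [hlt]; simp [h0])
          omega
        have hab : n * n < a * b := by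
          simp only [a, b]
          rw [hm]
          have hm1 : 1 ≤ m := by omega
          nlinarith
        have : l.prod < (a ::ₘ b ::ₘ t).prod := by
          rw [e1, e2, ← mul_assoc, ← mul_assoc]
          exact Nat.mul_lt_mul_of_pos_right hab tpos
        have := prod_le _ hP
        omega
      · rw [hlt] at hc; simpa using hc

end Vale.Agent.P012
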