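import Mathlib

/-!
A sum of `k` unit fractions that is below a positive rational of denominator `q` stays below it by
at least a doubly exponentially small amount.
-/

namespace Vale.Agent.P012
open Finset

theorem gap_below (k0 : ℕ) (hk0 : 1 ≤ k0) :
    ∀ k : ℕ, k ≤ k0 → ∀ (s : Finset ℕ), s.card ≤ k → (∀ n ∈ s, 1 ≤ n) → ∀ (p q : ℕ), 1 ≤ q →
      ∑ n ∈ s, (1 : ℚ) / n < (p : ℚ) / q →
      ∑ n ∈ s, (1 : ℚ) / n + 1 / (((4 * k0 * q) ^ (3 ^ k) : ℕ) : ℚ) ≤ (p : ℚ) / q := by
  intro k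
  induction k with
  | zero =>
    intro _ s hs _ p q hq hlt
    obtain rfl : s = ∅ := Finset.card_eq_zero.1 (by omega)
    simp only [sum_empty, zero_add, pow_zero, pow_one] at hlt ⊢
    have hp : (1 : ℚ) ≤ p := by
      have : p ≠ 0 := by rintro rfl; simp at hlt
      exact_mod_cast Nat.one_le_iff_ne_zero.2 this
    have hq' : (1 : ℚ) ≤ q := by exact_mod_cast hq
    have hkq : (q : ℚ) ≤ ((4 * k0 * q : ℕ) : ℚ) := by
      exact_mod_cast Nat.le_mul_of_pos_left q (by omega)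
    calc 1 / ((4 * k0 * q : ℕ) : ℚ) ≤ 1 / (q : ℚ) :=
          div_le_div_of_nonneg_left zero_le_one (by linarith) hkq
      _ ≤ (p : ℚ) / q := by gcongr
  | succ k ih =>
    intro hk s hs hs1 p q hq hlt
    have hq' : (1 : ℚ) ≤ q := by exact_mod_cast hq
    have hp : (1 : ℚ) ≤ p := by
      have : p ≠ 0 := by
        rintro rfl
        have : (0 : ℚ) ≤ ∑ n ∈ s, (1 : ℚ) / n := Finset.sum_nonneg fun i _ => by positivity
        simp at hlt
        simp at this
        linarith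
      exact_mod_cast Nat.one_le_iff_ne_zero.2 this
    have hbase : 1 ≤ 4 * k0 * q := Nat.one_le_iff_ne_zero.2 (Nat.mul_ne_zero (by omega) (by omega))
    by_cases hex : ∃ n ∈ s, n ≤ 2 * k0 * q
    · obtain ⟨n, hn, hnb⟩ := hex
      have hn1 := hs1 n hn
      have hn0 : (n : ℚ) ≠ 0 := by exact_mod_cast (by omega : n ≠ 0)
      have hsum := Finset.add_sum_erase s (fun n : ℕ => (1 : ℚ) / n) hn
      have hpn : q ≤ p * n := by
        by_contra hc
        push Not at hc
        have h1 : (p : ℚ) * n < q := by exact_mod_cast hc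
        have h2 : (p : ℚ) / q < 1 / n := by
          rw [div_lt_div_iff₀ (by linarith) (by positivity)]
          linarith
        have : (0 : ℚ) ≤ ∑ n ∈ s.erase n, (1 : ℚ) / n := Finset.sum_nonneg fun i _ => by positivity
        linarith
      have hsplit : (p : ℚ) / q = 1 / n + ((p * n - q : ℕ) : ℚ) / ((q * n : ℕ) : ℚ) := by
        rw [Nat.cast_sub hpn]
        push_cast
        field_simp
        ring
      have := ih (by omega) (s.erase n) (by rw [Finset.card_erase_of_mem hn]; omega)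
        (fun m hm => hs1 m (Finset.mem_of_mem_erase hm)) (p * n - q) (q * n)
        (Nat.one_le_iff_ne_zero.2 (Nat.mul_ne_zero (by omega) (by omega)))
        (by linarith)
      have hle : (4 * k0 * (q * n)) ^ 3 ^ k ≤ (4 * k0 * q) ^ 3 ^ (k + 1) := by
        rw [pow_succ 3 k, mul_comm (3 ^ k) 3, pow_mul]
        apply Nat.pow_le_pow_left
        calc 4 * k0 * (q * n) ≤ 4 * k0 * (q * (2 * k0 * q)) := by gcongr
          _ = 1 * (8 * k0 ^ 2 * q ^ 2) := by ring
          _ ≤ (8 * k0 * q) * (8 * k0 ^ 2 * q ^ 2) := by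
              exact Nat.mul_le_mul_right _ (Nat.one_le_iff_ne_zero.2 (Nat.mul_ne_zero (by omega) (by omega)))
          _ = (4 * k0 * q) ^ 3 := by ring
      have hpos : 0 < (4 * k0 * (q * n)) ^ 3 ^ k :=
        Nat.pow_pos (Nat.pos_of_ne_zero (Nat.mul_ne_zero (by omega) (Nat.mul_ne_zero (by omega) (by omega))))
      have h2 : 1 / (((4 * k0 * q) ^ 3 ^ (k + 1) : ℕ) : ℚ) ≤ 1 / (((4 * k0 * (q * n)) ^ 3 ^ k : ℕ) : ℚ) :=
        div_le_div_of_nonneg_left zero_le_one (by exact_mod_cast hpos) (by exact_mod_cast hle)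
      linarith
    · push Not at hex
      have hb : (0 : ℚ) < 2 * k0 * q := by
        have : (1 : ℚ) ≤ k0 := by exact_mod_cast hk0
        positivity
      have hsum : ∑ n ∈ s, (1 : ℚ) / n ≤ (k0 : ℚ) * (1 / (2 * k0 * q)) := by
        calc ∑ n ∈ s, (1 : ℚ) / n ≤ ∑ _n ∈ s, (1 : ℚ) / (2 * k0 * q) := by
              refine Finset.sum_le_sum fun n hn => div_le_div_of_nonneg_left zero_le_one hb ?_
              exact_mod_cast (hex n hn).le
          _ = (s.card : ℚ) * (1 / (2 * k0 * q)) := by simp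
          _ ≤ _ := by
              gcongr
              exact_mod_cast hs.trans hk
      have hle : 2 * q ≤ (4 * k0 * q) ^ 3 ^ (k + 1) := by
        calc 2 * q ≤ 4 * k0 * q := by gcongr; omega
          _ ≤ _ := Nat.le_self_pow (pow_ne_zero _ (by norm_num)) _
      have h2 : 1 / (((4 * k0 * q) ^ 3 ^ (k + 1) : ℕ) : ℚ) ≤ 1 / (2 * (q : ℚ)) :=
        div_le_div_of_nonneg_left zero_le_one (by positivity) (by exact_mod_cast hle)
      have h3 : (k0 : ℚ) * (1 / (2 * k0 * q)) = 1 / (2 * (q : ℚ)) := by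
        have : (k0 : ℚ) ≠ 0 := by exact_mod_cast (by omega : k0 ≠ 0)
        field_simp
      have h4 : 1 / (q : ℚ) ≤ (p : ℚ) / q := by gcongr
      have h5 : 1 / (2 * (q : ℚ)) + 1 / (2 * q) = 1 / q := by field_simp; ring
      linarith

/-- Writing `(b - 1) / b` with at most `k` unit fractions forces `b ≤ (4 k) ^ 3 ^ k`. -/
theorem pred_div_self_bound (k : ℕ) (hk : 1 ≤ k) (b : ℕ) (hb : 1 ≤ b) (s : Finset ℕ)
    (hs : s.card ≤ k) (hs1 : ∀ n ∈ s, 1 ≤ n) (hsum : ∑ n ∈ s, (1 : ℚ) / n = ((b : ℚ) - 1) / b) :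
    b ≤ (4 * k) ^ 3 ^ k := by
  have hb' : (1 : ℚ) ≤ b := by exact_mod_cast hb
  have h1 : ((b : ℚ) - 1) / b = 1 - 1 / b := by field_simp
  have hb0 : (0 : ℚ) < 1 / b := by positivity
  have := gap_below k hk k le_rfl s hs hs1 1 1 le_rfl (by simp only [Nat.cast_one, div_one]; linarith)
  simp only [Nat.cast_one, div_one, mul_one] at this
  have hE : (0 : ℚ) < (((4 * k) ^ 3 ^ k : ℕ) : ℚ) := by
    exact_mod_cast Nat.pow_pos (by omega)
  have h2 : 1 / (((4 * k) ^ 3 ^ k : ℕ) : ℚ) ≤ 1 / (b : ℚ) := by linarith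
  rw [div_le_div_iff₀ hE (by linarith)] at h2
  simp only [one_mul] at h2
  exact_mod_cast h2

end Vale.Agent.P012
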