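import Mathlib
import Vale.Agent.P012.Bilinear

/-!
The small class (random integers times a fixed prime) and the bound for every `α`.
-/

namespace Vale.Agent.P012
open Finset
open scoped BigOperators

/-- Threshold between small and large conductors. -/
def iT : ℕ := 7000
/-- Number of main classes. -/
def nMain : ℕ := 24
/-- Number of small classes. -/
def nSmall : ℕ := 400 * iT
/-- The absolute constant of the pointwise bound. -/
def C0 : ℕ := 2 ^ (nSmall + 1)

theorem iT_eq : iT = 7000 := rfl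
theorem nSmall_eq : nSmall = 400 * iT := rfl
theorem C0_eq : C0 = 2 ^ (nSmall + 1) := rfl

attribute [irreducible] iT nSmall C0

theorem numeric_step {W Q U z : ℝ} {i K : ℕ} (hW : 0 ≤ W) (hQ : 1 ≤ Q) (hU : 0 ≤ U)
    (hUz : U ≤ z ^ 100) (hQi : Q ≤ U ^ i) (hz : 15 ≤ z) (h : W * z ^ (36 * i) ≤ 15 * z ^ K)
    (he : 400 * i + 12 * (K + 1) ≤ 432 * i) : W ^ 12 * Q ^ 4 ≤ 1 := by
  have hz1 : 1 ≤ z := by linarith
  have hz0 : 0 < z := by linarith
  have h1 : W ^ 12 * z ^ (432 * i) ≤ z ^ (12 * (K + 1)) := by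
    have := pow_le_pow_left₀ (by positivity) h 12
    rw [mul_pow, ← pow_mul, show 36 * i * 12 = 432 * i by ring] at this
    refine this.trans ?_
    rw [show 12 * (K + 1) = (K + 1) * 12 by ring, pow_mul]
    refine pow_le_pow_left₀ (by positivity) ?_ _
    rw [pow_succ, mul_comm]
    gcongr
  have h2 : Q ^ 4 ≤ z ^ (400 * i) := by
    calc Q ^ 4 ≤ (U ^ i) ^ 4 := pow_le_pow_left₀ (by linarith) hQi _
      _ ≤ ((z ^ 100) ^ i) ^ 4 := by gcongr
      _ = _ := by rw [← pow_mul, ← pow_mul]; congr 1; ring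
  have h3 : z ^ (400 * i) * z ^ (12 * (K + 1)) ≤ z ^ (432 * i) := by
    rw [← pow_add]; exact pow_le_pow_right₀ hz1 he
  have hp : 0 < z ^ (432 * i) := by positivity
  refine le_of_mul_le_mul_right ?_ hp
  calc W ^ 12 * Q ^ 4 * z ^ (432 * i) = Q ^ 4 * (W ^ 12 * z ^ (432 * i)) := by ring
    _ ≤ z ^ (400 * i) * z ^ (12 * (K + 1)) := mul_le_mul h2 h1 (by positivity) (by positivity)
    _ ≤ z ^ (432 * i) := h3
    _ = _ := (one_mul _).symm

namespace Pool
variable (P : Pool)

/-- The range of the random integers of a small class. -/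
def V : ℕ := P.U ^ (3 * iT)
/-- The scale of the fixed prime multiplier. -/
def G0 : ℕ := P.U ^ (2 * P.z - 3 * iT)
/-- Random integers for one small class. -/
abbrev Os : Type := Fin P.z → Fin P.V
/-- The values of one small class. -/
def sval (G : ℕ) (v : P.Os) (k : Fin P.z) : ℤ := ((G * (P.V + v k) : ℕ) : ℤ)

theorem V_pos : 0 < P.V := Nat.pow_pos P.Upos

instance : Nonempty (Fin P.z) := ⟨⟨0, P.zpos⟩⟩
instance : Nonempty (Fin P.V) := ⟨⟨0, P.V_pos⟩⟩

theorem small_expect (G : ℕ) (α : ℝ) :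
    (𝔼 v : P.Os, ‖S (P.sval G v) α‖ ^ 2)
      ≤ 1 / (P.z : ℝ) + ‖𝔼 x : Fin P.V, ee (α * (G : ℝ) * ((P.V : ℝ) + (x : ℕ)))‖ ^ 2 := by
  classical
  set γ : ℝ := α * (G : ℝ)
  set e : Fin P.V → ℂ := fun x => ee (γ * ((P.V : ℝ) + (x : ℕ)))
  set c := ‖𝔼 x : Fin P.V, e x‖ ^ 2
  have hsq : ∀ v : P.Os, ((‖S (P.sval G v) α‖ ^ 2 : ℝ) : ℂ) = 𝔼 k, 𝔼 k', e (v k) * (starRingEnd ℂ) (e (v k')) := by
    intro v
    have h : S (P.sval G v) α = 𝔼 k, e (v k) := by
      unfold S
      refine Finset.expect_congr rfl fun k _ => ?_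
      simp only [e, γ, sval]
      push_cast; ring_nf
    rw [Complex.ofReal_pow, ← Complex.mul_conj', h]
    rw [Fintype.expect_eq_sum_div_card, map_div₀, map_sum]
    simp only [Fintype.expect_eq_sum_div_card, Finset.sum_div, map_natCast, Finset.sum_mul, Finset.mul_sum]
    rw [Finset.sum_comm]
    refine Finset.sum_congr rfl fun k _ => Finset.sum_congr rfl fun k' _ => by ring
  have hreal : (𝔼 v : P.Os, ‖S (P.sval G v) α‖ ^ 2)
      = ‖𝔼 k : Fin P.z, 𝔼 k' : Fin P.z, 𝔼 v : P.Os, e (v k) * (starRingEnd ℂ) (e (v k'))‖ := by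
    rw [Finset.expect_congr rfl (fun k _ => Finset.expect_comm _ _ _), Finset.expect_comm]
    simp only [← hsq]
    rw [← Complex.ofReal_expect, Complex.norm_real, Real.norm_eq_abs,
      abs_of_nonneg (Finset.expect_nonneg fun v _ => by positivity)]
  rw [hreal]
  have hc : 0 ≤ c := by positivity
  have hterm : ∀ k k' : Fin P.z, ‖𝔼 v : P.Os, e (v k) * (starRingEnd ℂ) (e (v k'))‖
      ≤ (if k' = k then 1 else 0) + c := by
    intro k k'
    split_ifs with h
    · refine (RCLike.norm_expect_le (K := ℂ)).trans ((Finset.expect_le univ_nonempty fun v _ => ?_).trans (le_add_of_nonneg_right hc))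
      simp [e]
    · rw [zero_add, expect_update k', expect_update k]
      refine (RCLike.norm_expect_le (K := ℂ)).trans (Finset.expect_le univ_nonempty fun v _ => le_of_eq ?_)
      simp only [Function.update_self, Function.update_of_ne (Ne.symm h)]
      rw [← Fintype.expect_mul_expect, norm_mul]
      have : (𝔼 j : Fin P.V, (starRingEnd ℂ) (e j)) = (starRingEnd ℂ) (𝔼 j : Fin P.V, e j) := by
        rw [Fintype.expect_eq_sum_div_card, Fintype.expect_eq_sum_div_card, map_div₀, map_sum, map_natCast]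
      rw [this, RCLike.norm_conj]
      simp only [c, sq]
  refine (RCLike.norm_expect_le (K := ℂ)).trans (Finset.expect_le univ_nonempty fun k _ => ?_)
  refine (RCLike.norm_expect_le (K := ℂ)).trans ((Finset.expect_le_expect fun k' _ => hterm k k').trans (le_of_eq ?_))
  rw [Finset.expect_add_distrib, Fintype.expect_const]
  congr 1
  rw [Fintype.expect_eq_sum_div_card]
  simp

theorem small_sum_le (γ : ℝ) :
    ‖𝔼 x : Fin P.V, ee (γ * ((P.V : ℝ) + (x : ℕ)))‖ * dI γ ≤ 1 / (2 * (P.V : ℝ)) := by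
  have h := geom_ee γ (P.V : ℤ) P.V
  push_cast at h
  rw [Fintype.expect_eq_sum_div_card, Fintype.card_fin, norm_div, Complex.norm_natCast,
    Fin.sum_univ_eq_sum_range (fun j : ℕ => ee (γ * ((P.V : ℝ) + j)))]
  have hV : (0 : ℝ) < P.V := by exact_mod_cast P.V_pos
  rw [div_mul_eq_mul_div, div_le_div_iff₀ hV (by positivity)]
  nlinarith

/-- Bound on the small-class factor for small conductors. -/
theorem small_class_bound {G : ℕ} (hG1 : P.G0 < G) (hG2 : G ≤ 2 * P.G0) (hGp : G.Prime)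
    (hz : 4 * iT ≤ P.z)
    {α β : ℝ} {a : ℤ} {g : ℕ} (hg : 1 ≤ g) (hcop : IsCoprime a (g : ℤ)) (hα : α = a / g + β)
    {Q : ℝ} (hQ : Q = g * max 1 (|β| * (P.U : ℝ) ^ (2 * P.z))) (hQU : Q ≤ (P.U : ℝ) ^ iT) :
    (𝔼 v : P.Os, ‖S (P.sval G v) α‖ ^ 2) ^ nSmall * Q ^ 4 ≤ (C0 : ℝ) := by
  set U : ℝ := (P.U : ℝ) with hUdef
  set z : ℝ := (P.z : ℝ) with hzdef
  set D := U ^ (2 * P.z) with hD
  set T := |β| * D with hT
  have hU4 : 4 ≤ U := by
    have h1 : P.z ≤ P.z ^ 99 := Nat.le_self_pow (by norm_num) _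
    have h2 : 4 ≤ P.U := by have := P.hUlo; have := P.hz; omega
    rw [hUdef]; exact_mod_cast h2
  have hU0 : 0 < U := by linarith
  have hz0 : (0 : ℝ) < z := by rw [hzdef]; exact_mod_cast P.zpos
  have hz1 : (1 : ℝ) ≤ z := by rw [hzdef]; exact_mod_cast P.zpos
  have hg1 : (1 : ℝ) ≤ g := by exact_mod_cast hg
  have hQ1 : 1 ≤ Q := by
    rw [hQ]; exact one_le_mul_of_one_le_of_one_le hg1 (le_max_left _ _)
  have hgQ : (g : ℝ) ≤ Q := by
    rw [hQ]; exact le_mul_of_one_le_right (by linarith) (le_max_left _ _)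
  have hTQ : (g : ℝ) * T ≤ Q := by rw [hQ]; gcongr; exact le_max_right _ _
  set V : ℝ := (P.V : ℝ) with hV
  have hVeq : V = U ^ (3 * iT) := by rw [hV]; unfold Pool.V; push_cast; rfl
  have hG0 : ((P.G0 : ℕ) : ℝ) * V = D := by
    rw [hVeq, G0]; push_cast
    rw [← hUdef, ← pow_add, hD]
    congr 1
    rw [iT_eq] at hz ⊢
    omega
  have hVpos : 0 < V := by rw [hV]; exact_mod_cast P.V_pos
  have hGpos : (0 : ℝ) < G := by exact_mod_cast hGp.pos
  have hGlo : D ≤ (G : ℝ) * V := by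
    rw [← hG0]; gcongr
  have hGhi : (G : ℝ) * V ≤ 2 * D := by
    rw [← hG0, ← mul_assoc]; gcongr; exact_mod_cast hG2
  set E := ‖𝔼 x : Fin P.V, ee (α * (G : ℝ) * (V + (x : ℕ)))‖ with hE
  have hE0 : 0 ≤ E := norm_nonneg _
  have hEd : E * dI (α * (G : ℝ)) ≤ 1 / (2 * V) := P.small_sum_le _
  have hX := P.small_expect G α
  rw [← hzdef, ← hV, ← hE] at hX
  set X := 𝔼 v : P.Os, ‖S (P.sval G v) α‖ ^ 2
  have hX0 : 0 ≤ X := Finset.expect_nonneg fun v _ => by positivity
  have hX1 : X ≤ 1 := Finset.expect_le univ_nonempty fun v _ => pow_le_one₀ (norm_nonneg _) (norm_S_le_one _ _)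
  have hC0 : (1 : ℝ) ≤ (C0 : ℝ) := by exact_mod_cast (C0_eq ▸ Nat.one_le_two_pow)
  have hzU : Q ^ 4 ≤ z ^ nSmall := by
    calc Q ^ 4 ≤ (U ^ iT) ^ 4 := pow_le_pow_left₀ (by linarith) hQU _
      _ ≤ ((z ^ 100) ^ iT) ^ 4 := by
          gcongr
          rw [hUdef, hzdef]; exact_mod_cast P.hUhi
      _ = z ^ nSmall := by rw [← pow_mul, ← pow_mul]; congr 1; rw [nSmall_eq]; ring
  have hwrap : |β| * (G : ℝ) ≤ 1 / (2 * g) := by
    rw [le_div_iff₀ (by positivity)]
    have h1 : |β| * (G : ℝ) * (2 * g) * V ≤ 4 * Q := by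
      calc |β| * (G : ℝ) * (2 * g) * V = |β| * g * 2 * ((G : ℝ) * V) := by ring
        _ ≤ |β| * g * 2 * (2 * D) := by gcongr
        _ = 4 * (g * T) := by rw [hT]; ring
        _ ≤ _ := by linarith
    have h2 : 4 * Q ≤ V := by
      calc 4 * Q ≤ U * U ^ iT := by gcongr
        _ = U ^ (iT + 1) := by rw [pow_succ]; ring
        _ ≤ _ := by rw [hVeq]; exact pow_le_pow_right₀ (by linarith) (by rw [iT_eq]; norm_num)
    by_contra hc
    push Not at hc
    have : V < |β| * (G : ℝ) * (2 * g) * V := lt_mul_of_one_lt_left hVpos hc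
    linarith
  have hzU2 : z ≤ U := by
    rw [hzdef, hUdef]
    exact_mod_cast le_trans (Nat.le_self_pow (by norm_num) _) P.hUlo
  by_cases hg2 : 2 ≤ g
  · -- `g ≥ 2`
    have hd : 1 / (2 * (g : ℝ)) ≤ dI (α * (G : ℝ)) := by
      have hgG : IsCoprime (a * (G : ℤ)) (g : ℤ) := by
        refine IsCoprime.mul_left hcop ?_
        rw [Int.isCoprime_iff_nat_coprime]
        simp only [Int.natAbs_natCast]
        refine hGp.coprime_iff_not_dvd.2 fun hd => ?_
        have hle : G ≤ g := Nat.le_of_dvd (by omega) hd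
        have h1 : (g : ℝ) < P.G0 := by
          refine lt_of_le_of_lt (hgQ.trans hQU) ?_
          rw [G0]; push_cast
          rw [← hUdef]
          exact pow_lt_pow_right₀ (by linarith) (by rw [iT_eq] at hz ⊢; omega)
        have h2 : g < P.G0 := by exact_mod_cast h1
        omega
      have htri := dI_triangle ((a : ℝ) * G / g) (β * G)
      have e : (a : ℝ) * G / g + β * G = α * (G : ℝ) := by rw [hα]; ring
      rw [e, abs_mul, abs_of_pos hGpos] at htri
      have hlow : 1 / (g : ℝ) ≤ dI ((a : ℝ) * G / g) := by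
        rw [dI]
        set n := round ((a : ℝ) * G / g)
        have hne : a * (G : ℤ) - n * g ≠ 0 := by
          intro h
          have hdvd : (g : ℤ) ∣ a * (G : ℤ) := ⟨n, by linarith⟩
          have h1 := Int.isUnit_iff.1 (hgG.isUnit_of_dvd' hdvd dvd_rfl)
          omega
        have h1 : (1 : ℝ) ≤ |(a : ℝ) * G - n * g| := by
          have := Int.one_le_abs hne
          exact_mod_cast this
        have e2 : (a : ℝ) * G / g - n = ((a : ℝ) * G - n * g) / g := by field_simp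
        rw [e2, abs_div, abs_of_pos (by linarith : (0 : ℝ) < g)]
        gcongr
      have e3 : 1 / (g : ℝ) = 2 * (1 / (2 * g)) := by field_simp
      linarith
    have hE2 : E ≤ (g : ℝ) / V := by
      have h1 := (mul_le_mul_of_nonneg_left hd hE0).trans hEd
      rw [le_div_iff₀ hVpos]
      rw [mul_one_div, div_le_div_iff₀ (by positivity) (by positivity)] at h1
      linarith
    have hEz : E ^ 2 ≤ 1 / z := by
      have h1 : (g : ℝ) / V ≤ 1 / z := by
        rw [div_le_div_iff₀ hVpos hz0, one_mul, hVeq]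
        calc (g : ℝ) * z ≤ U ^ iT * U := by gcongr; exact hgQ.trans hQU
          _ = U ^ (iT + 1) := (pow_succ _ _).symm
          _ ≤ _ := pow_le_pow_right₀ (by linarith) (by rw [iT_eq]; norm_num)
      have h2 : E ≤ 1 := by
        refine (hE2.trans h1).trans ?_
        rw [div_le_one hz0]; exact hz1
      nlinarith [hE2.trans h1]
    have hb : X ≤ 2 / z := by
      have : 2 / z = 1 / z + 1 / z := by ring
      linarith
    calc X ^ nSmall * Q ^ 4 ≤ (2 / z) ^ nSmall * z ^ nSmall := by gcongr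
      _ = 2 ^ nSmall := by rw [← mul_pow, div_mul_cancel₀ _ hz0.ne']
      _ ≤ _ := by
          rw [C0_eq]; push_cast
          exact pow_le_pow_right₀ one_le_two (Nat.le_succ _)
  · have hg1' : g = 1 := by omega
    subst hg1'
    have hQT : Q = max 1 T := by rw [hQ, hT]; simp
    by_cases hT1 : T ≤ 1
    · rw [hQT, max_eq_left hT1, one_pow, mul_one]
      exact (pow_le_one₀ hX0 hX1).trans hC0
    · push Not at hT1
      rw [hQT, max_eq_right hT1.le] at hzU ⊢
      have hd : dI (α * (G : ℝ)) = |β| * G := by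
        have e : α * (G : ℝ) = β * G + ((a * (G : ℤ) : ℤ) : ℝ) := by
          rw [hα]; push_cast; ring
        rw [e, dI_add_int, dI_eq_abs]
        · rw [abs_mul, abs_of_pos hGpos]
        · rw [abs_mul, abs_of_pos hGpos]
          refine hwrap.trans ?_
          norm_num
      rw [hd] at hEd
      have hET : E ≤ 1 / T := by
        rw [le_div_iff₀ (by linarith)]
        have h1 : E * T ≤ E * (|β| * (G : ℝ) * V) := by
          refine mul_le_mul_of_nonneg_left ?_ hE0
          rw [hT, mul_assoc]; gcongr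
        have h2 : E * (|β| * (G : ℝ) * V) ≤ 1 := by
          rw [le_div_iff₀ (by positivity)] at hEd
          nlinarith [mul_nonneg (mul_nonneg hE0 (abs_nonneg β)) (mul_nonneg hGpos.le hVpos.le)]
        linarith
      have hE2 : E ^ 2 ≤ 1 / T ^ 2 := by
        rw [← one_div_pow]; exact pow_le_pow_left₀ hE0 hET 2
      have hb : X ≤ 1 / z + 1 / T ^ 2 := by linarith
      have h2n : (T ^ 4 : ℝ) ≤ (T ^ 2) ^ nSmall := by
        rw [← pow_mul]
        exact pow_le_pow_right₀ hT1.le (by rw [nSmall_eq, iT_eq]; norm_num)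
      have hm : (1 / z + 1 / T ^ 2) ^ nSmall ≤ 2 ^ nSmall * ((1 / z) ^ nSmall + (1 / T ^ 2) ^ nSmall) := by
        refine (add_pow_le (by positivity) (by positivity) _).trans ?_
        exact mul_le_mul_of_nonneg_right (pow_le_pow_right₀ one_le_two (Nat.sub_le _ _)) (by positivity)
      have ha : (1 / z) ^ nSmall * T ^ 4 ≤ 1 := by
        rw [one_div_pow, div_mul_eq_mul_div, one_mul, div_le_one (by positivity)]; exact hzU
      have hb2 : (1 / T ^ 2) ^ nSmall * T ^ 4 ≤ 1 := by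
        rw [one_div_pow, div_mul_eq_mul_div, one_mul, div_le_one (by positivity)]; exact h2n
      calc X ^ nSmall * T ^ 4 ≤ 2 ^ nSmall * ((1 / z) ^ nSmall + (1 / T ^ 2) ^ nSmall) * T ^ 4 := by
            gcongr; exact (pow_le_pow_left₀ hX0 hb _).trans hm
        _ = 2 ^ nSmall * ((1 / z) ^ nSmall * T ^ 4 + (1 / T ^ 2) ^ nSmall * T ^ 4) := by ring
        _ ≤ 2 ^ nSmall * (1 + 1) := by gcongr
        _ = (C0 : ℝ) := by rw [C0_eq]; push_cast; rw [pow_succ]; ring

/-- The pointwise bound for the whole product of classes. -/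
theorem product_bound {G : ℕ} (hG1 : P.G0 < G) (hG2 : G ≤ 2 * P.G0) (hGp : G.Prime)
    (hz : 4 * iT + 2 * bigCount + 4 ≤ P.z)
    {α β : ℝ} {a : ℤ} {g : ℕ} (hg : 1 ≤ g) (hcop : IsCoprime a (g : ℤ)) (hα : α = a / g + β)
    (hgU : g ≤ P.U ^ P.z) (hβ : |β| * g * (P.U : ℝ) ^ P.z ≤ 1)
    {Q : ℝ} (hQ : Q = g * max 1 (|β| * (P.U : ℝ) ^ (2 * P.z))) :
    (𝔼 p : P.Om, ‖S (P.dT univ p) α‖ ^ (2 * P.rc)) ^ nMain
      * (𝔼 v : P.Os, ‖S (P.sval G v) α‖ ^ 2) ^ nSmall * Q ^ 4 ≤ (C0 : ℝ) := by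
  classical
  set U : ℝ := (P.U : ℝ) with hUdef
  set X := 𝔼 p : P.Om, ‖S (P.dT univ p) α‖ ^ (2 * P.rc)
  set Y := 𝔼 v : P.Os, ‖S (P.sval G v) α‖ ^ 2
  have hX0 : 0 ≤ X := Finset.expect_nonneg fun v _ => by positivity
  have hY0 : 0 ≤ Y := Finset.expect_nonneg fun v _ => by positivity
  have hX1 : X ≤ 1 := Finset.expect_le univ_nonempty fun v _ => pow_le_one₀ (norm_nonneg _) (norm_S_le_one _ _)
  have hY1 : Y ≤ 1 := Finset.expect_le univ_nonempty fun v _ => pow_le_one₀ (norm_nonneg _) (norm_S_le_one _ _)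
  have hC0 : (1 : ℝ) ≤ (C0 : ℝ) := by exact_mod_cast (C0_eq ▸ Nat.one_le_two_pow)
  have hU2 : (2 : ℝ) ≤ U := by rw [hUdef]; exact_mod_cast P.two_le_U
  have hUz : (0 : ℝ) < U ^ P.z := by positivity
  have hQU : Q ≤ U ^ P.z := by
    rw [hQ, mul_max_of_nonneg _ _ (by positivity), mul_one]
    refine max_le ?_ ?_
    · rw [hUdef]; exact_mod_cast hgU
    · rw [two_mul, pow_add]
      calc (g : ℝ) * (|β| * (U ^ P.z * U ^ P.z)) = |β| * g * U ^ P.z * U ^ P.z := by ring
        _ ≤ 1 * U ^ P.z := by gcongr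
        _ = _ := one_mul _
  have hg1 : (1 : ℝ) ≤ g := by exact_mod_cast hg
  have hQ0 : 1 ≤ Q := by
    rw [hQ]; exact one_le_mul_of_one_le_of_one_le hg1 (le_max_left _ _)
  have hex : ∃ i : ℕ, Q ≤ U ^ i := ⟨P.z, hQU⟩
  set i := Nat.find hex with hidef
  have hi : Q ≤ U ^ i := Nat.find_spec hex
  have hiz : i ≤ P.z := Nat.find_min' hex hQU
  by_cases hsm : i ≤ iT
  · have h := P.small_class_bound hG1 hG2 hGp (by omega) hg hcop hα hQ
      (hi.trans (pow_le_pow_right₀ (by linarith) hsm))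
    calc X ^ nMain * Y ^ nSmall * Q ^ 4 = X ^ nMain * (Y ^ nSmall * Q ^ 4) := by ring
      _ ≤ 1 * (C0 : ℝ) := mul_le_mul (pow_le_one₀ hX0 hX1) h (by positivity) zero_le_one
      _ = _ := one_mul _
  · push Not at hsm
    have hi2 : 7001 ≤ i := by rw [iT_eq] at hsm; omega
    have hgQ : (g : ℝ) ≤ Q := by
      rw [hQ]; exact le_mul_of_one_le_right (by linarith) (le_max_left _ _)
    have hprev : U ^ (i - 1) < Q := by
      by_contra hc
      push Not at hc
      have := Nat.find_min' hex hc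
      rw [← hidef] at this
      omega
    have hTi : |β| * g * U ^ (2 * P.z) ≤ U ^ i := by
      refine le_trans ?_ hi
      rw [hQ, mul_comm |β|, mul_assoc]; gcongr; exact le_max_right _ _
    have hbig : U ^ (i / 2) ≤ g ∨ U ^ (i / 2) ≤ |β| * g * U ^ (2 * P.z) := by
      have h1 : U ^ (i / 2) ≤ Q :=
        (pow_le_pow_right₀ (by linarith) (by omega : i / 2 ≤ i - 1)).trans hprev.le
      rw [hQ, mul_max_of_nonneg _ _ (by positivity), mul_one] at h1
      rcases le_max_iff.1 h1 with h | h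
      · exact Or.inl h
      · exact Or.inr (h.trans (le_of_eq (by ring)))
    have hgi : g ≤ P.U ^ i := by
      have : (g : ℝ) ≤ ((P.U ^ i : ℕ) : ℝ) := by push_cast; exact hgQ.trans hi
      exact_mod_cast this
    set z : ℝ := (P.z : ℝ) with hzdef
    have hz8 : (10 : ℝ) ^ 8 ≤ z := by rw [hzdef]; exact_mod_cast P.hz
    have hz1 : 1 ≤ z := by linarith
    have hmain : X ^ nMain * Q ^ 4 ≤ 1 := by
      have e : X ^ nMain = (X ^ 2) ^ 12 := by rw [← pow_mul]; rfl
      rw [e]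
      have hUz100 : U ≤ z ^ 100 := by rw [hUdef, hzdef]; exact_mod_cast P.hUhi
      have hU0 : 0 ≤ U := by linarith
      have hz15 : 15 ≤ z := by linarith
      have he : 400 * i + 12 * (18249 + 1) ≤ 432 * i := by omega
      exact numeric_step (pow_nonneg hX0 2) hQ0 hU0 hUz100 hi hz15
        (P.main_class_bound hg hcop hα (by omega) (by omega) hgi hTi hbig) he
    calc X ^ nMain * Y ^ nSmall * Q ^ 4 = (X ^ nMain * Q ^ 4) * Y ^ nSmall := by ring
      _ ≤ 1 * 1 := mul_le_mul hmain (pow_le_one₀ hY0 hY1) (by positivity) zero_le_one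
      _ ≤ _ := by rw [one_mul]; exact hC0

end Pool

end Vale.Agent.P012
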