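import Mathlib

/-!
Schnirelmann's inequality, and: a dense subset of an integer interval has a bounded number of
translates-and-sums covering an interval of comparable length.
-/

namespace Vale.Agent.P012
open Finset
open scoped Pointwise Classical

theorem schnirelmann_add_ge {A B : Set ℕ} (hA : 0 ∈ A) (hB : 0 ∈ B) :
    schnirelmannDensity A + schnirelmannDensity B - schnirelmannDensity A * schnirelmannDensity B
      ≤ schnirelmannDensity (A + B) := by
  set α := schnirelmannDensity A with hα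
  set β := schnirelmannDensity B with hβ
  have hβ0 : 0 ≤ β := schnirelmannDensity_nonneg
  have hβ1 : β ≤ 1 := schnirelmannDensity_le_one
  let C : Set ℕ := A + B
  let cA : ℕ → ℝ := fun n => (#{a ∈ Ioc 0 n | a ∈ A} : ℕ)
  let cC : ℕ → ℝ := fun n => (#{a ∈ Ioc 0 n | a ∈ C} : ℕ)
  have key : ∀ n, cA n + β * ((n : ℝ) - cA n) ≤ cC n := by
    intro n
    induction n using Nat.strong_induction_on with
    | _ n ih =>
    rcases Nat.eq_zero_or_pos n with rfl | hn
    · simp [cA, cC]
    by_cases hnA : n ∈ A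
    · have hC : n ∈ C := ⟨n, hnA, 0, hB, rfl⟩
      obtain ⟨m, rfl⟩ : ∃ m, n = m + 1 := ⟨n - 1, by omega⟩
      have e : Ioc 0 (m + 1) = insert (m + 1) (Ioc 0 m) := by ext x; simp; omega
      have h1 : cA (m + 1) = cA m + 1 := by
        simp only [cA]
        rw [e, filter_insert, if_pos hnA, card_insert_of_notMem (by simp)]
        push_cast; rfl
      have h2 : cC (m + 1) = cC m + 1 := by
        simp only [cC]
        rw [e, filter_insert, if_pos hC, card_insert_of_notMem (by simp)]
        push_cast; rfl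
      have := ih m (by omega)
      rw [h1, h2]
      push_cast
      linarith
    · obtain ⟨a, haA, han, hamax⟩ : ∃ a ∈ A, a ≤ n ∧ ∀ x ∈ A, x ≤ n → x ≤ a := by
        obtain ⟨a, ha, h⟩ := Finset.exists_max_image ((range (n + 1)).filter (· ∈ A)) id
          ⟨0, by simp [hA]⟩
        simp only [mem_filter, mem_range] at ha
        exact ⟨a, ha.2, by omega, fun x hx hxn => h x (by simp [hx]; omega)⟩
      have han' : a < n := lt_of_le_of_ne han fun e => hnA (e ▸ haA)
      have hAeq : cA n = cA a := by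
        simp only [cA]
        congr 2
        ext x
        simp only [mem_filter, mem_Ioc]
        constructor
        · rintro ⟨⟨h1, h2⟩, h3⟩; exact ⟨⟨h1, hamax x h3 h2⟩, h3⟩
        · rintro ⟨⟨h1, h2⟩, h3⟩; exact ⟨⟨h1, by omega⟩, h3⟩
      have hsub : ((Ioc 0 a).filter (· ∈ C)) ∪ ((Ioc 0 (n - a)).filter (· ∈ B)).image (a + ·)
          ⊆ (Ioc 0 n).filter (· ∈ C) := by
        intro x hx
        simp only [mem_union, mem_filter, mem_Ioc, mem_image] at hx ⊢
        rcases hx with ⟨⟨h1, h2⟩, h3⟩ | ⟨y, ⟨⟨h1, h2⟩, h3⟩, rfl⟩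
        · exact ⟨⟨h1, by omega⟩, h3⟩
        · exact ⟨⟨by omega, by omega⟩, ⟨a, haA, y, h3, rfl⟩⟩
      have hdisj : Disjoint ((Ioc 0 a).filter (· ∈ C))
          (((Ioc 0 (n - a)).filter (· ∈ B)).image (a + ·)) := by
        rw [Finset.disjoint_left]
        intro x hx hx'
        simp only [mem_filter, mem_Ioc, mem_image] at hx hx'
        obtain ⟨y, ⟨⟨h1, -⟩, -⟩, rfl⟩ := hx'
        omega
      have hcard := Finset.card_le_card hsub
      rw [card_union_of_disjoint hdisj,
        card_image_of_injective _ (fun x y h => Nat.add_left_cancel h)] at hcard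
      have hcardR : cC a + (#{y ∈ Ioc 0 (n - a) | y ∈ B} : ℕ) ≤ cC n := by
        simp only [cC]; exact_mod_cast hcard
      have hB' := schnirelmannDensity_mul_le_card_filter (A := B) (n := n - a)
      rw [← hβ, Nat.cast_sub han] at hB'
      have := ih a han'
      rw [hAeq]
      linarith
  rw [le_schnirelmannDensity_iff]
  intro n hn
  rw [le_div_iff₀ (by exact_mod_cast hn)]
  have h1 := key n
  have h2 : α * n ≤ cA n := schnirelmannDensity_mul_le_card_filter
  have h3 : (α + β - α * β) * n ≤ cC n := by nlinarith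
  exact h3

/-- Iterating the inequality: `2 * J` summands suffice once `(1 - σ)^J ≤ 1/2`. -/
theorem nsmul_density_ge {B : Set ℕ} (hB : 0 ∈ B) (J : ℕ) (hJ : 1 ≤ J) :
    1 - (1 - schnirelmannDensity B) ^ J ≤ schnirelmannDensity (J • B) := by
  induction J, hJ using Nat.le_induction with
  | base => simp
  | succ J hJ ih =>
    have h0 : 0 ∈ J • B := by
      have := Set.nsmul_mem_nsmul hB (n := J)
      simpa using this
    have h := schnirelmann_add_ge h0 hB
    rw [succ_nsmul]
    have hb1 : schnirelmannDensity B ≤ 1 := schnirelmannDensity_le_one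
    have hc1 : (0 : ℝ) ≤ 1 - schnirelmannDensity B := by linarith
    calc 1 - (1 - schnirelmannDensity B) ^ (J + 1)
        = 1 - (1 - schnirelmannDensity B) ^ J * (1 - schnirelmannDensity B) := by ring
      _ ≤ _ := by nlinarith

theorem mem_nsmul_exists {B : Set ℕ} (J : ℕ) {n : ℕ} (h : n ∈ J • B) :
    ∃ f : Fin J → ℕ, (∀ i, f i ∈ B) ∧ ∑ i, f i = n := by
  induction J generalizing n with
  | zero => exact ⟨fun i => i.elim0, fun i => i.elim0, by simpa using h.symm⟩
  | succ J ih =>
    rw [succ_nsmul'] at h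
    obtain ⟨b, hb, m, hm, rfl⟩ := h
    obtain ⟨f, hf, rfl⟩ := ih hm
    exact ⟨Fin.cons b f, fun i => by refine Fin.cases ?_ ?_ i <;> simp [hb, hf],
      by simp [Fin.sum_univ_succ]⟩

/-- If `A ⊆ [lo0, lo0 + H]` has at least `(H+1)/c` elements, then for some `lo ≥ 1` every integer
in `[lo, lo + #A/2]` is a sum of `8c` elements of `A` and at most `16 c^2` ones. -/
theorem interval_cover (A : Finset ℕ) (lo0 H c : ℕ) (hc : 1 ≤ c) (hlo0 : 1 ≤ lo0)
    (hA : ∀ a ∈ A, lo0 ≤ a ∧ a ≤ lo0 + H) (hcard : H + 1 ≤ c * A.card) :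
    ∃ lo : ℕ, 1 ≤ lo ∧ ∀ n, lo ≤ n → n ≤ lo + A.card / 2 →
      ∃ (f : Fin (8 * c) → ℕ) (q : ℕ), (∀ i, f i ∈ A) ∧ q ≤ 16 * c ^ 2 ∧ n = (∑ i, f i) + q := by
  let cnt : ℕ → ℕ := fun x => (A.filter (· < x)).card
  obtain ⟨x, hx, hmin⟩ := Finset.exists_min_image (Icc lo0 (lo0 + H + 1))
    (fun x => (2 * c : ℤ) * cnt x - (x : ℤ)) ⟨lo0, by simp; omega⟩
  simp only [mem_Icc] at hx
  have cnt0 : cnt lo0 = 0 := by
    simp only [cnt, Finset.card_eq_zero, Finset.filter_eq_empty_iff]
    intro a ha; have := (hA a ha).1; omega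
  have cntE : cnt (lo0 + H + 1) = A.card := by
    simp only [cnt]
    rw [Finset.filter_true_of_mem]
    intro a ha; have := (hA a ha).2; omega
  have hcardZ : (H : ℤ) + 1 ≤ c * A.card := by exact_mod_cast hcard
  have h0 := hmin lo0 (by simp; omega)
  rw [cnt0] at h0
  have hlt : x < lo0 + H + 1 := by
    by_contra hge
    have : x = lo0 + H + 1 := by omega
    subst this
    rw [cntE] at h0
    push_cast at h0
    nlinarith
  have hxA : x ∈ A := by
    by_contra hxn
    have h1 := hmin (x + 1) (by simp; omega)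
    have : cnt (x + 1) = cnt x := by
      simp only [cnt]
      congr 1
      refine Finset.filter_congr fun a ha => ?_
      constructor
      · intro h; rcases Nat.lt_or_eq_of_le (Nat.le_of_lt_succ h) with h' | h'
        · exact h'
        · exact absurd (h' ▸ ha) hxn
      · intro h; omega
    rw [this] at h1
    push_cast at h1
    linarith
  have hbefore : 2 * (cnt x : ℤ) < A.card := by
    push_cast at h0
    have h1 : (x : ℤ) < lo0 + H + 1 := by exact_mod_cast hlt
    have : (c : ℤ) * (2 * cnt x) < c * A.card := by linarith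
    exact lt_of_mul_lt_mul_left this (by positivity)
  set N := A.card / 2 with hN
  let Bf : Set ℕ := {n | (∃ a ∈ A, ∃ q ≤ 2 * c, x + n = a + q) ∨ N < n}
  have hB0 : 0 ∈ Bf := Or.inl ⟨x, hxA, 0, by omega, by omega⟩
  have hsmall : ∀ n ≤ 2 * c, n ∈ Bf := fun n hn => Or.inl ⟨x, hxA, n, hn, rfl⟩
  have hlarge : ∀ n, 2 * c < n → n ≤ N → n + 1 ≤ 2 * c * (#{a ∈ Ioc 0 n | a ∈ Bf} + 1) := by
    intro n hn hnN
    have hxn : x + n + 1 ≤ lo0 + H + 1 := by
      -- at least half of `A` lies in `[x, lo0 + H]`, so the window is long enough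
      have hsplit : cnt x + (A.filter (fun a => ¬ a < x)).card = A.card :=
        Finset.card_filter_add_card_filter_not _
      have hle : (A.filter (fun a => ¬ a < x)).card ≤ (Icc x (lo0 + H)).card :=
        Finset.card_le_card fun a ha => by
          simp only [mem_filter] at ha
          have := (hA a ha.1).2
          simp only [mem_Icc]; omega
      rw [Nat.card_Icc] at hle
      omega
    have h1 := hmin (x + n + 1) (by simp; omega)
    push_cast at h1
    have hsub : (A.filter (· < x + n + 1)) ⊆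
        (A.filter (· < x)) ∪ insert x ((( Ioc 0 n).filter (· ∈ Bf)).image (x + ·)) := by
      intro a ha
      simp only [mem_filter] at ha
      simp only [mem_union, mem_filter, mem_insert, mem_image, mem_Ioc]
      rcases lt_trichotomy a x with h | h | h
      · exact Or.inl ⟨ha.1, h⟩
      · exact Or.inr (Or.inl h)
      · exact Or.inr (Or.inr ⟨a - x, ⟨⟨by omega, by omega⟩,
          Or.inl ⟨a, ha.1, 0, by omega, by omega⟩⟩, by omega⟩)
    have hc1 := (Finset.card_le_card hsub).trans (Finset.card_union_le _ _)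
    have hc2 := (Finset.card_insert_le x (((Ioc 0 n).filter (· ∈ Bf)).image (x + ·)))
    have hc3 := Finset.card_image_le (s := (Ioc 0 n).filter (· ∈ Bf)) (f := (x + ·))
    have hc4 : (cnt (x + n + 1) : ℤ) ≤ cnt x + ((#{a ∈ Ioc 0 n | a ∈ Bf} : ℕ) + 1 : ℤ) := by
      have : cnt (x + n + 1) ≤ cnt x + (#{a ∈ Ioc 0 n | a ∈ Bf} + 1) := by
        simp only [cnt]; omega
      exact_mod_cast this
    have hc5 : (2 * c : ℤ) * cnt (x + n + 1) ≤ (2 * c : ℤ) * (cnt x + ((#{a ∈ Ioc 0 n | a ∈ Bf} : ℕ) + 1 : ℤ)) :=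
      mul_le_mul_of_nonneg_left hc4 (by positivity)
    have : ((n + 1 : ℕ) : ℤ) ≤ ((2 * c * (#{a ∈ Ioc 0 n | a ∈ Bf} + 1) : ℕ) : ℤ) := by
      push_cast
      linarith
    exact_mod_cast this
  have hσ : 1 / (4 * (c : ℝ)) ≤ schnirelmannDensity Bf := by
    rw [le_schnirelmannDensity_iff]
    intro n hn
    have hn' : (0 : ℝ) < n := by exact_mod_cast hn
    have hc' : (0 : ℝ) < 4 * (c : ℝ) := by
      have : (1 : ℝ) ≤ c := by exact_mod_cast hc
      linarith
    rw [div_le_div_iff₀ hc' hn', one_mul]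
    have : n ≤ #{a ∈ Ioc 0 n | a ∈ Bf} * (4 * c) := by
      by_cases h1 : n ≤ 2 * c
      · rw [Finset.filter_true_of_mem (fun a ha => hsmall a (by simp at ha; omega))]
        simp only [Nat.card_Ioc, Nat.sub_zero]
        exact Nat.le_mul_of_pos_right n (by omega)
      · have hbase : 2 * c ≤ #{a ∈ Ioc 0 n | a ∈ Bf} := by
          calc 2 * c = (Ioc 0 (2 * c)).card := by simp
            _ ≤ _ := Finset.card_le_card fun a ha => by
                simp only [mem_Ioc] at ha
                simp only [mem_filter, mem_Ioc]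
                exact ⟨⟨ha.1, by omega⟩, hsmall a ha.2⟩
        have hcle : 2 * c * 1 ≤ 2 * c * #{a ∈ Ioc 0 n | a ∈ Bf} := by
          exact Nat.mul_le_mul_left _ (by omega)
        by_cases h2 : n ≤ N
        · have h3 := hlarge n (by omega) h2
          calc n ≤ 2 * c * (#{a ∈ Ioc 0 n | a ∈ Bf} + 1) := by omega
            _ = 2 * c * #{a ∈ Ioc 0 n | a ∈ Bf} + 2 * c * 1 := by ring
            _ ≤ 2 * c * #{a ∈ Ioc 0 n | a ∈ Bf} + 2 * c * #{a ∈ Ioc 0 n | a ∈ Bf} := by omega
            _ = _ := by ring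
        · push Not at h2
          have e : #{a ∈ Ioc 0 n | a ∈ Bf} ≥ n - N := by
            calc n - N = (Ioc N n).card := by simp
              _ ≤ _ := Finset.card_le_card fun a ha => by
                  simp only [mem_Ioc] at ha
                  simp only [mem_filter, mem_Ioc]
                  exact ⟨⟨by omega, ha.2⟩, Or.inr ha.1⟩
          by_cases h3 : 2 * c < N
          · have h4 := hlarge N h3 le_rfl
            have hsub : (Ioc 0 N).filter (· ∈ Bf) ∪ Ioc N n ⊆ (Ioc 0 n).filter (· ∈ Bf) := by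
              intro a ha
              simp only [mem_union, mem_filter, mem_Ioc] at ha ⊢
              rcases ha with ⟨⟨a1, a2⟩, a3⟩ | ⟨a1, a2⟩
              · exact ⟨⟨a1, by omega⟩, a3⟩
              · exact ⟨⟨by omega, a2⟩, Or.inr a1⟩
            have h5 := Finset.card_le_card hsub
            rw [Finset.card_union_of_disjoint] at h5
            · simp only [Nat.card_Ioc] at h5
              calc n = N + (n - N) := by omega
                _ ≤ 2 * c * (#{a ∈ Ioc 0 N | a ∈ Bf} + 1) + 2 * c * (n - N) := by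
                    exact add_le_add (by omega) (Nat.le_mul_of_pos_left _ (by omega))
                _ = 2 * c * (#{a ∈ Ioc 0 N | a ∈ Bf} + (n - N)) + 2 * c * 1 := by ring
                _ ≤ 2 * c * #{a ∈ Ioc 0 n | a ∈ Bf} + 2 * c * #{a ∈ Ioc 0 n | a ∈ Bf} := by
                    exact add_le_add (Nat.mul_le_mul_left _ h5) hcle
                _ = _ := by ring
            · rw [Finset.disjoint_left]
              intro a ha ha'
              simp only [mem_filter, mem_Ioc] at ha ha'
              omega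
          · push Not at h3
            calc n = N + (n - N) := by omega
              _ ≤ 2 * #{a ∈ Ioc 0 n | a ∈ Bf} := by omega
              _ ≤ 4 * c * #{a ∈ Ioc 0 n | a ∈ Bf} := Nat.mul_le_mul_right _ (by omega)
              _ = _ := by ring
    exact_mod_cast this
  have hhalf : (1 - schnirelmannDensity Bf) ^ (4 * c) ≤ (1 : ℝ) / 2 := by
    have hc' : (1 : ℝ) ≤ c := by exact_mod_cast hc
    have h1 : (0 : ℝ) ≤ 1 - schnirelmannDensity Bf := by
      linarith [schnirelmannDensity_le_one (A := Bf)]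
    have hu : (0 : ℝ) ≤ 1 / (4 * (c : ℝ)) := by positivity
    have h2 : (1 - schnirelmannDensity Bf) * (1 + 1 / (4 * (c : ℝ))) ≤ 1 := by nlinarith
    have h3 : (2 : ℝ) ≤ (1 + 1 / (4 * (c : ℝ))) ^ (4 * c) := by
      refine le_trans ?_ (one_add_mul_le_pow (by linarith) _)
      have : ((4 * c : ℕ) : ℝ) * (1 / (4 * (c : ℝ))) = 1 := by push_cast; field_simp
      linarith
    have h4 : (1 - schnirelmannDensity Bf) ^ (4 * c) * (1 + 1 / (4 * (c : ℝ))) ^ (4 * c) ≤ 1 := by
      rw [← mul_pow]
      exact pow_le_one₀ (mul_nonneg h1 (by linarith)) h2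
    nlinarith [pow_nonneg h1 (4 * c)]
  have h0J : 0 ∈ (4 * c) • Bf := by simpa using Set.nsmul_mem_nsmul hB0 (n := 4 * c)
  have hd := nsmul_density_ge hB0 (4 * c) (by omega)
  have huniv : (4 * c) • Bf + (4 * c) • Bf = Set.univ :=
    add_eq_univ_of_one_le_schirelmannDensity_add_schnirelmannDensity h0J h0J (by
      have hd' : 1 - (1 - schnirelmannDensity Bf) ^ (4 * c) ≤ schnirelmannDensity ((4 * c) • Bf) := by
        exact le_trans (le_of_eq (congrArg (fun d : ℝ => 1 - (1 - d) ^ (4 * c)) (@schnirelmannDensity_congr' Bf _ Bf (fun a => Classical.propDecidable (a ∈ Bf)) fun _ _ => Iff.rfl))) hd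
      linarith)
  rw [← add_nsmul] at huniv
  refine ⟨8 * c * x, Nat.one_le_iff_ne_zero.2 (Nat.mul_ne_zero (by omega) (by omega)), fun n hn1 hn2 => ?_⟩
  have hm : n - 8 * c * x ∈ (4 * c + 4 * c) • Bf := by rw [huniv]; trivial
  rw [show 4 * c + 4 * c = 8 * c by ring] at hm
  obtain ⟨g, hg, hgs⟩ := mem_nsmul_exists _ hm
  have hgle : ∀ i, g i ≤ N := fun i => by
    have := Finset.single_le_sum (fun j _ => Nat.zero_le (g j)) (Finset.mem_univ i)
    omega
  have hgA : ∀ i, ∃ a ∈ A, ∃ q ≤ 2 * c, x + g i = a + q := fun i => by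
    rcases hg i with h | h
    · exact h
    · exact absurd (hgle i) (by omega)
  choose a ha q hq hxa using hgA
  refine ⟨a, ∑ i, q i, ha, ?_, ?_⟩
  · calc ∑ i, q i ≤ ∑ _i : Fin (8 * c), 2 * c := Finset.sum_le_sum fun i _ => hq i
      _ = 16 * c ^ 2 := by simp; ring
  · have : ∑ i, (x + g i) = ∑ i, (a i + q i) := Finset.sum_congr rfl fun i _ => hxa i
    simp only [Finset.sum_add_distrib, Finset.sum_const, Finset.card_univ, Fintype.card_fin,
      smul_eq_mul] at this
    omega

end Vale.Agent.P012
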