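import Mathlib
import Vale.Agent.P012.Small
import Vale.Agent.P012.Blocks
import Vale.Agent.P012.Sumset

/-!
Integrating the pointwise bound: some pool has collision probability `O(1/D)`, so the sums of
`O(log z)` divisors of its modulus cover an interval of length comparable to `D`.
-/

namespace Vale.Agent.P012
open Finset MeasureTheory
open scoped BigOperators

/-- Every integer in `[lo, lo + N0]` is a sum of at most `k` divisors of `M`. -/
def Cover (M lo N0 k : ℕ) : Prop :=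
  ∀ n, lo ≤ n → n ≤ lo + N0 →
    ∃ l : Multiset ℕ, Multiset.card l ≤ k ∧ (∀ d ∈ l, d ∣ M) ∧ l.sum = n

theorem S_zero_ne {ι : Type*} [Fintype ι] [Nonempty ι] (f : ι → ℤ) : ∑ y ∈ univ.image f, nu f y = 1 := by
  have h := expect_comp_eq f (fun _ => (1 : ℝ))
  rw [Fintype.expect_const] at h
  simpa using h.symm

/-- Cauchy–Schwarz: small collision probability means a large image. -/
theorem image_card_ge {ι : Type*} [Fintype ι] [Nonempty ι] (f : ι → ℤ) :
    1 ≤ ((univ.image f).card : ℝ) * coll f := by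
  have h := sq_sum_le_card_mul_sum_sq (s := univ.image f) (f := nu f)
  rw [S_zero_ne, one_pow, ← coll_eq] at h
  exact h

theorem prod_S {ι : Type*} [Fintype ι] {n : ℕ} (f : Fin n → ι → ℤ) (α : ℝ) :
    ∏ c, S (f c) α = S (fun x : Fin n → ι => ∑ c, f c (x c)) α := by
  classical
  unfold S
  simp only [Fintype.expect_eq_sum_div_card]
  rw [Finset.prod_div_distrib, Fintype.prod_sum, Finset.prod_const, Fintype.card_pi_const]
  rw [Nat.cast_pow, Finset.card_univ, Fintype.card_fin]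
  congr 1
  refine Finset.sum_congr rfl fun x _ => ?_
  rw [← ee_sum]
  push_cast
  rw [mul_sum]

theorem kernel_integral {D : ℝ} (hD : 0 < D) (c : ℝ) :
    ∫ x in (0 : ℝ)..1, 2 / (1 + (D * (x - c)) ^ 2) ≤ 2 * Real.pi / D := by
  have h : ∫ x in (0 : ℝ)..1, 2 / (1 + (D * (x - c)) ^ 2)
      = D⁻¹ * ∫ x in (D * 0 - D * c)..(D * 1 - D * c), 2 / (1 + x ^ 2) := by
    rw [← smul_eq_mul, ← intervalIntegral.integral_comp_mul_sub (fun x => 2 / (1 + x ^ 2)) hD.ne' (D * c)]
    congr 1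
    funext x
    rw [mul_sub]
  rw [h]
  have e : ∀ x : ℝ, 2 / (1 + x ^ 2) = 2 * (1 / (1 + x ^ 2)) := fun x => by ring
  simp only [e]
  rw [intervalIntegral.integral_const_mul, integral_one_div_one_add_sq]
  rw [inv_mul_eq_div]
  refine div_le_div_of_nonneg_right (mul_le_mul_of_nonneg_left ?_ two_pos.le) hD.le
  linarith [Real.arctan_lt_pi_div_two (D * 1 - D * c), Real.neg_pi_div_two_lt_arctan (D * 0 - D * c)]

theorem sum_inv_sq_le (n : ℕ) : ∑ g ∈ Icc 1 n, 1 / (g : ℝ) ^ 2 ≤ 2 - 1 / ((n : ℝ) + 1) := by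
  induction n with
  | zero => simp
  | succ n ih =>
    rw [sum_Icc_succ_top (by omega)]
    have hn : (0 : ℝ) < (n : ℝ) + 1 := by positivity
    push_cast
    have e : 1 / ((n : ℝ) + 1) - 1 / ((n : ℝ) + 1 + 1) - 1 / ((n : ℝ) + 1) ^ 2 * (((n:ℝ) + 1) / ((n:ℝ) + 1 + 1)) = 0 := by
      field_simp; ring
    by_cases h0 : n = 0
    · subst h0; norm_num
    · have h1 : 1 / ((n : ℝ) + 1) ^ 2 ≤ 1 / (((n : ℝ)) * ((n : ℝ) + 1)) := by
        have : (1 : ℝ) ≤ n := by exact_mod_cast Nat.one_le_iff_ne_zero.2 h0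
        gcongr; nlinarith
      have h2 : ∑ g ∈ Icc 1 n, 1 / (g : ℝ) ^ 2 ≤ 2 - 1 / (n : ℝ) := by
        clear ih e h1
        induction n with
        | zero => exact absurd rfl h0
        | succ m ihm =>
          by_cases hm : m = 0
          · subst hm; norm_num
          · rw [sum_Icc_succ_top (by omega)]
            have hm1 : (1 : ℝ) ≤ m := by exact_mod_cast Nat.one_le_iff_ne_zero.2 hm
            have := ihm (by positivity) hm
            push_cast
            have h3 : 1 / ((m : ℝ) + 1) ^ 2 ≤ 1 / (m : ℝ) - 1 / ((m : ℝ) + 1) := by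
              rw [div_sub_div _ _ (by linarith) (by linarith), div_le_div_iff₀ (by positivity) (by positivity)]
              nlinarith
            linarith
      have hn1 : (1 : ℝ) ≤ n := by exact_mod_cast Nat.one_le_iff_ne_zero.2 h0
      have h4 : 1 / ((n : ℝ) + 1) ^ 2 ≤ 1 / (n : ℝ) - 1 / ((n : ℝ) + 1 + 1) := by
        rw [div_sub_div _ _ (by linarith) (by linarith), div_le_div_iff₀ (by positivity) (by positivity)]
        nlinarith
      linarith

theorem arc_bound {Fv g x T C : ℝ} (hF : 0 ≤ Fv) (hg : 1 ≤ g) (hx : |x| = T)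
    (hb : Fv * ((g * max 1 T) ^ 4) ≤ C) : Fv ≤ C / g ^ 4 * (2 / (1 + x ^ 2)) := by
  have h1 : (1 : ℝ) ≤ max 1 T := le_max_left _ _
  have h2 : x ^ 2 ≤ max 1 T ^ 2 := by
    rw [← sq_abs x, hx]; exact pow_le_pow_left₀ (hx ▸ abs_nonneg x) (le_max_right _ _) 2
  have h3 : max 1 T ^ 2 ≤ max 1 T ^ 4 := pow_le_pow_right₀ h1 (by norm_num)
  have h4 : (1 + x ^ 2) / 2 ≤ max 1 T ^ 4 := by nlinarith
  have h5 : Fv * (g ^ 4 * ((1 + x ^ 2) / 2)) ≤ C := by
    refine le_trans ?_ hb
    rw [mul_pow]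
    gcongr
  rw [div_mul_div_comm, le_div_iff₀ (by positivity)]
  linarith [h5]

namespace Pool
variable (P : Pool)

/-- Pools for all classes. -/
abbrev Big : Type := (Fin nMain → P.Om) × (Fin nSmall → P.Os)
/-- Choices for all classes. -/
abbrev Ch : Type := (Fin nMain → Fin P.rc → P.J) × (Fin nSmall → Fin P.z)
/-- The total sum. -/
def Ytot (G : ℕ) (ω : P.Big) (x : P.Ch) : ℤ :=
  (∑ c, ∑ l, P.dT univ (ω.1 c) (x.1 c l)) + ∑ c, P.sval G (ω.2 c) (x.2 c)

theorem norm_Ytot (G : ℕ) (ω : P.Big) (α : ℝ) :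
    ‖S (P.Ytot G ω) α‖ ^ 2 = (∏ c, ‖S (P.dT univ (ω.1 c)) α‖ ^ (2 * P.rc))
      * ∏ c, ‖S (P.sval G (ω.2 c)) α‖ ^ 2 := by
  have h : S (P.Ytot G ω) α = (∏ c, S (P.dT univ (ω.1 c)) α ^ P.rc) * ∏ c, S (P.sval G (ω.2 c)) α := by
    simp only [S_pow]
    rw [prod_S, prod_S, S_mul]
    rfl
  rw [h, norm_mul, mul_pow, norm_prod, norm_prod, ← Finset.prod_pow, ← Finset.prod_pow]
  congr 1
  exact Finset.prod_congr rfl fun c _ => by rw [norm_pow, ← pow_mul, Nat.mul_comm P.rc]

theorem expect_norm_Ytot (G : ℕ) (α : ℝ) :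
    (𝔼 ω : P.Big, ‖S (P.Ytot G ω) α‖ ^ 2)
      = (𝔼 p : P.Om, ‖S (P.dT univ p) α‖ ^ (2 * P.rc)) ^ nMain
        * (𝔼 v : P.Os, ‖S (P.sval G v) α‖ ^ 2) ^ nSmall := by
  classical
  rw [Finset.expect_pow, Finset.expect_pow, Fintype.piFinset_univ, Fintype.piFinset_univ,
    Fintype.expect_mul_expect, ← Finset.univ_product_univ, Finset.expect_product]
  exact Finset.expect_congr rfl fun ω1 _ => Finset.expect_congr rfl fun ω2 _ => P.norm_Ytot G (ω1, ω2) α

open Classical in
/-- Some pool has collision probability at most `64 C0 / D`. -/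
theorem exists_pool {G : ℕ} (hG1 : P.G0 < G) (hG2 : G ≤ 2 * P.G0) (hGp : G.Prime)
    (hz : 4 * iT + 2 * bigCount + 4 ≤ P.z) :
    ∃ ω : P.Big, coll (P.Ytot G ω) ≤ 64 * (C0 : ℝ) / (P.U : ℝ) ^ (2 * P.z) := by
  set U : ℝ := (P.U : ℝ) with hUdef
  set D := U ^ (2 * P.z) with hDdef
  have hU0 : 0 < U := by rw [hUdef]; exact_mod_cast P.Upos
  have hD : 0 < D := pow_pos hU0 _
  set n := P.U ^ P.z with hn
  have hn0 : 0 < n := Nat.pow_pos P.Upos
  let F : ℝ → ℝ := fun α => 𝔼 ω : P.Big, ‖S (P.Ytot G ω) α‖ ^ 2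
  let Arcs : Finset (ℕ × ℤ) := (Icc 1 n).biUnion fun g => (Icc (-(g : ℤ)) (2 * g)).image fun a => (g, a)
  let ker : ℕ × ℤ → ℝ → ℝ := fun p α =>
    (C0 : ℝ) / (p.1 : ℝ) ^ 4 * (2 / (1 + (D * (α - (p.2 : ℝ) / p.1)) ^ 2))
  have hker0 : ∀ p α, 0 ≤ ker p α := fun p α => by
    simp only [ker]; positivity
  have hpt : ∀ α ∈ Set.Icc (0 : ℝ) 1, F α ≤ ∑ p ∈ Arcs, ker p α := by
    intro α hα
    obtain ⟨q, hq, hqd⟩ := Real.exists_rat_abs_sub_le_and_den_le α hn0
    set g := q.den with hg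
    set a := q.num with ha
    set β := α - (a : ℝ) / g with hβ
    have hg1 : 1 ≤ g := q.pos
    have hgR : (1 : ℝ) ≤ g := by exact_mod_cast hg1
    have hqv : ((q : ℚ) : ℝ) = (a : ℝ) / g := Rat.cast_def q
    rw [hqv] at hq
    have hcop : IsCoprime a (g : ℤ) := by
      rw [Int.isCoprime_iff_nat_coprime]
      simpa using q.reduced
    have hUz : U ^ P.z = (n : ℝ) := by rw [hn]; push_cast; rfl
    have hβU : |β| * g * U ^ P.z ≤ 1 := by
      rw [hUz]
      have h1 : |β| * (((n : ℝ) + 1) * g) ≤ 1 := by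
        rw [← le_div_iff₀ (by positivity)]; exact hq
      nlinarith [abs_nonneg β, mul_nonneg (abs_nonneg β) (by linarith : (0:ℝ) ≤ g)]
    have hβ1 : |β| ≤ 1 := by
      refine hq.trans ?_
      rw [div_le_one (by positivity)]
      nlinarith
    have hmem : (g, a) ∈ Arcs := by
      simp only [Arcs, mem_biUnion, mem_image, mem_Icc]
      refine ⟨g, ⟨hg1, hqd⟩, a, ⟨?_, ?_⟩, rfl⟩
      · have : -(g : ℝ) ≤ a := by
          have h1 : α - 1 ≤ (a : ℝ) / g := by linarith [(abs_le.1 hβ1).2]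
          rw [le_div_iff₀ (by linarith)] at h1
          nlinarith [hα.1]
        exact_mod_cast this
      · have : (a : ℝ) ≤ 2 * g := by
          have h1 : (a : ℝ) / g ≤ α + 1 := by linarith [(abs_le.1 hβ1).1]
          rw [div_le_iff₀ (by linarith)] at h1
          nlinarith [hα.2]
        exact_mod_cast this
    refine le_trans ?_ (Finset.single_le_sum (fun p _ => hker0 p α) hmem)
    have hα' : α = (a : ℝ) / g + β := by rw [hβ]; ring
    have hb := P.product_bound hG1 hG2 hGp hz hg1 hcop hα' hqd hβU rfl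
    simp only [F, P.expect_norm_Ytot, ker]
    set Fv := (𝔼 p : P.Om, ‖S (P.dT univ p) α‖ ^ (2 * P.rc)) ^ nMain
        * (𝔼 v : P.Os, ‖S (P.sval G v) α‖ ^ 2) ^ nSmall
    have hFv : 0 ≤ Fv := mul_nonneg
      (pow_nonneg (Finset.expect_nonneg fun _ _ => by positivity) _)
      (pow_nonneg (Finset.expect_nonneg fun _ _ => by positivity) _)
    refine arc_bound (T := |β| * D) hFv hgR ?_ hb
    rw [abs_mul, abs_of_pos hD, ← hβ, mul_comm]
  have hcont : Continuous F := by
    simp only [F, Fintype.expect_eq_sum_div_card]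
    exact (continuous_finsetSum _ fun ω _ => ((continuous_S _).norm.pow 2)).div_const _
  have hkc : ∀ p, Continuous (ker p) := fun p => by
    simp only [ker]
    refine continuous_const.mul (continuous_const.div (by fun_prop) fun x => ?_)
    positivity
  have hint : ∫ α in (0 : ℝ)..1, F α ≤ 64 * (C0 : ℝ) / D := by
    refine le_trans (intervalIntegral.integral_mono_on zero_le_one (hcont.intervalIntegrable _ _)
      ((continuous_finsetSum _ fun p _ => hkc p).intervalIntegrable _ _) hpt) ?_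
    rw [intervalIntegral.integral_finsetSum fun p _ => (hkc p).intervalIntegrable _ _]
    have h1 : ∀ p ∈ Arcs, ∫ α in (0 : ℝ)..1, ker p α ≤ (C0 : ℝ) / (p.1 : ℝ) ^ 4 * (2 * Real.pi / D) := by
      intro p _
      simp only [ker]
      rw [intervalIntegral.integral_const_mul]
      exact mul_le_mul_of_nonneg_left (kernel_integral hD _) (by positivity)
    refine (Finset.sum_le_sum h1).trans ?_
    rw [Finset.sum_biUnion]
    · calc ∑ g ∈ Icc 1 n, ∑ p ∈ (Icc (-(g : ℤ)) (2 * g)).image (fun a => (g, a)),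
            (C0 : ℝ) / (p.1 : ℝ) ^ 4 * (2 * Real.pi / D)
          ≤ ∑ g ∈ Icc 1 n, 4 * ((C0 : ℝ) * (2 * Real.pi / D)) * (1 / (g : ℝ) ^ 2) := by
            refine Finset.sum_le_sum fun g hg => ?_
            rw [mem_Icc] at hg
            have hgR : (1 : ℝ) ≤ g := by exact_mod_cast hg.1
            rw [Finset.sum_image (fun a _ b _ h => (Prod.ext_iff.1 h).2)]
            simp only [Finset.sum_const, Int.card_Icc, nsmul_eq_mul]
            have hc : (((2 * (g : ℤ) + 1 - -(g : ℤ)).toNat : ℕ) : ℝ) ≤ 4 * g := by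
              have : (2 * (g : ℤ) + 1 - -(g : ℤ)).toNat ≤ 4 * g := by omega
              exact_mod_cast this
            refine (mul_le_mul_of_nonneg_right hc (by positivity)).trans ?_
            have h3 : 1 / (g : ℝ) ^ 3 ≤ 1 / (g : ℝ) ^ 2 := by
              exact div_le_div_of_nonneg_left zero_le_one (by positivity) (pow_le_pow_right₀ hgR (by norm_num))
            calc 4 * (g : ℝ) * ((C0 : ℝ) / (g : ℝ) ^ 4 * (2 * Real.pi / D))
                = 4 * ((C0 : ℝ) * (2 * Real.pi / D)) * (1 / (g : ℝ) ^ 3) := by field_simp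
              _ ≤ _ := mul_le_mul_of_nonneg_left h3 (by positivity)
        _ ≤ 4 * ((C0 : ℝ) * (2 * Real.pi / D)) * 2 := by
            rw [← Finset.mul_sum]
            refine mul_le_mul_of_nonneg_left ?_ (by positivity)
            have := sum_inv_sq_le n
            have : (0 : ℝ) ≤ 1 / ((n : ℝ) + 1) := by positivity
            linarith
        _ ≤ 4 * ((C0 : ℝ) * (2 * 4 / D)) * 2 := by gcongr; exact Real.pi_le_four
        _ = _ := by ring
    · intro g _ g' _ hne
      simp only [Function.onFun, Finset.disjoint_left, mem_image]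
      rintro x ⟨a, -, rfl⟩ ⟨b, -, hb⟩
      exact hne (Prod.ext_iff.1 hb).1.symm
  have hswap : ∫ α in (0 : ℝ)..1, F α = 𝔼 ω : P.Big, coll (P.Ytot G ω) := by
    simp only [F, Fintype.expect_eq_sum_div_card]
    rw [intervalIntegral.integral_div, intervalIntegral.integral_finsetSum
      (f := fun (ω : P.Big) (α : ℝ) => ‖S (P.Ytot G ω) α‖ ^ 2)
      fun ω _ => ((continuous_S _).norm.pow 2).intervalIntegrable _ _]
    simp only [integral_norm_sq]
  rw [hswap] at hint
  obtain ⟨ω, -, hω⟩ := Finset.exists_le_of_expect_le (s := (univ : Finset P.Big)) univ_nonempty hint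
  exact ⟨ω, hω⟩

theorem dT_dvd (p : P.Om) (j : P.J) : P.dT univ p j ∣ ((∏ σ, ((p σ).1 : ℕ) : ℕ) : ℤ) := by
  unfold dT pr
  rw [Int.natCast_dvd_natCast]
  have hinj : Function.Injective fun i : Fin (2 * P.z) => (⟨i, j i⟩ : Σ i : Fin (2 * P.z), Fin (P.w i)) :=
    fun a b h => congrArg Sigma.fst h
  rw [← Finset.prod_image (f := fun σ => ((p σ).1 : ℕ)) (fun a _ b _ h => hinj h)]
  exact Finset.prod_dvd_prod_of_subset _ _ _ (subset_univ _)

theorem card_sigma_le : Fintype.card (Σ i : Fin (2 * P.z), Fin (P.w i)) ≤ 214 * P.z := by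
  rw [Fintype.card_sigma]
  simp only [Fintype.card_fin]
  rw [← Finset.sum_sdiff (subset_univ P.bigSteps)]
  have h1 : ∀ i ∈ univ \ P.bigSteps, P.w i ≤ 16 := fun i hi => by
    simp only [bigSteps, mem_sdiff, mem_filter, mem_univ, true_and] at hi
    simp [w, hi]
  have h2 : ∀ i ∈ P.bigSteps, P.w i ≤ P.z := fun i hi => by
    simp only [bigSteps, mem_filter, mem_univ, true_and] at hi
    simp [w, hi]
  have a := Finset.sum_le_card_nsmul _ _ _ h1
  have b := Finset.sum_le_card_nsmul _ _ _ h2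
  rw [P.bigSteps_card, smul_eq_mul] at b
  rw [smul_eq_mul] at a
  have a' : ∑ i ∈ univ \ P.bigSteps, P.w i ≤ (univ \ P.bigSteps).card * 16 := a
  have b' : ∑ i ∈ P.bigSteps, P.w i ≤ bigCount * P.z := b
  have c : (univ \ P.bigSteps).card ≤ 2 * P.z := (card_le_card sdiff_subset).trans (by simp)
  unfold bigCount at b'
  omega

/-- The exponent bounding the modulus. -/
def CM : ℕ := 428 * nMain + (3 * iT + 1) * nSmall + 2

theorem CM_eq : CM = 428 * nMain + (3 * iT + 1) * nSmall + 2 := rfl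

attribute [irreducible] CM

theorem exists_cover (hz : 4 * iT + 2 * bigCount + 4 ≤ P.z)
    (hz2 : 256 * C0 ≤ P.z) :
    ∃ M lo N0 : ℕ, 1 ≤ M ∧ 1 ≤ lo ∧ M ≤ N0 ^ CM ∧ 2 ^ P.z ≤ N0 ∧ N0 ≤ P.z ^ (100 * P.z) ∧
      Cover M lo N0 (8 * ((13 + 3 * nSmall) * 64 * C0) * (nMain * P.rc + nSmall)
        + 16 * ((13 + 3 * nSmall) * 64 * C0) ^ 2) := by
  classical
  have hG0 : P.G0 ≠ 0 := (Nat.pow_pos P.Upos).ne'
  obtain ⟨G, hGp, hG1, hG2⟩ := Nat.exists_prime_lt_and_le_two_mul P.G0 hG0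
  obtain ⟨ω, hω⟩ := P.exists_pool hG1 hG2 hGp hz
  have hne : Nonempty P.Ch := inferInstance
  set c := (13 + 3 * nSmall) * 64 * C0 with hc
  set D := P.U ^ (2 * P.z) with hD
  have hD0 : 0 < D := Nat.pow_pos P.Upos
  have hGV1 : ∀ x : ℕ, D ≤ G * (P.V + x) := by
    intro x
    calc D = P.G0 * P.V := by
          rw [hD, G0, V, ← pow_add]; congr 1; rw [iT_eq] at hz ⊢; omega
      _ ≤ G * (P.V + x) := Nat.mul_le_mul hG1.le (Nat.le_add_right _ _)
  have hGV2 : ∀ x : Fin P.V, G * (P.V + x) ≤ 4 * D := by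
    intro x
    calc G * (P.V + x) ≤ (2 * P.G0) * (2 * P.V) := Nat.mul_le_mul hG2 (by omega)
      _ = 4 * (P.G0 * P.V) := by ring
      _ = 4 * D := by rw [hD, G0, V, ← pow_add]; congr 2; rw [iT_eq] at hz ⊢; omega
  let nat_val : P.Ch → ℕ := fun x => (P.Ytot G ω x).toNat
  set lo0 := (nMain * P.rc + nSmall) * D with hlo0
  have hrc : (P.rc : ℝ) ≤ (P.z : ℝ) ^ 2 / 8 := by
    have := P.rh_le
    unfold rc; push_cast; linarith
  have hY : ∀ x, (lo0 : ℤ) ≤ P.Ytot G ω x ∧ P.Ytot G ω x ≤ (lo0 + (12 + 3 * nSmall) * D : ℕ) := by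
    intro x
    have hz0 : (0 : ℝ) < (P.z : ℝ) ^ 2 := by have := P.zpos; positivity
    have h1 : ∀ c l, (D : ℝ) ≤ (P.dT univ (ω.1 c) (x.1 c l) : ℝ) ∧
        (P.dT univ (ω.1 c) (x.1 c l) : ℝ) ≤ (D : ℝ) * (1 + 4 / (P.z : ℝ) ^ 2) := by
      intro c l
      have := P.dT_le univ (ω.1 c) (x.1 c l)
      rw [Finset.card_univ, Fintype.card_fin] at this
      rw [hD]; push_cast; exact this
    have h2 : ∀ c, (D : ℝ) ≤ (P.sval G (ω.2 c) (x.2 c) : ℝ) ∧
        (P.sval G (ω.2 c) (x.2 c) : ℝ) ≤ 4 * (D : ℝ) := by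
      intro c
      unfold sval
      refine ⟨?_, ?_⟩
      · exact_mod_cast hGV1 _
      · exact_mod_cast hGV2 _
    have e : ((P.Ytot G ω x : ℤ) : ℝ) = (∑ c, ∑ l, (P.dT univ (ω.1 c) (x.1 c l) : ℝ))
        + ∑ c, (P.sval G (ω.2 c) (x.2 c) : ℝ) := by
      unfold Ytot; push_cast; rfl
    have hlow : (lo0 : ℝ) ≤ ((P.Ytot G ω x : ℤ) : ℝ) := by
      rw [e, hlo0]
      refine le_trans (le_of_eq ?_) (add_le_add (Finset.sum_le_sum fun c _ => Finset.sum_le_sum fun l _ => (h1 c l).1)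
        (Finset.sum_le_sum fun c _ => (h2 c).1))
      simp; ring
    have hhigh : ((P.Ytot G ω x : ℤ) : ℝ) ≤ ((lo0 + (12 + 3 * nSmall) * D : ℕ) : ℝ) := by
      rw [e, hlo0]
      refine le_trans (add_le_add (Finset.sum_le_sum fun c _ => Finset.sum_le_sum fun l _ => (h1 c l).2)
        (Finset.sum_le_sum fun c _ => (h2 c).2)) ?_
      simp only [Finset.sum_const, card_univ, Fintype.card_fin, nsmul_eq_mul]
      push_cast
      have h3 : (nMain : ℝ) * ((P.rc : ℝ) * ((D : ℝ) * (4 / (P.z : ℝ) ^ 2))) ≤ (D : ℝ) * 12 := by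
        rw [show (nMain : ℝ) * ((P.rc : ℝ) * ((D : ℝ) * (4 / (P.z : ℝ) ^ 2)))
          = (D : ℝ) * (4 * (nMain : ℝ) * ((P.rc : ℝ) / (P.z : ℝ) ^ 2)) by ring]
        gcongr
        have : (P.rc : ℝ) / (P.z : ℝ) ^ 2 ≤ 1 / 8 := by
          rw [div_le_iff₀ hz0]; linarith
        have hn : (nMain : ℝ) = 24 := by norm_num [nMain]
        rw [hn]; linarith
      have h4 : (0 : ℝ) ≤ (nSmall : ℝ) * (D : ℝ) := by positivity
      linarith
    exact ⟨by exact_mod_cast hlow, by exact_mod_cast hhigh⟩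
  have hYnat : ∀ x, lo0 ≤ nat_val x ∧ nat_val x ≤ lo0 + (12 + 3 * nSmall) * D := by
    intro x
    obtain ⟨a1, a2⟩ := hY x
    simp only [nat_val]
    omega
  set A := (univ : Finset P.Ch).image nat_val with hA
  have hAcard : (univ.image (P.Ytot G ω)).card ≤ A.card := by
    have : univ.image (P.Ytot G ω) ⊆ A.image (fun n : ℕ => (n : ℤ)) := by
      intro y hy
      obtain ⟨x, -, rfl⟩ := mem_image.1 hy
      refine mem_image.2 ⟨nat_val x, mem_image_of_mem _ (mem_univ _), ?_⟩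
      exact Int.toNat_of_nonneg (le_trans (Int.natCast_nonneg _) (hY x).1)
    exact (card_le_card this).trans Finset.card_image_le
  have hAD : D ≤ 64 * C0 * A.card := by
    have h1 := image_card_ge (P.Ytot G ω)
    have hU : (P.U : ℝ) ^ (2 * P.z) = (D : ℝ) := by rw [hD]; push_cast; rfl
    rw [hU] at hω
    have hD' : (0 : ℝ) < D := by exact_mod_cast hD0
    have h2 : 1 ≤ (A.card : ℝ) * (64 * (C0 : ℝ) / D) := by
      refine h1.trans (mul_le_mul (by exact_mod_cast hAcard) hω (P0_nonneg _) (by positivity))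
    rw [mul_div_assoc', le_div_iff₀ hD', one_mul] at h2
    have : ((D : ℕ) : ℝ) ≤ ((64 * C0 * A.card : ℕ) : ℝ) := by push_cast; linarith
    exact_mod_cast this
  have hA0 : 0 < A.card := Finset.card_pos.2 (univ_nonempty.image _)
  obtain ⟨lo, hlo, hcov⟩ := interval_cover A lo0 ((12 + 3 * nSmall) * D) c
    (by rw [hc]; exact Nat.one_le_iff_ne_zero.2 (Nat.mul_ne_zero (Nat.mul_ne_zero (by omega) (by norm_num)) (by rw [C0_eq]; positivity)))
    (by rw [hlo0]; exact Nat.one_le_iff_ne_zero.2 (Nat.mul_ne_zero (by unfold nMain rc; have := P.rh_pos; omega) hD0.ne'))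
    (fun a ha => by obtain ⟨x, -, rfl⟩ := mem_image.1 ha; exact hYnat x)
    (by
      calc (12 + 3 * nSmall) * D + 1 ≤ (13 + 3 * nSmall) * D := by
            rw [show (13 + 3 * nSmall) * D = (12 + 3 * nSmall) * D + D by ring]; omega
        _ ≤ (13 + 3 * nSmall) * (64 * C0 * A.card) := Nat.mul_le_mul_left _ hAD
        _ = c * A.card := by rw [hc]; ring)
  set M := ((∏ c, ∏ σ, ((ω.1 c σ).1 : ℕ)) * ∏ c, ∏ k, (P.V + (ω.2 c k : ℕ))) * G with hM
  have hMpos : 1 ≤ M := by
    rw [hM]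
    refine Nat.one_le_iff_ne_zero.2 (Nat.mul_ne_zero (Nat.mul_ne_zero ?_ ?_) hGp.ne_zero)
    · exact Finset.prod_ne_zero_iff.2 fun c _ => Finset.prod_ne_zero_iff.2 fun σ _ =>
        (P.blk_spec _ _ (ω.1 c σ).2).1.ne_zero
    · exact Finset.prod_ne_zero_iff.2 fun c _ => Finset.prod_ne_zero_iff.2 fun k _ => by
        have := P.V_pos; omega
  have hzU : P.z ≤ P.U := le_trans (Nat.le_self_pow (by norm_num) _) P.hUlo
  have hN0 : P.U ^ P.z ≤ A.card / 2 := by
    rw [Nat.le_div_iff_mul_le (by norm_num)]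
    have h1 : 128 * C0 * P.U ^ P.z ≤ D := by
      calc 128 * C0 * P.U ^ P.z ≤ P.U * P.U ^ P.z := Nat.mul_le_mul_right _ (by omega)
        _ = P.U ^ (P.z + 1) := by rw [pow_succ, Nat.mul_comm]
        _ ≤ D := Nat.pow_le_pow_right P.Upos (by omega)
    have h2 : 64 * C0 * (P.U ^ P.z * 2) ≤ 64 * C0 * A.card := by
      calc 64 * C0 * (P.U ^ P.z * 2) = 128 * C0 * P.U ^ P.z := by ring
        _ ≤ D := h1
        _ ≤ _ := hAD
    exact Nat.le_of_mul_le_mul_left h2 (Nat.mul_pos (by norm_num) (by rw [C0_eq]; positivity))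
  refine ⟨M, lo, P.U ^ P.z, hMpos, hlo, ?_, ?_, ?_, ?_⟩
  · rw [← pow_mul]
    have hUp := P.Upos
    have hU2 := P.two_le_U
    have e1 : ∀ c : Fin nMain, ∏ σ, ((ω.1 c σ).1 : ℕ) ≤ P.U ^ (428 * P.z) := by
      intro c
      refine le_trans (Finset.prod_le_pow_card _ _ (P.U ^ 2) fun σ _ => ?_) ?_
      · have h := (P.blk_spec _ _ (ω.1 c σ).2).2.2
        have hz3 : 1 ≤ P.z ^ 3 := Nat.one_le_pow _ _ P.zpos
        have : P.z ^ 3 * (ω.1 c σ).1 ≤ P.z ^ 3 * (P.U ^ 2) := by
          refine h.trans ?_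
          calc (P.z ^ 3 + 1) * P.U ≤ (P.z ^ 3 * 2) * P.U := Nat.mul_le_mul_right _ (by omega)
            _ ≤ (P.z ^ 3 * P.U) * P.U := Nat.mul_le_mul_right _ (Nat.mul_le_mul_left _ hU2)
            _ = _ := by ring
        exact Nat.le_of_mul_le_mul_left this hz3
      · rw [← pow_mul]
        refine Nat.pow_le_pow_right hUp ?_
        have := P.card_sigma_le
        rw [Finset.card_univ]
        omega
    have e2 : ∀ c : Fin nSmall, ∏ k, (P.V + (ω.2 c k : ℕ)) ≤ P.U ^ ((3 * iT + 1) * P.z) := by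
      intro c
      refine le_trans (Finset.prod_le_pow_card _ _ (P.U ^ (3 * iT + 1)) fun k _ => ?_) ?_
      · calc P.V + (ω.2 c k : ℕ) ≤ 2 * P.V := by omega
          _ ≤ P.U * P.V := Nat.mul_le_mul_right _ hU2
          _ = _ := by unfold V; rw [pow_succ]; ring
      · rw [← pow_mul, Finset.card_univ, Fintype.card_fin]
    have e3 : G ≤ P.U ^ (2 * P.z) := by
      refine hG2.trans ?_
      calc 2 * P.G0 ≤ P.U * P.G0 := Nat.mul_le_mul_right _ hU2
        _ = P.U ^ (2 * P.z - 3 * iT + 1) := by unfold G0; rw [pow_succ]; ring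
        _ ≤ _ := Nat.pow_le_pow_right hUp (by rw [iT_eq] at hz ⊢; omega)
    calc M ≤ ((P.U ^ (428 * P.z)) ^ nMain * (P.U ^ ((3 * iT + 1) * P.z)) ^ nSmall) * P.U ^ (2 * P.z) := by
          rw [hM]
          refine Nat.mul_le_mul (Nat.mul_le_mul ?_ ?_) e3
          · exact le_trans (Finset.prod_le_pow_card _ _ _ fun c _ => e1 c) (by simp)
          · exact le_trans (Finset.prod_le_pow_card _ _ _ fun c _ => e2 c) (by simp)
      _ = _ := by
          rw [← pow_mul, ← pow_mul, ← pow_add, ← pow_add]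
          congr 1
          rw [CM_eq]
          ring
  · exact Nat.pow_le_pow_left P.two_le_U _
  · rw [pow_mul]; exact Nat.pow_le_pow_left P.hUhi _
  · intro n hn1 hn2
    obtain ⟨f, q, hf, hq, hn⟩ := hcov n hn1 (hn2.trans (Nat.add_le_add_left hN0 _))
    have hex : ∀ i, ∃ x, nat_val x = f i := fun i => by
      obtain ⟨x, -, hx⟩ := mem_image.1 (hf i); exact ⟨x, hx⟩
    choose xs hxs using hex
    let dmain : Fin (8 * c) × Fin nMain × Fin P.rc → ℕ := fun t =>
      (P.dT univ (ω.1 t.2.1) ((xs t.1).1 t.2.1 t.2.2)).toNat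
    let dsmall : Fin (8 * c) × Fin nSmall → ℕ := fun t =>
      G * (P.V + (ω.2 t.2 ((xs t.1).2 t.2) : ℕ))
    refine ⟨univ.val.map dmain + univ.val.map dsmall + Multiset.replicate q 1, ?_, ?_, ?_⟩
    · simp only [Multiset.card_add, Multiset.card_map, Multiset.card_replicate]
      simp only [Finset.card_val, card_univ, Fintype.card_prod, Fintype.card_fin]
      calc 8 * c * (nMain * P.rc) + 8 * c * nSmall + q ≤ 8 * c * (nMain * P.rc) + 8 * c * nSmall + 16 * c ^ 2 :=
            Nat.add_le_add_left hq _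
        _ = _ := by ring
    · intro d hd
      simp only [Multiset.mem_add, Multiset.mem_map, Multiset.mem_replicate] at hd
      rcases hd with (⟨t, -, rfl⟩ | ⟨t, -, rfl⟩) | ⟨-, rfl⟩
      · have h := P.dT_dvd (ω.1 t.2.1) ((xs t.1).1 t.2.1 t.2.2)
        have h' : dmain t ∣ ∏ σ, ((ω.1 t.2.1 σ).1 : ℕ) := by
          simp only [dmain, dT, Int.toNat_natCast]
          unfold dT at h
          exact_mod_cast h
        exact ((h'.trans (Finset.dvd_prod_of_mem (fun c => ∏ σ, ((ω.1 c σ).1 : ℕ)) (mem_univ t.2.1))).trans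
          (dvd_mul_right _ _)).trans (dvd_mul_right _ _)
      · rw [hM, Nat.mul_comm _ G]
        exact Nat.mul_dvd_mul_left G (((Finset.dvd_prod_of_mem _ (mem_univ _)).trans
          (Finset.dvd_prod_of_mem (fun c => ∏ k, (P.V + (ω.2 c k : ℕ))) (mem_univ t.2))).trans (dvd_mul_left _ _))
      · exact one_dvd _
    · rw [Multiset.sum_add, Multiset.sum_add, Multiset.sum_replicate, smul_eq_mul, mul_one]
      show (∑ t, dmain t) + (∑ t, dsmall t) + q = n
      rw [hn]
      congr 1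
      rw [Fintype.sum_prod_type, Fintype.sum_prod_type, ← Finset.sum_add_distrib]
      refine Finset.sum_congr rfl fun i _ => ?_
      have h := hxs i
      simp only [nat_val] at h
      have h0 : (P.Ytot G ω (xs i)) = (f i : ℤ) := by
        have := (hY (xs i)).1
        omega
      have : (((∑ t, dmain (i, t)) + ∑ t, dsmall (i, t) : ℕ) : ℤ) = (f i : ℤ) := by
        rw [← h0]
        unfold Ytot sval
        simp only [dmain, dsmall, dT, Int.toNat_natCast]
        rw [Fintype.sum_prod_type]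
        push_cast
        rfl
      exact_mod_cast this

end Pool

end Vale.Agent.P012
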