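import Mathlib
import Vale.Agent.P012.Distinct
import Vale.Agent.P012.Main

/-!
From an interval covered by divisor sums to arbitrary fractions `a / b`:
greedy steps with denominators `t ^ J`, then a mixed-radix treatment of the remainder.
-/

namespace Vale.Agent.P012
open Finset

theorem rep_cover_point {M lo N0 k n E : ℕ} (hM : 1 ≤ M) (hE : 1 ≤ E) (hc : Cover M lo N0 k)
    (h1 : lo ≤ n) (h2 : n ≤ lo + N0) : Rep k ((n : ℚ) / ((E : ℚ) * M)) := by
  obtain ⟨l, hl, hd, hs⟩ := hc n h1 h2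
  refine ⟨l.map fun d => E * (M / d), by simpa using hl, ?_, ?_⟩
  · intro m hm
    obtain ⟨d, hdm, rfl⟩ := Multiset.mem_map.1 hm
    have : 0 < M / d := Nat.div_pos (Nat.le_of_dvd (by omega) (hd d hdm))
      (Nat.pos_of_dvd_of_pos (hd d hdm) (by omega))
    exact Nat.one_le_iff_ne_zero.2 (Nat.mul_ne_zero (by omega) (by omega))
  · rw [Multiset.map_map, ← hs, Nat.cast_multiset_sum, ← Multiset.sum_map_div]
    congr 1
    refine Multiset.map_congr rfl fun d hdm => ?_
    have hdM := hd d hdm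
    have hd0 : (d : ℚ) ≠ 0 := by
      have := Nat.pos_of_dvd_of_pos hdM (by omega)
      exact_mod_cast this.ne'
    have hM0 : (M : ℚ) ≠ 0 := by exact_mod_cast (by omega : M ≠ 0)
    have hE0 : (E : ℚ) ≠ 0 := by exact_mod_cast (by omega : E ≠ 0)
    simp only [Function.comp]
    rw [Nat.cast_mul, Nat.cast_div hdM hd0]
    field_simp

theorem rep_digit {M lo N0 k q E : ℕ} (hM : 1 ≤ M) (hlo : 1 ≤ lo) (hE : 1 ≤ E)
    (hc : Cover M lo N0 k) (hq : q ≤ N0) : Rep k ((q : ℚ) / ((E : ℚ) * M)) := by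
  rcases Nat.eq_zero_or_pos q with rfl | hq0
  · simpa using Rep.zero k
  set t := (lo + q - 1) / q with ht
  have h1 : lo ≤ q * t := by
    have := Nat.lt_mul_div_succ (lo + q - 1) hq0
    rw [← ht, Nat.mul_add, Nat.mul_one] at this
    omega
  have h2 : q * t ≤ lo + N0 := by
    have := Nat.mul_div_le (lo + q - 1) q
    rw [← ht] at this
    omega
  have ht0 : 1 ≤ t := by
    rcases Nat.eq_zero_or_pos t with h | h
    · rw [h, Nat.mul_zero] at h1; omega
    · exact h
  have h := rep_cover_point (E := E * t) hM (Nat.one_le_iff_ne_zero.2 (Nat.mul_ne_zero (by omega) (by omega))) hc h1 h2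
  have e : ((q * t : ℕ) : ℚ) / (((E * t : ℕ) : ℚ) * M) = (q : ℚ) / ((E : ℚ) * M) := by
    have ht' : (t : ℚ) ≠ 0 := by exact_mod_cast (by omega : t ≠ 0)
    push_cast
    field_simp
  rwa [e] at h

theorem pow_succ_sub_le {s : ℚ} (hs : 0 ≤ s) (n : ℕ) :
    (s + 1) ^ (n + 1) - s ^ (n + 1) ≤ ((n : ℚ) + 1) * (s + 1) ^ n := by
  induction n with
  | zero => simp
  | succ n ih =>
    have h : s ^ (n + 1) ≤ (s + 1) ^ (n + 1) := pow_le_pow_left₀ hs (by linarith) _
    have h2 := mul_le_mul_of_nonneg_left ih (by linarith : (0 : ℚ) ≤ s + 1)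
    push_cast
    simp only [pow_succ] at h h2 ⊢
    nlinarith

theorem rep_radix {M lo N0 k : ℕ} (hM : 1 ≤ M) (hlo : 1 ≤ lo) (hc : Cover M lo N0 k) :
    ∀ gs : List ℕ, (∀ g ∈ gs, 1 ≤ g ∧ g ≤ N0) → ∀ r : ℕ, r < gs.prod → ∀ X : ℕ, 1 ≤ X →
      Rep (gs.length * k) ((r : ℚ) / ((gs.prod : ℚ) * X * M)) := by
  intro gs
  induction gs with
  | nil =>
    intro _ r hr X _
    obtain rfl : r = 0 := by simpa using hr
    simpa using Rep.zero 0
  | cons g gs ih =>
    intro hg r hr X hX
    have hgs : ∀ x ∈ gs, 1 ≤ x ∧ x ≤ N0 := fun x hx => hg x (List.mem_cons_of_mem _ hx)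
    obtain ⟨hg1, hg2⟩ := hg g List.mem_cons_self
    set P := gs.prod with hP
    have hP0 : 0 < P := by
      rw [hP]
      refine Nat.pos_of_ne_zero (List.prod_ne_zero ?_)
      intro h; have := (hgs 0 h).1; omega
    rw [List.prod_cons, ← hP] at hr
    have hr1 : r / P < g := by rwa [Nat.div_lt_iff_lt_mul hP0]
    have hgX : 1 ≤ g * X := Nat.one_le_iff_ne_zero.2 (Nat.mul_ne_zero (by omega) (by omega))
    have h1 := rep_digit (q := r / P) (E := g * X) hM hlo hgX hc (le_trans hr1.le hg2)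
    have h2 := ih hgs (r % P) (Nat.mod_lt _ hP0) (g * X) hgX
    have h := h1.add h2
    have e : ((r / P : ℕ) : ℚ) / (((g * X : ℕ) : ℚ) * M) + ((r % P : ℕ) : ℚ) / ((P : ℚ) * ((g * X : ℕ) : ℚ) * M)
        = (r : ℚ) / (((g :: gs).prod : ℕ) * (X : ℚ) * M) := by
      have hr' : (r : ℚ) = ((r % P : ℕ) : ℚ) + P * ((r / P : ℕ) : ℚ) := by
        exact_mod_cast (Nat.mod_add_div r P).symm
      have hP' : (P : ℚ) ≠ 0 := by exact_mod_cast hP0.ne'
      have hX' : (X : ℚ) ≠ 0 := by exact_mod_cast (by omega : X ≠ 0)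
      have hg' : (g : ℚ) ≠ 0 := by exact_mod_cast (by omega : g ≠ 0)
      have hM' : (M : ℚ) ≠ 0 := by exact_mod_cast (by omega : M ≠ 0)
      rw [List.prod_cons, ← hP]
      push_cast
      rw [hr']
      field_simp
      ring
    rw [e] at h
    exact h.mono (by simp [List.length_cons, Nat.add_mul, Nat.add_comm])

theorem regroup_aux {N : ℕ} (hN : 1 ≤ N) :
    ∀ fs : List ℕ, (∀ f ∈ fs, 1 ≤ f ∧ f ≤ N) → ∃ (bs : List ℕ) (c : ℕ),
      (∀ x ∈ bs, N < x * x ∧ x ≤ N) ∧ 1 ≤ c ∧ c * c ≤ N ∧ bs.prod * c = fs.prod := by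
  intro fs
  induction fs with
  | nil => intro _; exact ⟨[], 1, by simp, le_rfl, by simpa using hN, by simp⟩
  | cons f fs ih =>
    intro hf
    obtain ⟨bs, c, hb, hc1, hc2, hp⟩ := ih fun x hx => hf x (List.mem_cons_of_mem _ hx)
    obtain ⟨hf1, hf2⟩ := hf f List.mem_cons_self
    by_cases hfb : N < f * f
    · refine ⟨f :: bs, c, ?_, hc1, hc2, by rw [List.prod_cons, List.prod_cons, ← hp, Nat.mul_assoc]⟩
      intro x hx
      rcases List.mem_cons.1 hx with rfl | hx
      · exact ⟨hfb, hf2⟩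
      · exact hb x hx
    · push Not at hfb
      have hcf : c * f ≤ N := by
        rcases le_total c f with h | h
        · exact le_trans (Nat.mul_le_mul_right f h) hfb
        · exact le_trans (Nat.mul_le_mul_left c h) hc2
      by_cases hm : N < (c * f) * (c * f)
      · refine ⟨(c * f) :: bs, 1, ?_, le_rfl, by simpa using hN, by rw [List.prod_cons, List.prod_cons, ← hp]; ring⟩
        intro x hx
        rcases List.mem_cons.1 hx with rfl | hx
        · exact ⟨hm, hcf⟩
        · exact hb x hx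
      · push Not at hm
        exact ⟨bs, c * f, hb, Nat.one_le_iff_ne_zero.2 (Nat.mul_ne_zero (by omega) (by omega)), hm,
          by rw [List.prod_cons, ← hp]; ring⟩

theorem regroup {N J : ℕ} (hN : 2 ≤ N) (fs : List ℕ) (hf : ∀ f ∈ fs, 1 ≤ f ∧ f ≤ N)
    (hp : fs.prod ≤ N ^ J) :
    ∃ gs : List ℕ, (∀ g ∈ gs, 1 ≤ g ∧ g ≤ N) ∧ gs.prod = fs.prod ∧ gs.length ≤ 2 * J + 1 := by
  obtain ⟨bs, c, hb, hc1, hc2, hpr⟩ := regroup_aux (by omega) fs hf
  refine ⟨c :: bs, ?_, by rw [List.prod_cons, ← hpr, Nat.mul_comm], ?_⟩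
  · intro g hg
    rcases List.mem_cons.1 hg with rfl | hg
    · exact ⟨hc1, le_trans (Nat.le_mul_of_pos_left _ (by omega)) hc2⟩
    · refine ⟨?_, (hb g hg).2⟩
      have := (hb g hg).1
      rcases Nat.eq_zero_or_pos g with h | h
      · simp [h] at this
      · exact h
  · have key : ∀ l : List ℕ, (∀ x ∈ l, N < x * x) → N ^ l.length ≤ l.prod * l.prod := by
      intro l
      induction l with
      | nil => simp
      | cons x l ih =>
        intro h
        rw [List.length_cons, List.prod_cons, pow_succ]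
        calc N ^ l.length * N ≤ (l.prod * l.prod) * (x * x) :=
              Nat.mul_le_mul (ih fun y hy => h y (List.mem_cons_of_mem _ hy)) (h x List.mem_cons_self).le
          _ = _ := by ring
    have h1 := key bs fun x hx => (hb x hx).1
    have h2 : bs.prod ≤ N ^ J := le_trans (Nat.le_mul_of_pos_right _ (by omega)) (hpr.trans_le hp)
    have h3 : N ^ bs.length ≤ N ^ (2 * J) := by
      refine h1.trans ((Nat.mul_le_mul h2 h2).trans ?_)
      rw [← pow_add]; exact le_of_eq (by ring_nf)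
    have := (Nat.pow_le_pow_iff_right hN).1 h3
    simp only [List.length_cons]
    omega

/-- `(J 2^J)`: the constant of a greedy step. -/
def cJ (J : ℕ) : ℕ := J * 2 ^ J

theorem greedy_step {J : ℕ} (hJ : 1 ≤ J) {v : ℚ} {N0 M : ℕ} (hM : M ≤ N0 ^ J) (hM0 : 1 ≤ M)
    (hv0 : 0 < v) (hv1 : v < 1) (hR : 1 < v * M) :
    ∃ t : ℕ, 2 ≤ t ∧ t ≤ N0 ∧ 1 ≤ v * (t : ℚ) ^ J ∧ v * (t : ℚ) ^ J ≤ 2 ^ J ∧
      v - 1 / (t : ℚ) ^ J ≤ (1 - 1 / 2 ^ J) * v ∧
      (v - 1 / (t : ℚ) ^ J) ^ J ≤ (cJ J : ℚ) ^ J * v ^ (J + 1) := by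
  classical
  have hex : ∃ t : ℕ, 1 ≤ v * (t : ℚ) ^ J := by
    obtain ⟨t, ht⟩ := exists_nat_gt (1 / v)
    refine ⟨t + 1, ?_⟩
    rw [div_lt_iff₀ hv0] at ht
    have h1 : ((t : ℚ) + 1) ≤ ((t : ℚ) + 1) ^ J := le_self_pow₀ (by
      have : (0 : ℚ) ≤ t := Nat.cast_nonneg t
      linarith) (by omega)
    push_cast
    nlinarith
  set t := Nat.find hex with ht
  have hts : 1 ≤ v * (t : ℚ) ^ J := Nat.find_spec hex
  have ht2 : 2 ≤ t := by
    by_contra h
    interval_cases ht' : t
    · simp [zero_pow (by omega : J ≠ 0)] at hts; linarith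
    · simp at hts; linarith
  have hprev : v * ((t - 1 : ℕ) : ℚ) ^ J < 1 := not_le.1 (Nat.find_min hex (by omega))
  set s : ℚ := ((t - 1 : ℕ) : ℚ) with hs
  have hs1 : 1 ≤ s := by rw [hs]; exact_mod_cast (by omega : 1 ≤ t - 1)
  have hts1 : (t : ℚ) = s + 1 := by rw [hs, Nat.cast_sub (by omega)]; push_cast; ring
  have h2s : (t : ℚ) ≤ 2 * s := by linarith
  have htp : (0 : ℚ) < (t : ℚ) := by linarith
  have hup : v * (t : ℚ) ^ J ≤ 2 ^ J := by
    calc v * (t : ℚ) ^ J ≤ v * (2 * s) ^ J := by gcongr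
      _ = 2 ^ J * (v * s ^ J) := by rw [mul_pow]; ring
      _ ≤ 2 ^ J * 1 := by gcongr
      _ = _ := mul_one _
  refine ⟨t, ht2, ?_, hts, hup, ?_, ?_⟩
  · -- `(t-1)^J < 1/v < M ≤ N0^J`
    have h1 : s ^ J < (M : ℚ) := by
      by_contra h
      push Not at h
      have : v * M ≤ v * s ^ J := mul_le_mul_of_nonneg_left h hv0.le
      linarith
    have h2 : (t - 1) ^ J < M := by
      rw [hs] at h1; exact_mod_cast h1
    have h3 : t - 1 < N0 := by
      by_contra h
      push Not at h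
      have := Nat.pow_le_pow_left h J
      omega
    omega
  · have h1 : v / 2 ^ J ≤ 1 / (t : ℚ) ^ J := by
      rw [div_le_div_iff₀ (by positivity) (by positivity), one_mul]; exact hup
    have : (1 - 1 / 2 ^ J) * v = v - v / 2 ^ J := by ring
    linarith
  · set v' := v - 1 / (t : ℚ) ^ J
    have hv'0 : 0 ≤ v' := by
      have : 1 / (t : ℚ) ^ J ≤ v := by rw [div_le_iff₀ (by positivity)]; linarith
      simp only [v']; linarith
    obtain ⟨J', rfl⟩ : ∃ J', J = J' + 1 := ⟨J - 1, by omega⟩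
    -- `v' ≤ cJ / t^(J+1)`
    have hb : v' * (t : ℚ) ^ (J' + 1 + 1) ≤ (cJ (J' + 1) : ℚ) := by
      have hsJ : (0 : ℚ) < s ^ (J' + 1) := by positivity
      have hvs : v ≤ 1 / s ^ (J' + 1) := by rw [le_div_iff₀ hsJ]; linarith
      have h1 : v' ≤ 1 / s ^ (J' + 1) - 1 / (t : ℚ) ^ (J' + 1) := by simp only [v']; linarith
      have hdiff : (t : ℚ) ^ (J' + 1) - s ^ (J' + 1) ≤ ((J' + 1 : ℕ) : ℚ) * (t : ℚ) ^ J' := by
        have hst : s ≤ (t : ℚ) := by linarith
        have := pow_succ_sub_le (by linarith : (0:ℚ) ≤ s) J'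
        rw [hts1]
        push_cast
        exact this
      calc v' * (t : ℚ) ^ (J' + 1 + 1)
          ≤ (1 / s ^ (J' + 1) - 1 / (t : ℚ) ^ (J' + 1)) * (t : ℚ) ^ (J' + 1 + 1) := by gcongr
        _ = ((t : ℚ) ^ (J' + 1) - s ^ (J' + 1)) * t / s ^ (J' + 1) := by field_simp; ring
        _ ≤ (((J' + 1 : ℕ) : ℚ) * (t : ℚ) ^ J') * t / s ^ (J' + 1) := by gcongr
        _ = ((J' + 1 : ℕ) : ℚ) * ((t : ℚ) / s) ^ (J' + 1) := by rw [div_pow]; field_simp; ring
        _ ≤ ((J' + 1 : ℕ) : ℚ) * 2 ^ (J' + 1) := by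
            gcongr; rw [div_le_iff₀ (by linarith)]; linarith
        _ = _ := by rw [cJ]; push_cast; ring
    set J := J' + 1
    have h2 : (v' * (t : ℚ) ^ (J + 1)) ^ J * 1 ≤ (cJ J : ℚ) ^ J * (v * (t : ℚ) ^ J) ^ (J + 1) :=
      mul_le_mul (pow_le_pow_left₀ (by positivity) hb _) (one_le_pow₀ hts) zero_le_one (by positivity)
    rw [mul_one, mul_pow, mul_pow, ← pow_mul, ← pow_mul, Nat.mul_comm J (J + 1), ← mul_assoc] at h2
    exact le_of_mul_le_mul_right h2 (by positivity)

/-- Number of greedy steps before the doubly exponential decay starts. -/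
def n0 (J : ℕ) : ℕ := 2 ^ J * (2 * cJ J ^ J)

/-- The growth constant of the denominator per greedy step. -/
def KK (J : ℕ) : ℕ := 2 ^ J * cJ J ^ J

open Classical in
/-- The greedy descent. -/
theorem descend {M N0 J a b : ℕ} (hJ : 1 ≤ J) (hM : M ≤ N0 ^ J) (hM0 : 1 ≤ M) (hN : 1 ≤ N0)
    (ha : a < b) (hb : b ≤ N0) (n : ℕ) :
    ∃ (seq : ℕ → ℚ), seq 0 = (a : ℚ) / b ∧
      (∀ i < n, seq i * M ≤ N0 → seq (i + 1) = seq i) ∧
      (∀ i < n, ¬ seq i * M ≤ N0 → seq (i + 1) ≤ (1 - 1 / 2 ^ J) * seq i ∧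
        seq (i + 1) ^ J ≤ (cJ J : ℚ) ^ J * seq i ^ (J + 1)) ∧
      (∀ i ≤ n, 0 ≤ seq i ∧ seq i ≤ (a : ℚ) / b ∧ Rep i ((a : ℚ) / b - seq i)) ∧
      ∃ (fs : List ℕ) (m : ℕ), (∀ f ∈ fs, 1 ≤ f ∧ f ≤ N0) ∧
        seq n = (m : ℚ) / (fs.prod : ℚ) ∧
        (fs.prod : ℚ) * seq n ^ J ≤ (b : ℚ) * (KK J : ℚ) ^ n ∧
        (fs.prod : ℚ) * ((N0 : ℚ) / M) ^ (J + 1) ≤ (b : ℚ) * ((N0 : ℚ) / M) ^ (J + 1) + (b : ℚ) * (KK J : ℚ) ^ n := by
  have hb0 : (0 : ℚ) < b := by exact_mod_cast (by omega : 0 < b)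
  have hab : (a : ℚ) / b < 1 := by rw [div_lt_one hb0]; exact_mod_cast ha
  have hKK : (1 : ℚ) ≤ (KK J : ℚ) := by
    exact_mod_cast Nat.one_le_iff_ne_zero.2 (Nat.mul_ne_zero (by positivity)
      (pow_ne_zero _ (Nat.mul_ne_zero (by omega) (by positivity))))
  induction n with
  | zero =>
    refine ⟨fun _ => (a : ℚ) / b, rfl, by omega, by omega, fun i hi => ⟨by positivity, le_rfl, by
      simpa using Rep.zero i⟩, [b], a, by simp; omega, by simp, ?_, by simp⟩
    simp only [List.prod_cons, List.prod_nil, mul_one, pow_zero]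
    exact mul_le_of_le_one_right hb0.le (pow_le_one₀ (by positivity) hab.le)
  | succ n ih =>
    obtain ⟨seq, h0, hst, hgo, hinv, fs, m, hfs, hv, hP1, hP2⟩ := ih
    set v := seq n with hvdef
    obtain ⟨hv0, hvle, hrep⟩ := hinv n le_rfl
    have hKmono : (b : ℚ) * (KK J : ℚ) ^ n ≤ (b : ℚ) * (KK J : ℚ) ^ (n + 1) :=
      mul_le_mul_of_nonneg_left (pow_le_pow_right₀ hKK (Nat.le_succ n)) hb0.le
    by_cases hstop : v * M ≤ N0
    · refine ⟨fun i => if i ≤ n then seq i else v, by simp [h0], ?_, ?_, ?_, fs, m, hfs, ?_, ?_, ?_⟩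
      · intro i hi hs
        rcases Nat.lt_or_eq_of_le (Nat.le_of_lt_succ hi) with h | h
        · simp only [show i ≤ n by omega, show i + 1 ≤ n by omega, if_true] at hs ⊢
          exact hst i h hs
        · subst h; simp [hvdef]
      · intro i hi hs
        rcases Nat.lt_or_eq_of_le (Nat.le_of_lt_succ hi) with h | h
        · simp only [show i ≤ n by omega, show i + 1 ≤ n by omega, if_true] at hs ⊢
          exact hgo i h hs
        · subst h; simp only [le_refl, if_true] at hs; exact absurd hstop hs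
      · intro i hi
        by_cases h : i ≤ n
        · simp only [h, if_true]; exact hinv i h
        · simp only [h, if_false]; exact ⟨hv0, hvle, hrep.mono (by omega)⟩
      · simp [hv]
      · simpa using hP1.trans hKmono
      · linarith
    · have hM' : (0 : ℚ) < M := by exact_mod_cast hM0
      have hN' : (1 : ℚ) ≤ N0 := by exact_mod_cast hN
      have hv1 : v < 1 := lt_of_le_of_lt hvle hab
      have hvpos : 0 < v := by
        rcases hv0.lt_or_eq with h | h
        · exact h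
        · exfalso; apply hstop; rw [hvdef, ← h, zero_mul]; linarith only [hN']
      have hRM : 1 < v * M := by push Not at hstop; linarith
      obtain ⟨t, ht2, htN, hlow, hup, hc1, hc2⟩ := greedy_step hJ hM hM0 hvpos hv1 hRM
      set v' := v - 1 / (t : ℚ) ^ J with hv'
      have htp : (0 : ℚ) < (t : ℚ) ^ J := by positivity
      have hv'0 : 0 ≤ v' := by
        have : 1 / (t : ℚ) ^ J ≤ v := by rw [div_le_iff₀ htp]; linarith
        linarith
      have hfs0 : (0 : ℚ) < (fs.prod : ℚ) := by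
        have : fs.prod ≠ 0 := List.prod_ne_zero fun h => by have := (hfs 0 h).1; omega
        exact_mod_cast Nat.pos_of_ne_zero this
      have hge : fs.prod ≤ m * t ^ J := by
        have : (fs.prod : ℚ) ≤ (m : ℚ) * (t : ℚ) ^ J := by
          rw [hv, div_mul_eq_mul_div, le_div_iff₀ hfs0, one_mul] at hlow; exact hlow
        exact_mod_cast this
      refine ⟨fun i => if i ≤ n then seq i else v', by simp [h0], ?_, ?_, ?_,
        List.replicate J t ++ fs, m * t ^ J - fs.prod, ?_, ?_, ?_, ?_⟩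
      · intro i hi hs
        rcases Nat.lt_or_eq_of_le (Nat.le_of_lt_succ hi) with h | h
        · simp only [show i ≤ n by omega, show i + 1 ≤ n by omega, if_true] at hs ⊢
          exact hst i h hs
        · subst h; simp only [le_refl, if_true] at hs; exact absurd hs hstop
      · intro i hi hs
        rcases Nat.lt_or_eq_of_le (Nat.le_of_lt_succ hi) with h | h
        · simp only [show i ≤ n by omega, show i + 1 ≤ n by omega, if_true] at hs ⊢
          exact hgo i h hs
        · subst h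
          simp only [le_refl, if_true, show ¬ (i + 1 ≤ i) by omega, if_false]
          exact ⟨hc1, hc2⟩
      · intro i hi
        by_cases h : i ≤ n
        · simp only [h, if_true]; exact hinv i h
        · obtain rfl : i = n + 1 := by omega
          simp only [h, if_false]
          refine ⟨hv'0, ?_, ?_⟩
          · have : 0 ≤ 1 / (t : ℚ) ^ J := by positivity
            linarith
          · have h1 : Rep 1 ((1 : ℚ) / ((t ^ J : ℕ) : ℚ)) := Rep.single (Nat.one_le_pow _ _ (by omega))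
            push_cast at h1
            have e : (a : ℚ) / b - v' = ((a : ℚ) / b - v) + 1 / (t : ℚ) ^ J := by rw [hv']; ring
            rw [e]
            exact hrep.add h1
      · intro f hf
        rcases List.mem_append.1 hf with hf | hf
        · rw [List.eq_of_mem_replicate hf]; omega
        · exact hfs f hf
      · simp only []
        rw [if_neg (by omega), hv', hv, List.prod_append, List.prod_replicate, Nat.cast_sub hge]
        simp only [Nat.cast_mul, Nat.cast_pow]
        field_simp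
      all_goals rw [List.prod_append, List.prod_replicate, Nat.cast_mul, Nat.cast_pow]
      · simp only []
        rw [if_neg (by omega : ¬ n + 1 ≤ n)]
        calc (t : ℚ) ^ J * (fs.prod : ℚ) * v' ^ J ≤ (t : ℚ) ^ J * (fs.prod : ℚ) * ((cJ J : ℚ) ^ J * v ^ (J + 1)) := by gcongr
          _ = (cJ J : ℚ) ^ J * (v * (t : ℚ) ^ J) * ((fs.prod : ℚ) * v ^ J) := by ring
          _ ≤ (cJ J : ℚ) ^ J * 2 ^ J * ((b : ℚ) * (KK J : ℚ) ^ n) := by gcongr
          _ = (b : ℚ) * (KK J : ℚ) ^ (n + 1) := by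
              rw [pow_succ (KK J : ℚ) n, show (KK J : ℚ) = 2 ^ J * (cJ J : ℚ) ^ J by rw [KK]; push_cast; rfl]
              ring
      · have hR : (N0 : ℚ) / M ≤ v := by
          rw [div_le_iff₀ hM']; push Not at hstop; linarith
        calc (t : ℚ) ^ J * (fs.prod : ℚ) * ((N0 : ℚ) / M) ^ (J + 1)
            ≤ (t : ℚ) ^ J * (fs.prod : ℚ) * v ^ (J + 1) := by gcongr
          _ = (v * (t : ℚ) ^ J) * ((fs.prod : ℚ) * v ^ J) := by ring
          _ ≤ 2 ^ J * ((b : ℚ) * (KK J : ℚ) ^ n) := by gcongr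
          _ ≤ (b : ℚ) * (KK J : ℚ) ^ (n + 1) := by
              rw [pow_succ]
              have : (2 : ℚ) ^ J ≤ (KK J : ℚ) := by
                have h : 2 ^ J ≤ KK J := Nat.le_mul_of_pos_right _ (Nat.pow_pos (Nat.pos_of_ne_zero
                  (Nat.mul_ne_zero (by omega) (by positivity))))
                exact_mod_cast h
              calc (2 : ℚ) ^ J * ((b : ℚ) * (KK J : ℚ) ^ n) ≤ (KK J : ℚ) * ((b : ℚ) * (KK J : ℚ) ^ n) := by gcongr
                _ = _ := by ring
          _ ≤ _ := le_add_of_nonneg_left (by positivity)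

/-- Number of greedy steps. -/
def nSteps (J M : ℕ) : ℕ := n0 J + J * (Nat.log 2 (Nat.log 2 M + 1) + 1)

/-- Every `a / b` with `b ≤ N0` is a short sum of unit fractions. -/
theorem rep_fraction {M lo N0 k J : ℕ} (hJ : 1 ≤ J) (hM0 : 1 ≤ M) (hlo : 1 ≤ lo) (hN : 2 ≤ N0)
    (hM : M ≤ N0 ^ J) (hc : Cover M lo N0 k) {a b : ℕ} (ha : a < b) (hb : b ≤ N0)
    (hK : KK J ^ nSteps J M ≤ N0) :
    Rep (nSteps J M + (2 * (J * (J + 1) + 3) + 2) * k) ((a : ℚ) / b) := by
  classical
  set n := nSteps J M with hn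
  obtain ⟨seq, h0, hst, hgo, hinv, fs, m, hfs, hv, -, hP2⟩ :=
    descend (a := a) (b := b) hJ hM hM0 (by omega) ha hb n
  have hM' : (0 : ℚ) < M := by exact_mod_cast hM0
  have hN' : (1 : ℚ) ≤ N0 := by exact_mod_cast (by omega : 1 ≤ N0)
  have hb0 : (0 : ℚ) < b := by exact_mod_cast (by omega : 0 < b)
  -- the descent has reached `N0 / M`
  have hfinal : seq n * M ≤ N0 := by
    by_contra hc'
    have hall : ∀ i ≤ n, ¬ seq i * M ≤ N0 := by
      intro i hi hs
      apply hc'
      have hconst : ∀ d, i + d ≤ n → seq (i + d) = seq i := by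
        intro d
        induction d with
        | zero => simp
        | succ d ih =>
          intro hd
          have e := ih (by omega)
          rw [← Nat.add_assoc, hst (i + d) (by omega) (by rw [e]; exact hs), e]
      rw [show n = i + (n - i) by omega, hconst (n - i) (by omega)]
      exact hs
    set c : ℚ := (cJ J : ℚ) ^ J with hcdef
    have hc1 : 1 ≤ c := by
      rw [hcdef]; exact one_le_pow₀ (by exact_mod_cast Nat.one_le_iff_ne_zero.2 (Nat.mul_ne_zero (by omega) (by positivity)))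
    set u : ℚ := 1 / 2 ^ J with hu
    have hu0 : 0 < u := by positivity
    have hu1 : u ≤ 1 := by rw [hu, div_le_one (by positivity)]; exact one_le_pow₀ one_le_two
    have hgeo : ∀ i ≤ n, seq i * (1 + i * u) ≤ 1 := by
      intro i
      induction i with
      | zero =>
        intro _
        rw [h0]; simp only [Nat.cast_zero, zero_mul, add_zero, mul_one]
        rw [div_le_one hb0]; exact_mod_cast ha.le
      | succ i ih =>
        intro hi
        have h := (hgo i (by omega) (hall i (by omega))).1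
        have hs0 := (hinv i (by omega)).1
        have hprev := ih (by omega)
        push_cast
        have h2 : (1 - u) * (1 + ((i : ℚ) + 1) * u) ≤ 1 + i * u := by nlinarith [sq_nonneg u, mul_nonneg (Nat.cast_nonneg (α := ℚ) i) (sq_nonneg u)]
        have h3 : (0 : ℚ) ≤ 1 + ((i : ℚ) + 1) * u := by positivity
        calc seq (i + 1) * (1 + ((i : ℚ) + 1) * u) ≤ (1 - u) * seq i * (1 + ((i : ℚ) + 1) * u) :=
              mul_le_mul_of_nonneg_right h h3
          _ = seq i * ((1 - u) * (1 + ((i : ℚ) + 1) * u)) := by ring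
          _ ≤ seq i * (1 + i * u) := mul_le_mul_of_nonneg_left h2 hs0
          _ ≤ 1 := hprev
    let w : ℕ → ℚ := fun i => c * seq i
    have hhalf : w (n0 J) ≤ 1 / 2 := by
      have hle : n0 J ≤ n := Nat.le_add_right _ _
      have h := hgeo _ hle
      have hs0 := (hinv _ hle).1
      have e : ((n0 J : ℕ) : ℚ) * u = 2 * c := by
        rw [n0, hu, hcdef]; push_cast; field_simp
      rw [e] at h
      simp only [w]
      nlinarith
    have hw : ∀ i < n, w (i + 1) ≤ w i ∧ w (i + 1) ^ J ≤ w i ^ J * w i := by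
      intro i hi
      obtain ⟨h1, h2⟩ := hgo i hi (hall i hi.le)
      have hs0 := (hinv i hi.le).1
      refine ⟨?_, ?_⟩
      · simp only [w]
        refine mul_le_mul_of_nonneg_left (h1.trans ?_) (by linarith)
        exact mul_le_of_le_one_left hs0 (by linarith)
      · simp only [w]
        calc (c * seq (i + 1)) ^ J = c ^ J * seq (i + 1) ^ J := mul_pow _ _ _
          _ ≤ c ^ J * (c * seq i ^ (J + 1)) := by gcongr
          _ = (c * seq i) ^ J * (c * seq i) := by rw [mul_pow, pow_succ]; ring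
    have hw0 : ∀ i ≤ n, 0 ≤ w i := fun i hi => mul_nonneg (by linarith) (hinv i hi).1
    have hblock : ∀ p, p + J ≤ n → w (p + J) ≤ w p ^ 2 := by
      intro p hp
      have hmono : ∀ q, p + q ≤ n → w (p + q) ≤ w p ∧ w (p + q) ^ J ≤ w p ^ J * w (p + q) ^ 0 * ∏ l ∈ range q, w (p + l) := by
        intro q
        induction q with
        | zero => intro _; simp
        | succ q ih =>
          intro hq
          obtain ⟨i1, i2⟩ := ih (by omega)
          obtain ⟨w1, w2⟩ := hw (p + q) (by omega)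
          rw [← Nat.add_assoc]
          refine ⟨w1.trans i1, ?_⟩
          simp only [pow_zero, mul_one] at i2 ⊢
          rw [prod_range_succ, ← mul_assoc]
          exact w2.trans (mul_le_mul_of_nonneg_right i2 (hw0 _ (by omega)))
      have h2 := (hmono J hp).2
      simp only [pow_zero, mul_one] at h2
      have h3 : ∏ l ∈ range J, w (p + l) ≤ w p ^ J := by
        calc ∏ l ∈ range J, w (p + l) ≤ ∏ _l ∈ range J, w p := by
              refine Finset.prod_le_prod (fun l hl => hw0 _ (by simp at hl; omega)) fun l hl => ?_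
              exact (hmono l (by simp at hl; omega)).1
          _ = _ := by simp
      refine (pow_le_pow_iff_left₀ (hw0 _ hp) (sq_nonneg _) (by omega : J ≠ 0)).1 ?_
      calc w (p + J) ^ J ≤ w p ^ J * ∏ l ∈ range J, w (p + l) := h2
        _ ≤ w p ^ J * w p ^ J := mul_le_mul_of_nonneg_left h3 (pow_nonneg (hw0 _ (by omega)) _)
        _ = _ := by rw [← pow_mul, two_mul, pow_add]
    set s := Nat.log 2 (Nat.log 2 M + 1) + 1 with hs
    have hiter : ∀ i ≤ s, w (n0 J + J * i) ≤ (1 / 2) ^ 2 ^ i := by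
      intro i
      induction i with
      | zero => intro _; simpa using hhalf
      | succ i ih =>
        intro hi
        have hle : n0 J + J * i + J ≤ n := by
          have : J * (i + 1) ≤ J * s := Nat.mul_le_mul_left _ hi
          rw [Nat.mul_succ] at this
          rw [hn, nSteps, ← hs]; omega
        rw [Nat.mul_succ, ← Nat.add_assoc, pow_succ 2 i, pow_mul]
        exact (hblock _ hle).trans (pow_le_pow_left₀ (hw0 _ (by omega)) (ih (by omega)) 2)
    have hlast := hiter s le_rfl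
    have hns : n0 J + J * s = n := by rw [hn, nSteps]
    rw [hns] at hlast
    have hMs : (M : ℚ) ≤ 2 ^ 2 ^ s := by
      have h1 : M < 2 ^ (Nat.log 2 M + 1) := Nat.lt_pow_succ_log_self (by norm_num) M
      have h2 : Nat.log 2 M + 1 < 2 ^ s := Nat.lt_pow_succ_log_self (by norm_num) _
      have : M ≤ 2 ^ 2 ^ s := (h1.trans_le (Nat.pow_le_pow_right (by norm_num) h2.le)).le
      exact_mod_cast this
    apply hc'
    have hsn := (hinv n le_rfl).1
    have hle : seq n ≤ (1 / 2) ^ 2 ^ s := le_trans (le_mul_of_one_le_left hsn hc1) hlast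
    calc seq n * M ≤ (1 / 2) ^ 2 ^ s * 2 ^ 2 ^ s := mul_le_mul hle hMs hM'.le (by positivity)
      _ = 1 := by rw [← mul_pow]; norm_num
      _ ≤ _ := hN'
  obtain ⟨hvn0, -, hrep⟩ := hinv n le_rfl
  set P := fs.prod with hP
  have hPpos : 0 < P := Nat.pos_of_ne_zero (List.prod_ne_zero fun h => by have := (hfs 0 h).1; omega)
  -- size of the denominator
  have hPle : P ≤ N0 ^ (J * (J + 1) + 3) := by
    have hr : (0 : ℚ) < ((N0 : ℚ) / M) ^ (J + 1) := by positivity
    have h1 : (P : ℚ) ≤ b + (b : ℚ) * (KK J : ℚ) ^ n * ((M : ℚ) / N0) ^ (J + 1) := by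
      have e : ((M : ℚ) / N0) ^ (J + 1) = 1 / ((N0 : ℚ) / M) ^ (J + 1) := by
        rw [← one_div_pow, one_div_div]
      rw [e, mul_one_div, ← sub_le_iff_le_add', le_div_iff₀ hr]
      linarith
    have h2 : ((M : ℚ) / N0) ^ (J + 1) ≤ (((N0 ^ (J * (J + 1))) : ℕ) : ℚ) := by
      refine le_trans (pow_le_pow_left₀ (by positivity) (div_le_self hM'.le hN') _) ?_
      have : M ^ (J + 1) ≤ N0 ^ (J * (J + 1)) := by rw [pow_mul]; exact Nat.pow_le_pow_left hM _
      exact_mod_cast this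
    have h3 : (P : ℚ) ≤ ((b + b * KK J ^ n * N0 ^ (J * (J + 1)) : ℕ) : ℚ) := by
      push_cast at h2 ⊢
      refine h1.trans (add_le_add le_rfl ?_)
      gcongr
    have h4 : P ≤ b + b * KK J ^ n * N0 ^ (J * (J + 1)) := by exact_mod_cast h3
    calc P ≤ b + b * KK J ^ n * N0 ^ (J * (J + 1)) := h4
      _ ≤ N0 + N0 * N0 * N0 ^ (J * (J + 1)) :=
          Nat.add_le_add hb (Nat.mul_le_mul_right _ (Nat.mul_le_mul hb hK))
      _ ≤ N0 ^ (J * (J + 1) + 2) * 2 := by
          have : N0 ≤ N0 ^ (J * (J + 1) + 2) := Nat.le_self_pow (by omega) _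
          have e : N0 * N0 * N0 ^ (J * (J + 1)) = N0 ^ (J * (J + 1) + 2) := by ring
          omega
      _ ≤ _ := by rw [pow_succ _ (J * (J + 1) + 2)]; exact Nat.mul_le_mul_left _ hN
  obtain ⟨gs, hgs, hgp, hglen⟩ := regroup hN fs hfs hPle
  -- the head
  rcases Nat.eq_zero_or_pos m with hm | hm
  · have : seq n = 0 := by rw [hv, hm]; simp
    rw [this, sub_zero] at hrep
    exact hrep.mono (Nat.le_add_right _ _)
  have hmM : m * M ≤ N0 * P := by
    have : (m : ℚ) * M ≤ (N0 : ℚ) * P := by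
      rw [hv, div_mul_eq_mul_div, div_le_iff₀ (by exact_mod_cast hPpos)] at hfinal
      exact hfinal
    exact_mod_cast this
  have hmM0 : 0 < m * M := Nat.mul_pos hm (by omega)
  set G := (lo * P + m * M - 1) / (m * M) with hG
  have hG1 : lo * P ≤ m * M * G := by
    have := Nat.lt_mul_div_succ (lo * P + m * M - 1) hmM0
    rw [← hG, Nat.mul_add, Nat.mul_one] at this
    omega
  have hG2 : m * M * G < lo * P + m * M := by
    have := Nat.mul_div_le (lo * P + m * M - 1) (m * M)
    rw [← hG] at this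
    omega
  have hG0 : 1 ≤ G := by
    rcases Nat.eq_zero_or_pos G with h | h
    · rw [h, Nat.mul_zero] at hG1
      have := Nat.mul_pos (by omega : 0 < lo) hPpos
      omega
    · exact h
  have hq1 : lo ≤ m * M * G / P := by rw [Nat.le_div_iff_mul_le hPpos]; exact hG1
  have hq2 : m * M * G / P ≤ lo + N0 := by
    refine Nat.le_of_lt_succ ?_
    rw [Nat.div_lt_iff_lt_mul hPpos, Nat.succ_mul, Nat.add_mul]
    omega
  have hhead := rep_cover_point (E := G) hM0 hG0 hc hq1 hq2
  have htail := rep_radix hM0 hlo hc gs hgs (m * M * G % P) (by rw [hgp]; exact Nat.mod_lt _ hPpos) G hG0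
  have h := hrep.add (hhead.add htail)
  have e : (a : ℚ) / b - seq n + (((m * M * G / P : ℕ) : ℚ) / ((G : ℚ) * M)
      + ((m * M * G % P : ℕ) : ℚ) / ((gs.prod : ℚ) * G * M)) = (a : ℚ) / b := by
    rw [hgp, ← hP, hv]
    have hsum : ((m * M * G % P : ℕ) : ℚ) + (P : ℚ) * ((m * M * G / P : ℕ) : ℚ) = (m : ℚ) * M * G := by
      exact_mod_cast Nat.mod_add_div (m * M * G) P
    have hP' : (P : ℚ) ≠ 0 := by exact_mod_cast hPpos.ne'
    have hG' : (G : ℚ) ≠ 0 := by exact_mod_cast (by omega : G ≠ 0)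
    field_simp
    linear_combination (b : ℚ) * hsum
  rw [e] at h
  refine h.mono ?_
  have : gs.length * k ≤ (2 * (J * (J + 1) + 3) + 1) * k := Nat.mul_le_mul_right _ hglen
  have e2 : (2 * (J * (J + 1) + 3) + 2) * k = (2 * (J * (J + 1) + 3) + 1) * k + k := by ring
  omega

end Vale.Agent.P012
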