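import Mathlib
import Vale.Agent.P012.Reduce
import Vale.Agent.P012.Lower

/-!
Assembly: for every large `z` and `b ≤ 2 ^ z`, every `a / b` is a sum of `O(log z)` distinct unit
fractions.
-/

namespace Vale.Agent.P012
open Finset

theorem sq_le_two_pow (n : ℕ) : n * n ≤ 2 * 2 ^ n := by
  induction n with
  | zero => simp
  | succ n ih =>
    rcases Nat.lt_or_ge n 3 with h | h
    · interval_cases n <;> norm_num
    · rw [pow_succ]; nlinarith

theorem eventually_linear_log_le (a b : ℕ) :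
    ∃ Z : ℕ, ∀ z, Z ≤ z → a + b * Nat.log 2 z ≤ z := by
  refine ⟨2 * (a + b) * (a + b) + a + 1, fun z hz => ?_⟩
  rcases Nat.lt_or_ge (2 * (a + b)) (Nat.log 2 z) with h | h
  · have h1 : 2 ^ Nat.log 2 z ≤ z := Nat.pow_log_le_self 2 (by omega)
    have h2 := sq_le_two_pow (Nat.log 2 z)
    nlinarith
  · nlinarith

theorem log_log_bound {J M z : ℕ} (hJ : 1 ≤ J) (hz : 1 ≤ z) (hM : M ≤ (z ^ (100 * z)) ^ J) :
    Nat.log 2 (Nat.log 2 M + 1) ≤ 2 * Nat.log 2 z + (Nat.log 2 (201 * J) + 3) := by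
  have hL : z < 2 ^ (Nat.log 2 z + 1) := Nat.lt_pow_succ_log_self (by norm_num) z
  have h1 : Nat.log 2 M ≤ (Nat.log 2 z + 1) * (100 * z) * J := by
    refine le_trans (Nat.log_mono_right hM) ?_
    refine le_of_le_of_eq (Nat.log_mono_right
      (Nat.pow_le_pow_left (Nat.pow_le_pow_left hL.le _) _)) ?_
    rw [← pow_mul, ← pow_mul, Nat.log_pow (by norm_num)]
    ring
  have h2 : Nat.log 2 M + 1 ≤ 201 * J * (z * z) := by
    have h3 : Nat.log 2 z + 1 ≤ 2 * z := by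
      have := Nat.log_le_self 2 z
      omega
    have h4 : (Nat.log 2 z + 1) * (100 * z) * J ≤ 200 * J * (z * z) := by
      calc (Nat.log 2 z + 1) * (100 * z) * J ≤ 2 * z * (100 * z) * J :=
            Nat.mul_le_mul_right _ (Nat.mul_le_mul_right _ h3)
        _ = _ := by ring
    have h5 : 1 ≤ J * (z * z) := Nat.one_le_iff_ne_zero.2
      (Nat.mul_ne_zero (by omega) (Nat.mul_ne_zero (by omega) (by omega)))
    nlinarith
  have h6 : Nat.log 2 M + 1 < 2 ^ (2 * Nat.log 2 z + (Nat.log 2 (201 * J) + 3)) := by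
    refine lt_of_le_of_lt h2 ?_
    have h7 : 201 * J < 2 ^ (Nat.log 2 (201 * J) + 1) := Nat.lt_pow_succ_log_self (by norm_num) _
    calc 201 * J * (z * z) < 2 ^ (Nat.log 2 (201 * J) + 1) * (2 ^ (Nat.log 2 z + 1) * 2 ^ (Nat.log 2 z + 1)) :=
          Nat.mul_lt_mul_of_lt_of_le h7 (Nat.mul_le_mul hL.le hL.le) (by positivity)
      _ = _ := by rw [← pow_add, ← pow_add]; ring_nf
  exact (Nat.log_lt_of_lt_pow (by omega) h6).le

/-- A pool exists for every large parameter. -/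
theorem exists_Pool : ∃ Z : ℕ, ∀ z, Z ≤ z → ∃ P : Pool, P.z = z := by
  classical
  obtain ⟨Z, -, hZ⟩ := exists_prime_blocks
  refine ⟨Z + 10 ^ 8, fun z hz => ?_⟩
  have hcard : Fintype.card (Σ i : Fin (2 * z), Fin (if (i : ℕ) < bigCount then z else 16)) ≤ z ^ 2 := by
    rw [Fintype.card_sigma]
    simp only [Fintype.card_fin]
    calc ∑ i : Fin (2 * z), (if (i : ℕ) < bigCount then z else 16)
        ≤ ∑ i : Fin (2 * z), (16 + if (i : ℕ) < bigCount then z else 0) :=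
          Finset.sum_le_sum fun i _ => by split_ifs <;> omega
      _ = 2 * z * 16 + (univ.filter fun i : Fin (2 * z) => (i : ℕ) < bigCount).card * z := by
          rw [Finset.sum_add_distrib, ← Finset.sum_filter, Finset.sum_const, Finset.sum_const]
          simp only [Finset.card_univ, Fintype.card_fin, smul_eq_mul]
      _ ≤ 2 * z * 16 + bigCount * z := by
          refine Nat.add_le_add_left (Nat.mul_le_mul_right _ ?_) _
          refine (Finset.card_le_card_of_injOn (fun i : Fin (2 * z) => (i : ℕ)) (t := range bigCount) ?_ ?_).trans (Finset.card_range _).le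
          · intro i hi; simpa using hi
          · intro i _ j _ h; exact Fin.ext h
      _ ≤ z ^ 2 := by unfold bigCount; nlinarith
  obtain ⟨U, B, hU1, hU2, hc, hB, hd⟩ := hZ z (by omega) _ hcard
  exact ⟨⟨z, by omega, U, hU1, hU2, B, hc, hB, hd⟩, rfl⟩

/-- The main upper bound: `O(log z)` distinct unit fractions for `b ≤ 2 ^ z`. -/
theorem upper_bound : ∃ A B Z : ℕ, ∀ z, Z ≤ z → ∀ a b : ℕ, 1 ≤ a → a < b → b ≤ 2 ^ z →
    ∃ s : Finset ℕ, s.card ≤ A + B * Nat.log 2 z ∧ (∀ n ∈ s, 2 ≤ n) ∧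
      ∑ n ∈ s, (1 : ℚ) / n = (a : ℚ) / b := by
  obtain ⟨J, hJdef, hJ⟩ : ∃ J, J = Pool.CM ∧ 1 ≤ J := ⟨_, rfl, by rw [Pool.CM_eq]; omega⟩
  obtain ⟨Z0, hPool⟩ := exists_Pool
  obtain ⟨K, hK⟩ : ∃ K, K = KK J := ⟨_, rfl⟩
  obtain ⟨S0, hS0⟩ : ∃ S0, S0 = n0 J + J * (Nat.log 2 (201 * J) + 4) := ⟨_, rfl⟩
  obtain ⟨Z1, hlin⟩ := eventually_linear_log_le ((Nat.log 2 K + 1) * S0) ((Nat.log 2 K + 1) * (2 * J))
  obtain ⟨c, hc⟩ : ∃ c, c = (13 + 3 * nSmall) * 64 * C0 := ⟨_, rfl⟩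
  obtain ⟨T, hT⟩ : ∃ T, T = 2 * (J * (J + 1) + 3) + 2 := ⟨_, rfl⟩
  refine ⟨S0 + T * (8 * c * (nMain * 100 + nSmall) + 16 * c ^ 2), 2 * J + T * (8 * c * (nMain * 100)),
    Z0 + Z1 + (4 * iT + 2 * bigCount + 4) + 256 * C0 + 1, fun z hz a b ha hab hb => ?_⟩
  obtain ⟨P, hP⟩ := hPool z (by omega)
  obtain ⟨M, lo, N0, hM1, hlo, hM, hN1, hN2, hcov⟩ := P.exists_cover (by omega) (by omega)
  rw [hP] at hN1 hN2
  rw [← hJdef] at hM
  rw [← hc] at hcov
  have hsteps : nSteps J M ≤ S0 + 2 * J * Nat.log 2 z := by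
    have h := log_log_bound hJ (by omega : 1 ≤ z) (hM.trans (Nat.pow_le_pow_left hN2 _))
    rw [nSteps, hS0]
    calc n0 J + J * (Nat.log 2 (Nat.log 2 M + 1) + 1)
        ≤ n0 J + J * (2 * Nat.log 2 z + (Nat.log 2 (201 * J) + 3) + 1) :=
          Nat.add_le_add_left (Nat.mul_le_mul_left _ (Nat.add_le_add_right h 1)) _
      _ = _ := by ring
  have hKK : KK J ^ nSteps J M ≤ N0 := by
    rw [← hK]
    refine le_trans ?_ hN1
    have h1 : K ≤ 2 ^ (Nat.log 2 K + 1) := (Nat.lt_pow_succ_log_self (by norm_num) K).le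
    calc K ^ nSteps J M ≤ (2 ^ (Nat.log 2 K + 1)) ^ nSteps J M := Nat.pow_le_pow_left h1 _
      _ = 2 ^ ((Nat.log 2 K + 1) * nSteps J M) := (pow_mul _ _ _).symm
      _ ≤ 2 ^ z := by
        refine Nat.pow_le_pow_right (by norm_num) ?_
        refine (Nat.mul_le_mul_left _ hsteps).trans (le_trans (le_of_eq ?_) (hlin z (by omega)))
        ring
  have hN : 2 ≤ N0 := le_trans (Nat.le_self_pow (by omega : z ≠ 0) 2) hN1
  have hrep := rep_fraction hJ hM1 hlo hN hM hcov hab (hb.trans hN1) hKK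
  have hq : (a : ℚ) / b < 1 := by
    rw [div_lt_one (by exact_mod_cast (by omega : 0 < b))]
    exact_mod_cast hab
  obtain ⟨s, hs, h2, hsum⟩ := hrep.distinct hq
  refine ⟨s, hs.trans ?_, h2, hsum⟩
  rw [← hT]
  have hrc : P.rc = 100 * (Nat.log 2 z + 1) := by rw [Pool.rc, Pool.rh, hP]; ring
  rw [hrc]
  calc nSteps J M + T * (8 * c * (nMain * (100 * (Nat.log 2 z + 1)) + nSmall) + 16 * c ^ 2)
      ≤ (S0 + 2 * J * Nat.log 2 z)
        + T * (8 * c * (nMain * (100 * (Nat.log 2 z + 1)) + nSmall) + 16 * c ^ 2) :=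
        Nat.add_le_add_right hsteps _
    _ = _ := by ring

/-- Real form of the upper bound. -/
theorem upper_bound_real : ∃ C : ℝ, 0 < C ∧ ∃ b0 : ℕ, ∀ b, b0 ≤ b → ∀ a, 1 ≤ a → a < b →
    ∃ s : Finset ℕ, (s.card : ℝ) ≤ C * Real.log (Real.log b) ∧ (∀ n ∈ s, 2 ≤ n) ∧
      ∑ n ∈ s, (1 : ℚ) / n = (a : ℚ) / b := by
  obtain ⟨A, B, Z, h⟩ := upper_bound
  refine ⟨(A : ℝ) + 4 * B + 1, by positivity, max (2 ^ Z) (⌈Real.exp (Real.exp 4)⌉₊ + 3),
    fun b hb a ha hab => ?_⟩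
  obtain ⟨hbZ, hbe⟩ := max_le_iff.1 hb
  have hZ : Z ≤ Nat.log 2 b + 1 := by
    have := Nat.le_log_of_pow_le (by norm_num) hbZ
    omega
  obtain ⟨s, hs, h2, hsum⟩ := h (Nat.log 2 b + 1) hZ a b ha hab
    (Nat.lt_pow_succ_log_self (by norm_num) b).le
  refine ⟨s, ?_, h2, hsum⟩
  have hb' : Real.exp (Real.exp 4) ≤ (b : ℝ) :=
    (Nat.le_ceil _).trans (by exact_mod_cast (le_trans (Nat.le_add_right _ _) hbe))
  have hbpos : (0 : ℝ) < b := lt_of_lt_of_le (Real.exp_pos _) hb'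
  have hlogb : Real.exp 4 ≤ Real.log b := (Real.le_log_iff_exp_le hbpos).2 hb'
  have hlogpos : 0 < Real.log b := lt_of_lt_of_le (Real.exp_pos _) hlogb
  have hll : 4 ≤ Real.log (Real.log b) := (Real.le_log_iff_exp_le hlogpos).2 hlogb
  have hlog1 : 1 ≤ Real.log b := le_trans (Real.one_le_exp (by norm_num)) hlogb
  have hlog2 := Real.log_two_gt_d9
  have hL : ∀ n : ℕ, (Nat.log 2 n : ℝ) * Real.log 2 ≤ Real.log n := by
    intro n
    rcases Nat.eq_zero_or_pos n with rfl | hn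
    · simp
    · rw [← Real.log_pow]
      apply Real.log_le_log (by positivity)
      exact_mod_cast Nat.pow_log_le_self 2 (by omega)
  have hz4 : ((Nat.log 2 b + 1 : ℕ) : ℝ) ≤ 4 * Real.log b := by
    have := hL b
    push_cast
    nlinarith [Nat.cast_nonneg (α := ℝ) (Nat.log 2 b)]
  have hLz : (Nat.log 2 (Nat.log 2 b + 1) : ℝ) ≤ 4 * Real.log (Real.log b) := by
    have h1 := hL (Nat.log 2 b + 1)
    have h3 : Real.log ((Nat.log 2 b + 1 : ℕ) : ℝ) ≤ 2 * Real.log (Real.log b) := by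
      refine (Real.log_le_log (by positivity) hz4).trans ?_
      rw [Real.log_mul (by norm_num) hlogpos.ne']
      have : Real.log 4 ≤ 3 := by
        have := Real.log_le_sub_one_of_pos (show (0 : ℝ) < 4 by norm_num)
        linarith
      linarith
    nlinarith [Nat.cast_nonneg (α := ℝ) (Nat.log 2 (Nat.log 2 b + 1))]
  have hs' : (s.card : ℝ) ≤ A + B * (Nat.log 2 (Nat.log 2 b + 1) : ℝ) := by exact_mod_cast hs
  have hA : (0 : ℝ) ≤ A := Nat.cast_nonneg _
  have hB : (0 : ℝ) ≤ B := Nat.cast_nonneg _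
  nlinarith [mul_le_mul_of_nonneg_left hLz hB, mul_le_mul_of_nonneg_left (by linarith : (1:ℝ) ≤ Real.log (Real.log b)) hA]

/-- Real form of the lower bound: an expansion of `(b-1)/b` has `≫ log log b` terms. -/
theorem lower_bound_real {b : ℕ} (hb : 3 ≤ b) (s : Finset ℕ) (hs1 : ∀ n ∈ s, 1 ≤ n)
    (hsum : ∑ n ∈ s, (1 : ℚ) / n = ((b - 1 : ℕ) : ℚ) / b) :
    1 / 7 * Real.log (Real.log b) ≤ (s.card : ℝ) := by
  have hb1 : ((b - 1 : ℕ) : ℚ) = (b : ℚ) - 1 := by
    rw [Nat.cast_sub (by omega)]; norm_num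
  rw [hb1] at hsum
  have hk : 1 ≤ s.card := by
    rw [Nat.one_le_iff_ne_zero]
    intro h
    rw [Finset.card_eq_zero] at h
    rw [h, Finset.sum_empty] at hsum
    have h3 : (3 : ℚ) ≤ b := by exact_mod_cast hb
    have : 0 < ((b : ℚ) - 1) / b := div_pos (by linarith) (by linarith)
    linarith
  have hB := pred_div_self_bound s.card hk b (by omega) s le_rfl hs1 hsum
  set k := s.card
  have hbR : (3 : ℝ) ≤ b := by exact_mod_cast hb
  have hkR : (1 : ℝ) ≤ k := by exact_mod_cast hk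
  have h1 : Real.log b ≤ (3 : ℝ) ^ k * Real.log (4 * k) := by
    have := Real.log_le_log (by linarith) (by exact_mod_cast hB : (b : ℝ) ≤ (4 * (k : ℝ)) ^ 3 ^ k)
    rw [Real.log_pow] at this
    push_cast at this
    exact this
  have h2 : Real.log (4 * k) ≤ 4 * (k : ℝ) := by
    have := Real.log_le_sub_one_of_pos (show (0 : ℝ) < 4 * k by positivity)
    linarith
  have h3 : Real.log b ≤ 4 * ((3 : ℝ) ^ k * k) := by
    refine h1.trans ?_
    calc (3 : ℝ) ^ k * Real.log (4 * k) ≤ (3 : ℝ) ^ k * (4 * k) :=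
          mul_le_mul_of_nonneg_left h2 (by positivity)
      _ = _ := by ring
  have h4 : 1 < Real.log b := by
    rw [Real.lt_log_iff_exp_lt (by linarith)]
    linarith [Real.exp_one_lt_d9]
  have h5 := Real.log_le_log (by linarith) h3
  rw [Real.log_mul (by norm_num) (by positivity), Real.log_mul (by positivity) (by positivity),
    Real.log_pow] at h5
  have l4 := Real.log_le_sub_one_of_pos (show (0 : ℝ) < 4 by norm_num)
  have l3 := Real.log_le_sub_one_of_pos (show (0 : ℝ) < 3 by norm_num)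
  have lk := Real.log_le_sub_one_of_pos (show (0 : ℝ) < (k : ℝ) by linarith)
  nlinarith

end Vale.Agent.P012
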